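import Crest.Agent.R105.Nie5_909

/-!
# Row 105, S0138 (NI frame), node NIEP, part 6 (helper909): `LIMP` anchor by anchor
-/

set_option autoImplicit false

open MeasureTheory Set Filter Topology Metric
open scoped NNReal ENNReal

namespace Crest.Agent.R105.Nie_909

open Crest.AnalysisR Tc_808 Ni_459 Sqr_185 Ends_897 Plv_626
open Bd_775 (Q en)
open IfB_641 (X0)
open Cq_463 (Sqr QPic)
open CF_363 (Hair g2 SL CFJ CF cut mem_cut isClosed_cut isCompact_cut volume_cut)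
open Skp2_257 (Comps Reg)
open Tra_937 (setR setC toC Uni)
open Pct_185 (PicT Sol)
open Stp_722 (OscLe)
open Ta_937 (sqs hrs corE)
open SkA_8 (Pk)
open SkJ_987 (PE AdmP endMap TCont)
open Exs_992 (LimOf)
open SkT1_137 (TFin)

noncomputable section

variable {U : Set ℂ} {F : ℂ → ℂ} {x0 φ : ℂ → ℝ} {a : ℕ → ℂ → ℝ} {ψ : ℝ × ℝ → ℝ}

theorem int_g2 {E : Set ℂ} (f : ℝ × ℝ → ℝ) :
    ∫ w in Eᶜ, en (toC f) w = ∫ p in (setR E)ᶜ, g2 f p := by
  rw [← Tra_937.integral_toC, ← Tra_937.setR_compl, Tra_937.setC_setR]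
  congr 1
  funext w
  exact Ta_937.en_toC'' f w

/-- energies stay bounded -/
theorem en_bdd {E : Set ℂ} (hE : IsClosed E) {S : ℕ → ℝ × ℝ → ℝ} (hS : ∀ m, Reg (setR E) (S m))
    (hψ : Reg (setR E) ψ)
    (hen : Tendsto (fun m => ∫ p in (setR E)ᶜ, g2 (fun q => S m q - ψ q) p) atTop (𝓝 0)) :
    ∃ M' : ℝ, ∀ m, ∫ p in (setR E)ᶜ, g2 (S m) p ≤ M' := by
  obtain ⟨B, hB⟩ := hen.bddAbove_range
  refine ⟨2 * B + 2 * ∫ p in (setR E)ᶜ, g2 ψ p, fun m => ?_⟩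
  have h1 : ∫ p in (setR E)ᶜ, g2 (fun q => S m q - ψ q) p ≤ B := hB ⟨m, rfl⟩
  rw [← int_g2] at h1 ⊢
  rw [← int_g2]
  have q1 : Q E (toC (S m)) := Ta_937.q_toC (hS m)
  have q2 : Q E (toC ψ) := Ta_937.q_toC hψ
  have q3 : Q E (toC (fun q => S m q - ψ q)) := q1.sub hE q2
  have h2 : ∫ w in Eᶜ, en (toC (S m)) w ≤
      ∫ w in Eᶜ, (2 * en (toC (fun q => S m q - ψ q)) w + 2 * en (toC ψ) w) := by
    refine integral_mono_ae q1.fin ((q3.fin.const_mul 2).add (q2.fin.const_mul 2)) ?_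
    filter_upwards [q3.ae_diff hE, q2.ae_diff hE] with w h3 h4
    have h5 := Bd_775.en_add_le h3 h4
    have h6 : (fun z => toC (fun q => S m q - ψ q) z + toC ψ z) = toC (S m) := by
      funext z
      show (S m (z.re, z.im) - ψ (z.re, z.im)) + ψ (z.re, z.im) = S m (z.re, z.im)
      ring
    rw [h6] at h5
    exact h5
  refine h2.trans ?_
  rw [integral_add (q3.fin.const_mul 2) (q2.fin.const_mul 2), integral_const_mul,
    integral_const_mul]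
  linarith

/-- **`LIMP` for one anchor** -/
theorem limp_i (hU : IsExteriorDomain U) (h : Pk Uᶜ x0 a φ F) (hi : InjOn F U)
    (hP : PicT (F '' U)ᶜ) (i : ℕ) (hLY : LYi U x0 φ (a i) F) (hHC : HCi U φ (a i))
    (hAT : ATNi U x0 (a i) F)
    {S : ℕ → ℝ × ℝ → ℝ} {c : Sqr → ℝ} {o : Set (ℝ × ℝ) → ℝ}
    (hL : LimOf (PE U F) (hrs (F '' U)ᶜ) S ψ) (hc0 : ∀ Q, 0 ≤ c Q)
    (hcs : Summable fun Q : sqs (F '' U)ᶜ => c Q.1 ^ 2)
    (hch : ∀ m, ∀ Q ∈ sqs (F '' U)ᶜ, Cq_463.ch (PE U F) univ (S m) Q ≤ c Q)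
    (hT : TFin (PE U F) ψ o) : NI Uᶜ (a i) (fun z => toC ψ (F z)) := by
  have hE := endMap h hU hi
  have hF := uni_of hU h hi hP
  have hsub : ∀ K ∈ hrs (F '' U)ᶜ, K.car ⊆ PE U F := fun K hK => hK.1
  have hS : ∀ m, Reg (PE U F) (S m) := by
    obtain ⟨A, hA, hAS⟩ := hL.supp
    obtain ⟨C, hC⟩ := hL.bdd
    exact fun m => reg_cfj hsub (hL.cfj m) (HasCompactSupport.intro hA (hAS m)) ⟨C, hC m⟩
  choose J hJ M C' hM hSL hb using hL.cfj
  obtain ⟨M', hM'⟩ := en_bdd hP.cpt.isClosed hS hL.reg hL.en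
  have hf : TT Uᶜ (fun z => toC ψ (F z)) := Ta_937.tt_comp hE hF (SkJ_987.tt_of_TFin hT)
  refine adm_seq hU h hi hP i hLY hHC hAT (g := S) (J := J) (M := M) ?_ hSL hS ?_
    (c := fun _ => c) (fun _ => hc0) hcs.tsum_ofReal_ne_top (fun _ => le_rfl) hch hM'
    (Nip_31.tt_lb hf) (fun z hz => Nip_31.contAt h.hY hf.q.loc hz) hf.sum
  · intro n p hp
    obtain ⟨K, hK, hpK⟩ := mem_cut.1 hp
    exact hsub K (hJ n K hK) hpK
  · intro p hp
    have h1 := hL.eq {p} isCompact_singleton (singleton_subset_iff.2 hp)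
    exact tendsto_const_nhds.congr' (h1.mono fun m hm => (hm p rfl).symm)

end

end Crest.Agent.R105.Nie_909
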