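import Crest.Agent.R105.Jex3_987
import Crest.Agent.R105.Nod6_281
import Crest.Agent.R105.Kna5_421
import Crest.Agent.R105.Kbx4_247

/-!
# Row 105, S0138: the top over the OPEN leaves (helper895, assembly)

`SOLUP`, `BNDF` : the two steps of `LEMAQ StrQ` (421's `lemaq_of_steps`, 247's `els_refl`),
`ATNE := ATNo Ext`, `ENDE := ENDo Ext`, `ENDLE := ENDLo Ext` : node E13 for extremal anchors
(281's `hco_of`).  `s0138_leaves : SOLUP → BNDF → ATNE → ENDE → S0138`.
-/

set_option autoImplicit false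

open MeasureTheory Set Filter Topology

namespace Crest.Agent.R105.Asm_895

open Crest.AnalysisR
open SkT1_137 (LEMAQ ELS)
open Exs_992 (PicS)
open Kna_421 (SolUp BndF DisjH)
open Psq_425 (StrQ)
open Jex_987 (ATNo HCo Ext)
open Nod_281 (ENDo ENDLo)

/-- leaf (A): no pair of unit flows of a single solid -/
def SOLUP : Prop := ∀ E 𝒬 𝓗, PicS E 𝒬 𝓗 → DisjH 𝓗 → ELS StrQ E 𝒬 𝓗 →
  ∀ a b c d, a < b → c < d → E ⊆ Ioo a b ×ˢ Ioo c d → SolUp E 𝒬 𝓗 a b c d

/-- leaf (B): the mass of the flow of a family -/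
def BNDF : Prop := ∀ E 𝒬 𝓗, PicS E 𝒬 𝓗 → DisjH 𝓗 → ELS StrQ E 𝒬 𝓗 →
  ∀ a b c d, a < b → c < d → E ⊆ Ioo a b ×ˢ Ioo c d → BndF E 𝒬 𝓗 a b c d

/-- leaf: ends at the squares, extremal anchors -/
def ATNE : Prop := ATNo Ext

/-- leaf: the ends at a flat component coincide, extremal anchors -/
def ENDE : Prop := ENDo Ext

/-- the same with limits -/
def ENDLE : Prop := ENDLo Ext

/-- the anchors jump at solids only, extremal anchors -/
def HCE : Prop := HCo Ext

theorem lemaq_of (hS : SOLUP) (hB : BNDF) : LEMAQ StrQ :=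
  Kna_421.lemaq_of_steps (fun _ _ _ hP h => Kbx_247.els_refl hP.q h) hS hB

theorem hce_of (hN : ATNE) (hE : ENDE) : HCE := Nod_281.hco_of Jex_987.lyo_ext hN hE

theorem hce_of_lim (hN : ATNE) (hE : ENDLE) : HCE := Nod_281.hco_of_lim Jex_987.lyo_ext hN hE

/-- **S0138 from `LEMAQ StrQ` and the two facts about extremal anchors** -/
theorem s0138_of_hce (hA : LEMAQ StrQ) (hH : HCE) (hN : ATNE)
    (U : Set ℂ) (hU : IsExteriorDomain U) :
    ∃ f : ℂ → ℂ, DifferentiableOn ℂ f U ∧ Set.InjOn f U ∧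
      Filter.Tendsto f (Filter.cocompact ℂ) (Filter.cocompact ℂ) ∧
      IsCircleDomainFinitePart (f '' U) :=
  Jex_987.s0138_e13 hA hH hN U hU

/-- **S0138 from the four open leaves** -/
theorem s0138_leaves (hS : SOLUP) (hB : BNDF) (hN : ATNE) (hE : ENDE)
    (U : Set ℂ) (hU : IsExteriorDomain U) :
    ∃ f : ℂ → ℂ, DifferentiableOn ℂ f U ∧ Set.InjOn f U ∧
      Filter.Tendsto f (Filter.cocompact ℂ) (Filter.cocompact ℂ) ∧
      IsCircleDomainFinitePart (f '' U) :=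
  s0138_of_hce (lemaq_of hS hB) (hce_of hN hE) hN U hU

end Crest.Agent.R105.Asm_895
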