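import Crest.Agent.R105.Pj1_403
import Crest.Agent.R105.Jex1_987

/-!
# Row 105, S0138, node E13, join (P6), part 2: `EndsIn` from one sided limits on the line, and
`ATNo Ext` from the statement about one solid (helper403)
-/

set_option autoImplicit false

open MeasureTheory Set Filter Topology Metric
open scoped NNReal ENNReal

namespace Crest.Agent.R105.Pj_403

open Crest.AnalysisR Tc_808 Sqr_185 Ends_897
open Cq_463 (Sqr)
open Skp2_257 (Comps)
open Tra_937 (setR setC)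
open Pct_185 (PicT)
open Ta_937 (sqs corE)
open SkA_8 (Pk)
open SkJ_987 (PE)
open Nie_909 (ATNi)
open Jex_987 (Ext ATNo)

variable {U : Set ℂ} {F P : ℂ → ℂ} {x0 φ : ℂ → ℝ} {a b : ℕ → ℂ → ℝ}

/-- one side of the section: `F` is close to `S` just above / below -/
def EndTop (U : Set ℂ) (P F : ℂ → ℂ) (L : Set ℂ) (t : ℝ) (S : Set (ℝ × ℝ)) : Prop :=
  ∀ ε > 0, ∃ η > 0, ∀ z ∈ U, (P z).re = t → sSup (sec L t) < (P z).im →
    (P z).im < sSup (sec L t) + η → infDist ((F z).re, (F z).im) S < ε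

/-- the same below -/
def EndBot (U : Set ℂ) (P F : ℂ → ℂ) (L : Set ℂ) (t : ℝ) (S : Set (ℝ × ℝ)) : Prop :=
  ∀ ε > 0, ∃ η > 0, ∀ z ∈ U, (P z).re = t → (P z).im < sInf (sec L t) →
    sInf (sec L t) - η < (P z).im → infDist ((F z).re, (F z).im) S < ε

theorem isCompact_sec' {L : Set ℂ} (hL : IsCompact L) (t : ℝ) : IsCompact (sec L t) := by
  have h1 : IsClosed (sec L t) := by
    have hc : Continuous fun y : ℝ => (⟨t, y⟩ : ℂ) :=
      Sqr_185.continuous_mk.comp (continuous_const.prodMk continuous_id)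
    exact hL.isClosed.preimage hc
  obtain ⟨R, hR⟩ := hL.isBounded.exists_norm_le
  refine Metric.isCompact_of_isClosed_isBounded h1 ?_
  refine (isBounded_iff_forall_norm_le).2 ⟨R, fun v hv => ?_⟩
  exact (Complex.abs_im_le_norm (⟨t, v⟩ : ℂ)).trans (hR _ hv)

/-- **both sides give `EndsIn`** (sections are intervals, points of `U` are off `L`) -/
theorem endsIn_of {L : Set ℂ} (hL : IsCompact L) {t : ℝ} (hord : OrdConnected (sec L t))
    (hoff : ∀ z ∈ U, P z ∉ L) {S : Set (ℝ × ℝ)} (h1 : EndTop U P F L t S)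
    (h2 : EndBot U P F L t S) : EndsIn U P F L t S := by
  intro ε hε
  obtain ⟨η1, hη1, g1⟩ := h1 ε hε
  obtain ⟨η2, hη2, g2⟩ := h2 ε hε
  refine ⟨min η1 η2, lt_min hη1 hη2, fun z hz hzt hv => ?_⟩
  obtain ⟨v, hvL, hvz⟩ := hv
  have hc := isCompact_sec' hL t
  have hne : (sec L t).Nonempty := ⟨v, hvL⟩
  have hsup := hc.sSup_mem hne
  have hinf := hc.sInf_mem hne
  have hv1 : v ≤ sSup (sec L t) := le_csSup hc.bddAbove hvL
  have hv2 : sInf (sec L t) ≤ v := csInf_le hc.bddBelow hvL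
  rw [abs_lt] at hvz
  have hm1 := min_le_left η1 η2
  have hm2 := min_le_right η1 η2
  rcases lt_or_ge (sSup (sec L t)) (P z).im with h | h
  · exact g1 z hz hzt h (by linarith [hvz.2])
  rcases lt_or_ge (P z).im (sInf (sec L t)) with h' | h'
  · exact g2 z hz hzt h' (by linarith [hvz.1])
  · exfalso
    have h3 : (P z).im ∈ sec L t := hord.out hinf hsup ⟨h', h⟩
    rw [mem_sec] at h3
    have h4 : (⟨t, (P z).im⟩ : ℂ) = P z := Complex.ext hzt.symm rfl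
    rw [h4] at h3
    exact hoff z hz h3

/-- a limit in the closed square gives `EndTop` -/
theorem endTop_of_lim {E L : Set ℂ} {t : ℝ} {X Y : ℂ → ℝ} (hPE : ∀ z ∈ U, P z ∉ E)
    (hX : ∀ z ∈ U, X (P z) = (F z).re) (hY : ∀ z ∈ U, Y (P z) = (F z).im) {Q : Sqr} {x y : ℝ}
    (hx : Tendsto (fun v : ℝ => X ⟨t, v⟩)
      (𝓝[{v | (⟨t, v⟩ : ℂ) ∉ E} ∩ Ioi (sSup (sec L t))] (sSup (sec L t))) (𝓝 x))
    (hy : Tendsto (fun v : ℝ => Y ⟨t, v⟩)
      (𝓝[{v | (⟨t, v⟩ : ℂ) ∉ E} ∩ Ioi (sSup (sec L t))] (sSup (sec L t))) (𝓝 y))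
    (hQ : (x, y) ∈ Q.car) : EndTop U P F L t Q.car := by
  intro ε hε
  have h1 := (hx.prodMk_nhds hy).eventually (Metric.ball_mem_nhds (x, y) hε)
  rw [eventually_nhdsWithin_iff, Metric.eventually_nhds_iff] at h1
  obtain ⟨η, hη, h2⟩ := h1
  refine ⟨η, hη, fun z hz hzt g1 g2 => ?_⟩
  have h4 : (⟨t, (P z).im⟩ : ℂ) = P z := Complex.ext hzt.symm rfl
  have h3 := h2 (y := (P z).im) (by rw [Real.dist_eq, abs_lt]; constructor <;> linarith)
    ⟨by show (⟨t, (P z).im⟩ : ℂ) ∉ E; rw [h4]; exact hPE z hz, g1⟩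
  simp only [h4] at h3
  rw [hX z hz, hY z hz] at h3
  exact (infDist_le_dist_of_mem hQ).trans_lt h3

/-- a limit in the closed square gives `EndBot` -/
theorem endBot_of_lim {E L : Set ℂ} {t : ℝ} {X Y : ℂ → ℝ} (hPE : ∀ z ∈ U, P z ∉ E)
    (hX : ∀ z ∈ U, X (P z) = (F z).re) (hY : ∀ z ∈ U, Y (P z) = (F z).im) {Q : Sqr} {x y : ℝ}
    (hx : Tendsto (fun v : ℝ => X ⟨t, v⟩)
      (𝓝[{v | (⟨t, v⟩ : ℂ) ∉ E} ∩ Iio (sInf (sec L t))] (sInf (sec L t))) (𝓝 x))
    (hy : Tendsto (fun v : ℝ => Y ⟨t, v⟩)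
      (𝓝[{v | (⟨t, v⟩ : ℂ) ∉ E} ∩ Iio (sInf (sec L t))] (sInf (sec L t))) (𝓝 y))
    (hQ : (x, y) ∈ Q.car) : EndBot U P F L t Q.car := by
  intro ε hε
  have h1 := (hx.prodMk_nhds hy).eventually (Metric.ball_mem_nhds (x, y) hε)
  rw [eventually_nhdsWithin_iff, Metric.eventually_nhds_iff] at h1
  obtain ⟨η, hη, h2⟩ := h1
  refine ⟨η, hη, fun z hz hzt g1 g2 => ?_⟩
  have h4 : (⟨t, (P z).im⟩ : ℂ) = P z := Complex.ext hzt.symm rfl
  have h3 := h2 (y := (P z).im) (by rw [Real.dist_eq, abs_lt]; constructor <;> linarith)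
    ⟨by show (⟨t, (P z).im⟩ : ℂ) ∉ E; rw [h4]; exact hPE z hz, g1⟩
  simp only [h4] at h3
  rw [hX z hz, hY z hz] at h3
  exact (infDist_le_dist_of_mem hQ).trans_lt h3

/-- **the per-solid statement of E13**: `K` solid of the `F`-picture with square `Q`, jump of the
anchor `a i` at `K` positive, `P` the picture of the anchor: over a.e. line of the `P`-picture both
ends at `K` lie in the closed square -/
def SolEnds : Prop :=
  ∀ (U : Set ℂ) (x0 : ℂ → ℝ) (a : ℕ → ℂ → ℝ) (φ : ℂ → ℝ) (F : ℂ → ℂ), Pk Uᶜ x0 a φ F →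
    ∀ (i : ℕ) (b : ℕ → ℂ → ℝ) (P : ℂ → ℂ), Pk Uᶜ x0 b (a i) P →
    ∀ (hE : EndMap U (F '' U) F) (hE' : EndMap U (P '' U) P), PicT (F '' U)ᶜ → PicT (P '' U)ᶜ →
    ∀ (K : Cmp Uᶜ) (Q : Sqr), Q ∈ sqs (F '' U)ᶜ → SqK (corE hE K).1 Q.x Q.y Q.s →
      0 < wd (corE hE' K).1 →
      ∀ᵐ t : ℝ, t ∈ Ioo (lo (corE hE' K).1) (hi (corE hE' K).1) →
        EndTop U P F (corE hE' K).1 t Q.car ∧ EndBot U P F (corE hE' K).1 t Q.car

/-- **`ATNo Ext` from the per-solid statement** -/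
theorem atno_ext (H : SolEnds) : ATNo Ext := by
  intro U x0 a φ F h hO hi hP i
  obtain ⟨b, P, hb⟩ := hO i
  have hU : IsExteriorDomain U := by have := h.hY; rwa [compl_compl] at this
  have hiP := Uw6_913.picT hb
  rw [compl_compl] at hiP
  obtain ⟨hi', hP'⟩ := hiP
  have hE := SkJ_987.endMap h hU hi
  have hE' := SkJ_987.endMap hb hU hi'
  refine atni_of_ends hE hE' hP (fun z hz => hb.re z (by rwa [compl_compl])) fun K Q hQ hS => ?_
  have hcL : IsCompact (corE hE' K).1 := (corE hE' K).isCompact hP'.cpt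
  rcases (lo_le_hi hcL (corE hE' K).nonempty).lt_or_eq with hw | hw
  · have h1 := H U x0 a φ F h i b P hb hE hE' hP hP' K Q hQ hS (by unfold wd; linarith)
    filter_upwards [h1] with t ht hto
    obtain ⟨g1, g2⟩ := ht hto
    refine endsIn_of hcL (hP'.ord _ t) (fun z hz hc => ?_) g1 g2
    exact (corE hE' K).subset hc (mem_image_of_mem P hz)
  · refine Eventually.of_forall fun t ht => ?_
    rw [hw] at ht
    exact absurd (ht.1.trans ht.2) (lt_irrefl _)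

end Crest.Agent.R105.Pj_403
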