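import Crest.Agent.R105.Asm1_895
import Crest.Agent.R105.Kna6_421
import Crest.Agent.R105.Pj2_403

/-!
# Row 105, S0138: the top over the open leaves, part 2 (helper895, assembly)

`STEPA`, `STEPB`, `STEPC` : 421's three steps (247's letters) as closed Props,
`Pj_403.SolEnds` : 403's per-solid statement.
`s0138_leaves2 : STEPA → STEPB → STEPC → SolEnds → ENDE → S0138`.
-/

set_option autoImplicit false

open MeasureTheory Set Filter Topology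

namespace Crest.Agent.R105.Asm_895

open Crest.AnalysisR
open SkT1_137 (LEMAQ ELS)
open Exs_992 (PicS)
open Kna_421 (StepA StepB StepC DisjH)
open Psq_425 (StrQ)
open Jex_987 (ATNo HCo Ext)
open Nod_281 (ENDo ENDLo)
open Pj_403 (SolEnds)

/-- (A) the single solid -/
def STEPA : Prop := ∀ E 𝒬 𝓗, PicS E 𝒬 𝓗 → DisjH 𝓗 → ELS StrQ E 𝒬 𝓗 →
  ∀ a b c d, a < b → c < d → E ⊆ Ioo a b ×ˢ Ioo c d → StepA E 𝒬 𝓗 a b c d

/-- (B) the free hair -/
def STEPB : Prop := ∀ E 𝒬 𝓗, PicS E 𝒬 𝓗 → DisjH 𝓗 → ELS StrQ E 𝒬 𝓗 →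
  ∀ a b c d, a < b → c < d → E ⊆ Ioo a b ×ˢ Ioo c d → StepB E 𝒬 𝓗 a b c d

/-- (C) the family without atoms -/
def STEPC : Prop := ∀ E 𝒬 𝓗, PicS E 𝒬 𝓗 → DisjH 𝓗 → ELS StrQ E 𝒬 𝓗 →
  ∀ a b c d, a < b → c < d → E ⊆ Ioo a b ×ˢ Ioo c d → StepC E 𝒬 𝓗 a b c d

theorem lemaq_abc (hA : STEPA) (hB : STEPB) (hC : STEPC) : LEMAQ StrQ :=
  Kna_421.lemaq_of_abc hA hB hC

theorem atne_of (h : SolEnds) : ATNE := Pj_403.atno_ext h

/-- **S0138 from the open leaves** -/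
theorem s0138_leaves2 (hA : STEPA) (hB : STEPB) (hC : STEPC) (hN : SolEnds) (hE : ENDE)
    (U : Set ℂ) (hU : IsExteriorDomain U) :
    ∃ f : ℂ → ℂ, DifferentiableOn ℂ f U ∧ Set.InjOn f U ∧
      Filter.Tendsto f (Filter.cocompact ℂ) (Filter.cocompact ℂ) ∧
      IsCircleDomainFinitePart (f '' U) :=
  s0138_of_hce (lemaq_abc hA hB hC) (hce_of (atne_of hN) hE) (atne_of hN) U hU

end Crest.Agent.R105.Asm_895
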