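import Crest.Agent.R105.Eta5_179
import Crest.Agent.R105.Nod6_281

/-!
# Row 105, S0138 (NI frame), node E13 / `HCi` (helper179): ALL ENDS OF A LEVEL AT A FLAT COMPONENT
WHERE AN EXTREMAL ANCHOR JUMPS COINCIDE

* `end_ext`  : the clause `H` of 281's `hci_of`, hypothesis free for an extremal anchor
* `hci_ext`  : `HCi` from `LYi`, `ATNi` for an extremal anchor
* `endo_ext` : `ENDo Ext`
* `hco_ext`  : `HCo Ext` from `LYo Ext`, `ATNo Ext`
-/

set_option autoImplicit false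

open Set Filter MeasureTheory Metric
open scoped Topology NNReal ContDiff ENNReal

namespace Crest.Agent.R105.Eta_179

open Crest.AnalysisR Tc_808 Sqr_185 Ends_897 Yv_319
open Pct_185 (PicT)
open Tra_937 (Uni)
open Ta_937 (corE exists_nhd_pull exists_nhd_push)
open SkA_8 (Pk)
open Nie_909 (LYi ATNi HCi)
open Jex_987 (Ext LYo ATNo HCo)

noncomputable section

variable {U : Set ℂ} {P F : ℂ → ℂ} {x0 φ : ℂ → ℝ} {a b : ℕ → ℂ → ℝ}

/-- **all ends coincide** -/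
theorem end_ext (hU : IsExteriorDomain U) (h : Pk Uᶜ x0 a φ F) (hFi : InjOn F U)
    (hFP : PicT (F '' U)ᶜ) (i : ℕ) (hi : Pk Uᶜ x0 b (a i) P) (K : Cmp Uᶜ)
    (hK : osc Uᶜ φ K.1 = 0) (hne : osc Uᶜ (a i) K.1 ≠ 0) :
    ∃ k ∈ K.1, ∃ q ∈ (corE (SkJ_987.endMap h hU hFi) K).1, ∀ᵐ t : ℝ,
      t ∈ Ioo (Ni_459.lo Uᶜ (fun z => x0 z + a i z) k)
        (Ni_459.up Uᶜ (fun z => x0 z + a i z) k) →
      ∀ ε > 0, ∃ z ∈ U, x0 z + a i z = t ∧ ‖F z - q‖ < ε := by
  have hiP := Uw6_913.picT hi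
  rw [compl_compl] at hiP
  obtain ⟨hPi, hPP⟩ := hiP
  have hPhol := hi.hol
  rw [compl_compl] at hPhol
  have hFhol := h.hol
  rw [compl_compl] at hFhol
  have hE : EndMap U (P '' U) P := SkJ_987.endMap hi hU hPi
  have hG := SkJ_987.endMap h hU hFi
  have hP : Uni U P := ⟨hU.1, hPhol, hPi⟩
  obtain ⟨L0, hL0⟩ : ∃ L0, L0 = corE hE K := ⟨_, rfl⟩
  have hwd : 0 < wd L0.1 := by
    rw [hL0, ← Nie_909.osc_wd hU hi hPi hPP K]
    exact lt_of_le_of_ne (osc_nonneg _ _ _) (Ne.symm hne)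
  have hwd' : lo L0.1 + wd L0.1 = Sqr_185.hi L0.1 := by unfold wd; ring
  obtain ⟨bb, hsq⟩ := hPP.sq L0 hwd
  have hB : Bxx (P '' U)ᶜ L0 (lo L0.1) (Sqr_185.hi L0.1) bb (bb + wd L0.1) :=
    ⟨hPP.cpt, hPP.ord, fun z h1 h2 => hsq.sub z (by rwa [hwd']) h2, by linarith⟩
  have hFre : ∀ z ∈ U, (F z).re = x0 z + φ z := fun z hz => h.re z (not_not.2 hz)
  have hyd : YD (P '' U)ᶜ (yP hE F) := by
    refine yd_yP hE hP hFhol hG.bdd fun R => ?_
    have := energy_of_pk h R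
    rwa [compl_compl] at this
  have hel : ELZ (P '' U)ᶜ L0 (sP hE φ) (yP hE F) :=
    elz_yP hE hP h.hx h.tt hFhol hFre hPP.sum L0 (min_testZ hU h hi hE hP hPP.sum L0)
  have hs0 : sP hE φ L0 = 0 := by
    unfold sP
    rw [hL0, Equiv.symm_apply_apply]
    exact hK
  obtain ⟨η, hη⟩ := exists_eta_all hB (by linarith) hPP.sum (sP_nonneg hE)
    (sP_summable hE h.tt) hs0 hyd hel
  -- the basic step
  obtain ⟨M, hM⟩ : ∃ M, M = corE hG K := ⟨_, rfl⟩
  obtain ⟨q, hq⟩ : ∃ q : ℂ, q = ⟨Sqr_185.lo M.1, η⟩ := ⟨_, rfl⟩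
  have key : ∀ t : ℝ, t ∈ Ioo (lo L0.1) (Sqr_185.hi L0.1) → LimA (P '' U)ᶜ L0.1 (yP hE F) η t →
      ∀ ε > 0, ∀ O', IsOpen O' → K.1 ⊆ O' → ∃ z ∈ U, z ∈ O' ∧ x0 z + a i z = t ∧
        ‖F z - q‖ < ε := by
    intro t ht hlim ε hε O' hO' hKO'
    have htc : t ∈ Icc (lo L0.1) (Sqr_185.hi L0.1) := Ioo_subset_Icc_self ht
    obtain ⟨δ, hδ, h1⟩ := hlim (ε / 2) (half_pos hε)
    have hOo : IsOpen {w : ℂ | |w.re - Sqr_185.lo M.1| < ε / 2} :=
      isOpen_lt ((Complex.continuous_re.sub continuous_const).abs) continuous_const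
    obtain ⟨O2, hO2, hKO2, h2⟩ := exists_nhd_pull hG K hOo (fun w hw => by
      have := Nod_281.re_flat hU h hFi hFP K hK w hw
      simp only [mem_ofPred_eq]
      rw [this, hM, sub_self, abs_zero]
      exact half_pos hε)
    obtain ⟨O, hO, hLO, h3⟩ := exists_nhd_push hE K (hO2.inter hO') (subset_inter hKO2 hKO')
    have hOv : IsOpen {v : ℝ | (⟨t, v⟩ : ℂ) ∈ O} :=
      hO.preimage (Sqr_185.continuous_mk_right t)
    have hmem : tp L0.1 t ∈ {v : ℝ | (⟨t, v⟩ : ℂ) ∈ O} := by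
      have h4 := hB.tp_mem htc
      rw [hL0] at h4 ⊢
      exact hLO h4
    obtain ⟨δ', hδ', h5⟩ := Metric.isOpen_iff.1 hOv _ hmem
    obtain ⟨v, hv, hvE⟩ := hB.exists_free htc (lt_min hδ hδ')
    obtain ⟨z, hzU, hz⟩ : (⟨t, v⟩ : ℂ) ∈ P '' U := not_not.1 hvE
    have hv1 : v < tp L0.1 t + δ := hv.2.trans_le (by linarith [min_le_left δ δ'])
    have hv2 : v < tp L0.1 t + δ' := hv.2.trans_le (by linarith [min_le_right δ δ'])
    have hvO : (⟨t, v⟩ : ℂ) ∈ O := h5 (by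
      rw [mem_ball, Real.dist_eq, abs_lt]
      constructor <;> linarith [hv.1])
    have hz2 := h3 z hzU (by rw [hz]; exact hvO)
    have hre : (P z).re = x0 z + a i z := hi.re z (not_not.2 hzU)
    refine ⟨z, hzU, hz2.2, ?_, ?_⟩
    · rw [← hre, hz]
    · have h6 := h1 v ⟨hv.1, hv1⟩ hvE
      rw [← hz, yP_apply hE hzU] at h6
      have h7 : |(F z).re - Sqr_185.lo M.1| < ε / 2 := h2 z hz2.1 hzU
      have h8 := Complex.norm_le_abs_re_add_abs_im (F z - q)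
      simp only [Complex.sub_re, Complex.sub_im, hq] at h8
      rw [hq]
      linarith
  obtain ⟨k, hk⟩ := K.nonempty
  have hkY : k ∈ Uᶜ := K.subset hk
  have hcc : K.1 = connectedComponentIn Uᶜ k := congrArg Subtype.val (K.eq_of_mem hk)
  have hAb := Nip_31.lb_x0 h.hx (h.tta i)
  have hup : Ni_459.up Uᶜ (fun z => x0 z + a i z) k ≤ Sqr_185.hi L0.1 := by
    refine le_of_forall_pos_le_add fun ε hε => ?_
    have hOo : IsOpen {w : ℂ | w.re < Sqr_185.hi L0.1 + ε} :=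
      isOpen_lt Complex.continuous_re continuous_const
    obtain ⟨O2, hO2, hKO2, h2⟩ := exists_nhd_pull hE K hOo (fun w hw => by
      rw [← hL0] at hw
      have := le_hi (L0.isCompact hPP.cpt) hw
      simp only [mem_ofPred_eq]
      linarith)
    refine Ni_459.up_le h.hY hAb (Ni_459.nb_of_mem hkY hO2 (hcc ▸ hKO2)) fun w hw hwY => ?_
    have h3 : (P w).re < Sqr_185.hi L0.1 + ε := h2 w hw (not_not.1 hwY)
    rw [← hi.re w hwY]
    exact h3.le
  have hlo : lo L0.1 ≤ Ni_459.lo Uᶜ (fun z => x0 z + a i z) k := by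
    refine le_of_forall_pos_le_add fun ε hε => ?_
    have hOo : IsOpen {w : ℂ | lo L0.1 - ε < w.re} :=
      isOpen_lt continuous_const Complex.continuous_re
    obtain ⟨O2, hO2, hKO2, h2⟩ := exists_nhd_pull hE K hOo (fun w hw => by
      rw [← hL0] at hw
      have := lo_le (L0.isCompact hPP.cpt) hw
      simp only [mem_ofPred_eq]
      linarith)
    have h4 : lo L0.1 - ε ≤ Ni_459.lo Uᶜ (fun z => x0 z + a i z) k := by
      refine Ni_459.le_lo h.hY hAb (Ni_459.nb_of_mem hkY hO2 (hcc ▸ hKO2)) fun w hw hwY => ?_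
      have h3 : lo L0.1 - ε < (P w).re := h2 w hw (not_not.1 hwY)
      rw [← hi.re w hwY]
      exact h3.le
    linarith
  refine ⟨k, hk, q, ?_, ?_⟩
  · -- one good level
    have h6 : volume (Ioo (lo L0.1) (Sqr_185.hi L0.1)) ≠ 0 := by
      rw [Real.volume_Ioo, Ne, ENNReal.ofReal_eq_zero, not_le]
      linarith
    have h9 : ∃ᶠ t in ae (volume : Measure ℝ), t ∈ Ioo (lo L0.1) (Sqr_185.hi L0.1) := by
      rw [frequently_ae_iff]
      exact h6
    obtain ⟨t, ht, hlim⟩ := (h9.and_eventually hη).exists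
    have hLc := M.isCompact hFP.cpt
    by_contra hqL
    rw [← hM] at hqL
    obtain ⟨d, hd, hd2⟩ := Metric.isOpen_iff.1 hLc.isClosed.isOpen_compl q hqL
    obtain ⟨O', hO', hKO', h7⟩ := exists_nhd_pull hG K
      (isOpen_thickening (δ := d / 2) (E := M.1))
      (by rw [← hM]; exact self_subset_thickening (half_pos hd) _)
    obtain ⟨z, hzU, hzO', -, hz⟩ := key t ht (hlim ht) (d / 2) (half_pos hd) O' hO' hKO'
    obtain ⟨p, hp, hpd⟩ := mem_thickening_iff.1 (h7 z hzO' hzU)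
    have h8 : dist p q < d := by
      calc dist p q ≤ dist (F z) p + dist (F z) q := dist_triangle_left _ _ _
        _ < d / 2 + d / 2 := add_lt_add hpd (by rw [dist_eq_norm]; exact hz)
        _ = d := add_halves d
    exact hd2 (mem_ball.2 h8) hp
  · filter_upwards [hη] with t ht ht' ε hε
    have ht2 : t ∈ Ioo (lo L0.1) (Sqr_185.hi L0.1) :=
      ⟨hlo.trans_lt ht'.1, ht'.2.trans_le hup⟩
    obtain ⟨z, hzU, -, hzt, hz⟩ := key t ht2 (ht ht2) ε hε univ isOpen_univ (subset_univ _)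
    exact ⟨z, hzU, hzt, hz⟩

/-- **`HCi` for an extremal anchor** -/
theorem hci_ext (hU : IsExteriorDomain U) (h : Pk Uᶜ x0 a φ F) (hFi : InjOn F U)
    (hFP : PicT (F '' U)ᶜ) (i : ℕ) (hX : ExtA Uᶜ x0 (a i)) (hL : LYi U x0 φ (a i) F)
    (hA : ATNi U x0 (a i) F) : HCi U φ (a i) := by
  obtain ⟨b, P, hi⟩ := hX
  exact Nod_281.hci_of hU h hFi hFP i hL hA fun K hK hne => end_ext hU h hFi hFP i hi K hK hne

/-- **`ENDo Ext`** -/
theorem endo_ext : Nod_281.ENDo Ext := by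
  intro U x0 a φ F h hO hFi hFP i
  have hU : IsExteriorDomain U := by have := h.hY; rwa [compl_compl] at this
  obtain ⟨b, P, hi⟩ := hO i
  exact Nod_281.endi_of_corE hU h hFi hFP i fun K hK hne => end_ext hU h hFi hFP i hi K hK hne

/-- **`HCo Ext`** from `LYo Ext` and `ATNo Ext` -/
theorem hco_ext (hL : LYo Ext) (hA : ATNo Ext) : HCo Ext := Nod_281.hco_of hL hA endo_ext

end

end Crest.Agent.R105.Eta_179
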