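import Crest.Agent.R105.Yv6_319
import Crest.Agent.R105.Gl3_395

/-!
# Row 105, S0138, node E13 (ATN): literal Props (helper499, post #11166)

Two pictures of the same domain `U = Yᶜ`: `F` (final, `Re F = x0 + φ`) and `P` (picture of the
extremal anchor `a i`, `Re P = x0 + a i`).  Everything is read on vertical lines.
Definitions only.
-/

set_option autoImplicit false

open MeasureTheory Set Filter Topology Metric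
open scoped NNReal ENNReal ContDiff

namespace Crest.Agent.R105.E13_499

open Crest.AnalysisR (IsExteriorDomain)
open IfB_641 (X0)
open Ni_459 (NI Swd LB Lv up lo)
open Tc_808 Bd_775 Ends_897
open Pct_185 (PicT)
open Sqr_185 (sec SqK)

noncomputable section

/-! ### one picture `E` (compact), one component `L` -/

/-- cut-off, locally constant near every component, seen from `Eᶜ` -/
structure Lcv (E : Set ℂ) (χ : ℂ → ℝ) : Prop where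
  lip : LocallyLipschitzOn Eᶜ χ
  supp : ∃ R : ℝ, ∀ z, z ∉ E → R ≤ ‖z‖ → χ z = 0
  rg : ∀ z, 0 ≤ χ z ∧ χ z ≤ 1
  lc : ∀ L : Cmp E, ∃ c : ℝ, ∀ᶠ w in eK E L.1, χ w = c

/-- cut-offs `= 1` near `L`, supports shrinking to `L` -/
structure Shr (E : Set ℂ) (L : Cmp E) (χ : ℕ → ℂ → ℝ) : Prop where
  lcv : ∀ n, Lcv E (χ n)
  one : ∀ n, ∀ᶠ w in eK E L.1, χ n w = 1
  shr : ∀ N, IsOpen N → L.1 ⊆ N → ∀ᶠ n in atTop, ∀ z, z ∉ E → z ∉ N → χ n z = 0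

/-- bounded variation along vertical lines, dominated by a locally integrable function of the
abscissa -/
def BVL (E : Set ℂ) (w : ℂ → ℝ) : Prop :=
  ∀ R : ℝ, ∃ M : ℝ → ℝ≥0∞, Measurable M ∧ (∫⁻ t in Icc (-R) R, M t) ≠ ⊤ ∧
    ∀ᵐ t : ℝ, t ∈ Icc (-R) R →
      eVariationOn (fun v : ℝ => w ⟨t, v⟩) {v | (⟨t, v⟩ : ℂ) ∉ E ∧ |v| ≤ R} ≤ M t

/-- the upper end of `L` on the line `t`, seen from `Eᶜ` -/
def TopF (E L : Set ℂ) (t : ℝ) : Filter ℝ :=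
  𝓝[{v | (⟨t, v⟩ : ℂ) ∉ E ∧ sSup (sec L t) < v}] (sSup (sec L t))

/-- the lower end of `L` on the line `t`, seen from `Eᶜ` -/
def BotF (E L : Set ℂ) (t : ℝ) : Filter ℝ :=
  𝓝[{v | (⟨t, v⟩ : ℂ) ∉ E ∧ v < sInf (sec L t)}] (sInf (sec L t))

/-- `wT`, `wB` are the end limits of `w` at `L` on almost every line -/
def EndsOf (E : Set ℂ) (L : Cmp E) (w : ℂ → ℝ) (wT wB : ℝ → ℝ) : Prop :=
  ∀ᵐ t : ℝ, t ∈ Ioo (Sqr_185.lo L.1) (Sqr_185.hi L.1) →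
    Tendsto (fun v : ℝ => w ⟨t, v⟩) (TopF E L.1 t) (𝓝 (wT t)) ∧
    Tendsto (fun v : ℝ => w ⟨t, v⟩) (BotF E L.1 t) (𝓝 (wB t))

/-- **(2b, first part)** the ends are real ends, and BVL gives end limits -/
def ENDS : Prop := ∀ (E : Set ℂ) (L : Cmp E), PicT E →
  (∀ t ∈ Icc (Sqr_185.lo L.1) (Sqr_185.hi L.1), (TopF E L.1 t).NeBot ∧ (BotF E L.1 t).NeBot) ∧
  ∀ w : ℂ → ℝ, BVL E w → ∃ wT wB : ℝ → ℝ, EndsOf E L w wT wB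

/-- **(2b) LINE LEMMA** -/
def LINE : Prop := ∀ (E : Set ℂ) (L : Cmp E) (w : ℂ → ℝ) (χ : ℕ → ℂ → ℝ) (G wT wB : ℝ → ℝ) (C : ℝ),
  PicT E → LocallyLipschitzOn Eᶜ w → (∀ R : ℝ, ∃ M : ℝ, ∀ z, z ∉ E → ‖z‖ ≤ R → |w z| ≤ M) →
  BVL E w → Measurable G → (∀ t, |G t| ≤ C) → Shr E L χ → EndsOf E L w wT wB →
  Tendsto (fun n => ∫ z in Eᶜ, G z.re * w z * gy (χ n) z) atTop
    (𝓝 (∫ t in Icc (Sqr_185.lo L.1) (Sqr_185.hi L.1), G t * (wB t - wT t)))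

/-- **(3) TOPO**, pure plane (41 #11310, 948 #11335): `M` connected, unbounded, through the square,
`Op` (right of `t1`) and `Om` (left of `t2`) cannot both join the point `(t, v1)` above the square
to the point `(t, v2)` below it. -/
def TOPO : Prop := ∀ (A B S t t1 t2 v1 v2 : ℝ) (Op Om M : Set ℂ), 0 < S →
  A ≤ t1 → t1 < t → t < t2 → t2 ≤ A + S → B + S < v1 → v2 < B →
  IsOpen Op → IsPreconnected Op → (∀ z ∈ Op, t1 < z.re) →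
  IsOpen Om → IsPreconnected Om → (∀ z ∈ Om, z.re < t2) →
  IsPreconnected M → ¬ Bornology.IsBounded M →
  (∀ z : ℂ, z.re ∈ Icc A (A + S) → z.im ∈ Icc B (B + S) → z ∈ M) →
  Disjoint M Op → Disjoint M Om →
  (⟨t, v1⟩ : ℂ) ∈ Op → (⟨t, v1⟩ : ℂ) ∈ Om → (⟨t, v2⟩ : ℂ) ∈ Op → (⟨t, v2⟩ : ℂ) ∈ Om → False

/-! ### two pictures -/

variable {Y : Set ℂ} {x0 φ : ℂ → ℝ} {a b : ℕ → ℂ → ℝ} {F P : ℂ → ℂ} {i : ℕ}

/-- the component of the picture which corresponds to `K` -/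
def cF (h : SkA_8.Pk Y x0 a φ F) (K : Cmp Yᶜᶜ) : Cmp (F '' Yᶜ)ᶜ :=
  Ta_937.corE (Uw6_913.endMap h) K

/-- a function of the `z`-plane, read in the picture -/
def pu (h : SkA_8.Pk Y x0 a φ F) (w : ℂ → ℝ) : ℂ → ℝ := Ta_937.push (Uw6_913.endMap h) w

/-- **(2a)** functions which commute with `φ` have bounded variation along the lines of its picture
(apply it with `F` and with `P`) -/
def BVN : Prop := ∀ (Y : Set ℂ) (x0 φ f : ℂ → ℝ) (a : ℕ → ℂ → ℝ) (F : ℂ → ℂ)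
  (h : SkA_8.Pk Y x0 a φ F), TT Y f → NI Y φ f →
  BVL (F '' Yᶜ)ᶜ (pu h f) ∧ BVL (F '' Yᶜ)ᶜ (pu h fun z => x0 z + f z)

/-- **(2a)** `y = Im F` on the lines of the picture of an anchor -/
def BVY : Prop := ∀ (Y : Set ℂ) (x0 φ : ℂ → ℝ) (a b : ℕ → ℂ → ℝ) (F P : ℂ → ℂ) (i : ℕ)
  (_ : SkA_8.Pk Y x0 a φ F) (hi : SkA_8.Pk Y x0 b (a i) P),
  BVL (P '' Yᶜ)ᶜ (pu hi fun z => (F z).im)

/-- smooth step functions with values in `[0,1]` -/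
structure Stp (h : ℝ → ℝ) : Prop where
  smooth : ContDiff ℝ (⊤ : ℕ∞) h
  rg : ∀ t, 0 ≤ h t ∧ h t ≤ 1
  supp : HasCompactSupport (deriv h)

/-- `h (x0 + a i) * θ (x0 + φ)` -/
def mm (x0 A φ : ℂ → ℝ) (h θ : ℝ → ℝ) (z : ℂ) : ℝ := h (x0 z + A z) * θ (x0 z + φ z)

/-- a part `O` of the region `{m > 0}`, seen on `Yᶜ` only: open, relatively closed in `{m > 0}`, and
near every component `K' ≠ K` with `m ≥ c > 0` near `K'` either everything or nothing is in `O` -/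
structure Uc (Y K : Set ℂ) (m : ℂ → ℝ) (O : Set ℂ) : Prop where
  op : IsOpen O
  sub : ∀ z ∈ O, z ∉ Y ∧ 0 < m z
  co : ∀ z, z ∉ Y → 0 < m z → z ∉ O → ∀ᶠ w in 𝓝 z, w ∉ O
  lc : ∀ K' : Cmp Y, K'.1 ≠ K → (∃ c > 0, ∀ᶠ w in eK Y K'.1, c ≤ m w) →
    (∀ᶠ w in eK Y K'.1, w ∈ O) ∨ (∀ᶠ w in eK Y K'.1, w ∉ O)

/-- the test function -/
def gg (x0 A φ : ℂ → ℝ) (h θ : ℝ → ℝ) (O : Set ℂ) : ℂ → ℝ := O.indicator (mm x0 A φ h θ)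

/-- a step with values `0, 1` at the two sides: `ex = 1` up, `ex = -1` down, inside `(l, h)` -/
structure Rmp (θ : ℝ → ℝ) (l h ex : ℝ) : Prop where
  st : Stp θ
  mono : ∀ σ, 0 ≤ ex * deriv θ σ
  supp : ∀ σ, deriv θ σ ≠ 0 → σ ∈ Ioo l h
  sg : (ex = 1 ∧ θ l = 0 ∧ θ h = 1) ∨ (ex = -1 ∧ θ l = 1 ∧ θ h = 0)

/-- **(0) ADMG** (`χ0` = cut-off at infinity; without it the function is not `T`-finite) -/
def ADMG : Prop := ∀ (Y : Set ℂ) (x0 φ : ℂ → ℝ) (a b : ℕ → ℂ → ℝ) (F P : ℂ → ℂ) (i : ℕ)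
  (K : Cmp Yᶜᶜ) (h1 θ : ℝ → ℝ) (χ0 : ℂ → ℝ) (O : Set ℂ) (ex : ℝ) (h : SkA_8.Pk Y x0 a φ F)
  (_ : SkA_8.Pk Y x0 b (a i) P),
  Stp h1 → Rmp θ (Sqr_185.lo (cF h K).1) (Sqr_185.hi (cF h K).1) ex →
  Uc Y K.1 (mm x0 (a i) φ h1 θ) O → LC Y χ0 → HasCompactSupport χ0 → (∀ z, 0 ≤ χ0 z ∧ χ0 z ≤ 1) →
  TT Y (fun z => χ0 z * gg x0 (a i) φ h1 θ O z) ∧
  (∀ j, NI Y (a j) (fun z => χ0 z * gg x0 (a i) φ h1 θ O z)) ∧
  NI Y φ (fun z => χ0 z * gg x0 (a i) φ h1 θ O z) ∧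
  LocallyLipschitzOn Yᶜ (gg x0 (a i) φ h1 θ O)

/-- **crude E-L at one component**: `0 ≤ ψ ≤ 1` in the commutant, cut-offs shrinking to `K` -/
def ELK : Prop := ∀ (Y : Set ℂ) (x0 φ ψ : ℂ → ℝ) (a : ℕ → ℂ → ℝ) (F : ℂ → ℂ) (K : Cmp Yᶜᶜ)
  (χ : ℕ → ℂ → ℝ) (c : ℝ), SkA_8.Pk Y x0 a φ F → TT Y ψ → (∀ j, NI Y (a j) ψ) →
  (∀ z, 0 ≤ ψ z ∧ ψ z ≤ 1) → Shr Yᶜᶜ K χ →
  Tendsto (fun n => ∫ z in Yᶜ, wdg (fun w => χ n w * ψ w) (fun w => (F w).im) z) atTop (𝓝 c) →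
  |c| ≤ osc Y φ K.1

/-- the balance of the ends: `Y1 Y2` = values on the lines of `P` (top, bottom), `c1 c2` = values on
the lines of `F` (top, bottom) -/
def Bal (lP hP lF hF : ℝ) (h1 θ : ℝ → ℝ) (xT xB vT vB gT gB kT kB Y1 Y2 : ℝ → ℝ) (c1 c2 : ℝ) : ℝ :=
  (∫ t in Icc lP hP, 2 * deriv h1 t * (gB t * θ (xB t) * Y2 t - gT t * θ (xT t) * Y1 t)) +
  ∫ σ in Icc lF hF, 2 * deriv θ σ * (kB σ * h1 (vB σ) * c2 - kT σ * h1 (vT σ) * c1)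

/-- the end functions of the two pictures at `K` -/
structure Ed (h : SkA_8.Pk Y x0 a φ F) (hi : SkA_8.Pk Y x0 b (a i) P) (K : Cmp Yᶜᶜ)
    (xT xB yT yB vT vB : ℝ → ℝ) : Prop where
  x : EndsOf (P '' Yᶜ)ᶜ (cF hi K) (pu hi fun z => (F z).re) xT xB
  y : EndsOf (P '' Yᶜ)ᶜ (cF hi K) (pu hi fun z => (F z).im) yT yB
  v : EndsOf (F '' Yᶜ)ᶜ (cF h K) (pu h fun z => (P z).re) vT vB

/-- **(1) BAL: FORMULA + COUNT + crude E-L** (`be`, `s` = square of `K` in the final picture) -/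
def BAL : Prop := ∀ (Y : Set ℂ) (x0 φ : ℂ → ℝ) (a b : ℕ → ℂ → ℝ) (F P : ℂ → ℂ) (i : ℕ)
  (K : Cmp Yᶜᶜ) (h1 θ : ℝ → ℝ) (O : Set ℂ) (h : SkA_8.Pk Y x0 a φ F)
  (hi : SkA_8.Pk Y x0 b (a i) P) (be s ex : ℝ) (xT xB yT yB vT vB gT gB kT kB : ℝ → ℝ),
  Stp h1 → Rmp θ (Sqr_185.lo (cF h K).1) (Sqr_185.hi (cF h K).1) ex →
  Uc Y K.1 (mm x0 (a i) φ h1 θ) O →
  0 < s → SqK (cF h K).1 (Sqr_185.lo (cF h K).1) be s → s = Sqr_185.wd (cF h K).1 →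
  Ed h hi K xT xB yT yB vT vB →
  EndsOf (P '' Yᶜ)ᶜ (cF hi K) (pu hi (gg x0 (a i) φ h1 θ O)) gT gB →
  EndsOf (F '' Yᶜ)ᶜ (cF h K) (pu h (gg x0 (a i) φ h1 θ O)) kT kB →
  Bal (Sqr_185.lo (cF hi K).1) (Sqr_185.hi (cF hi K).1) (Sqr_185.lo (cF h K).1)
      (Sqr_185.hi (cF h K).1) h1 θ xT xB vT vB gT gB kT kB 1 1 1 1 = 0 ∧
  |Bal (Sqr_185.lo (cF hi K).1) (Sqr_185.hi (cF hi K).1) (Sqr_185.lo (cF h K).1)
      (Sqr_185.hi (cF h K).1) h1 θ xT xB vT vB gT gB kT kB yT yB (be + s) be| ≤ s ∧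
  |- s * ex - Bal (Sqr_185.lo (cF hi K).1) (Sqr_185.hi (cF hi K).1) (Sqr_185.lo (cF h K).1)
      (Sqr_185.hi (cF h K).1) h1 θ xT xB vT vB gT gB kT kB yT yB (be + s) be| ≤ s

/-- the germ of the upper / lower end of `K` on the line `Re P = t` lies in `O` -/
def InT (hi : SkA_8.Pk Y x0 b (a i) P) (K : Cmp Yᶜᶜ) (O : Set ℂ) (t : ℝ) : Prop :=
  ∀ᶠ v in TopF (P '' Yᶜ)ᶜ (cF hi K).1 t, (Uw6_913.endMap hi).inv ⟨t, v⟩ ∈ O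

def InB (hi : SkA_8.Pk Y x0 b (a i) P) (K : Cmp Yᶜᶜ) (O : Set ℂ) (t : ℝ) : Prop :=
  ∀ᶠ v in BotF (P '' Yᶜ)ᶜ (cF hi K).1 t, (Uw6_913.endMap hi).inv ⟨t, v⟩ ∈ O

open Classical in
/-- **PTW** (pointwise form of BAL: `h1 ^ 2` tends to a jump at `t`, `θ` is fixed): for almost every
level the ends in `O` are balanced; `eu = ±1` = side of the level `t0` -/
def PTW : Prop := ∀ (Y : Set ℂ) (x0 φ : ℂ → ℝ) (a b : ℕ → ℂ → ℝ) (F P : ℂ → ℂ) (i : ℕ)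
  (K : Cmp Yᶜᶜ) (θ : ℝ → ℝ) (O : Set ℂ) (h : SkA_8.Pk Y x0 a φ F)
  (hi : SkA_8.Pk Y x0 b (a i) P) (be s ex eu t0 : ℝ) (xT xB yT yB vT vB : ℝ → ℝ),
  0 < s → SqK (cF h K).1 (Sqr_185.lo (cF h K).1) be s → s = Sqr_185.wd (cF h K).1 →
  Ed h hi K xT xB yT yB vT vB →
  Rmp θ (Sqr_185.lo (cF h K).1) (Sqr_185.hi (cF h K).1) ex → (eu = 1 ∨ eu = -1) →
  t0 ∈ Icc (Sqr_185.lo (cF hi K).1) (Sqr_185.hi (cF hi K).1) →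
  Uc Y K.1 (fun z => min (eu * (x0 z + a i z - t0)) (θ (x0 z + φ z))) O →
  ∀ᵐ t : ℝ, t ∈ Ioo (Sqr_185.lo (cF hi K).1) (Sqr_185.hi (cF hi K).1) → 0 < eu * (t - t0) →
    ∃ lT ∈ Icc (0 : ℝ) 1, ∃ lB ∈ Icc (0 : ℝ) 1,
      eu * ex * ((if InT hi K O t then θ (xT t) ^ 2 else 0) -
        (if InB hi K O t then θ (xB t) ^ 2 else 0)) + lT - lB = 0 ∧
      eu * ex * ((if InT hi K O t then θ (xT t) ^ 2 else 0) * yT t -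
        (if InB hi K O t then θ (xB t) ^ 2 else 0) * yB t) + lT * (be + s) - lB * be ∈ Icc 0 s

/-- **(4) ATNE**: for almost every level both ends lie at the height of the square -/
def ATNE : Prop := ∀ (Y : Set ℂ) (x0 φ : ℂ → ℝ) (a b : ℕ → ℂ → ℝ) (F P : ℂ → ℂ) (i : ℕ)
  (K : Cmp Yᶜᶜ) (h : SkA_8.Pk Y x0 a φ F) (hi : SkA_8.Pk Y x0 b (a i) P) (be s : ℝ)
  (xT xB yT yB vT vB : ℝ → ℝ),
  0 < s → SqK (cF h K).1 (Sqr_185.lo (cF h K).1) be s → s = Sqr_185.wd (cF h K).1 →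
  Ed h hi K xT xB yT yB vT vB →
  ∀ᵐ t : ℝ, t ∈ Ioo (Sqr_185.lo (cF hi K).1) (Sqr_185.hi (cF hi K).1) →
    yT t ∈ Icc be (be + s) ∧ yB t ∈ Icc be (be + s)

end

end Crest.Agent.R105.E13_499
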