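import Crest.Agent.R105.Pj2_403
import Crest.Agent.R105.E13_499
import Crest.Agent.R105.Grd3_782

/-!
# Row 105, S0138, node E13: from `ATNE` (letters of E13_499) to `SolEnds` (403) (helper632)

* `lo_sqK`, `hi_sqK`  : the projection of a square solid
* `tendsto_end`       : the end filters on the lines of one picture go to the component in the
  other picture
* `exists_ed`         : the end functions `Ed` exist (from `ENDS`, `BVN`, `BVY`)
* `solEnds_of`        : `ENDS → BVN → BVY → ATNE → SolEnds`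
-/

set_option autoImplicit false

open MeasureTheory Set Filter Topology Metric
open scoped NNReal ENNReal

namespace Crest.Agent.R105.Lnk3_632

open Crest.AnalysisR Tc_808 Ends_897
open Sqr_185 (sec SqK mem_sec)
open Cq_463 (Sqr)
open Pct_185 (PicT)
open Ta_937 (sqs corE)
open SkA_8 (Pk)
open Pj_403 (EndTop EndBot SolEnds)
open E13_499

noncomputable section

variable {Y : Set ℂ} {x0 φ : ℂ → ℝ} {a b : ℕ → ℂ → ℝ} {F P : ℂ → ℂ} {i : ℕ}

/-! ### squares -/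

theorem lo_sqK {K : Set ℂ} {x y s : ℝ} (hs : 0 < s) (h : SqK K x y s) : Sqr_185.lo K = x := by
  have h1 : (⟨x, y⟩ : ℂ) ∈ K := h.sub ⟨x, y⟩ ⟨le_refl _, by linarith⟩ ⟨le_refl _, by
    show y ≤ y + s; linarith⟩
  have h2 : BddBelow (Complex.re '' K) := ⟨x, by
    rintro _ ⟨p, hp, rfl⟩; exact (h.re_mem p hp).1⟩
  refine le_antisymm (csInf_le h2 ⟨_, h1, rfl⟩) (le_csInf ⟨_, _, h1, rfl⟩ ?_)
  rintro _ ⟨p, hp, rfl⟩
  exact (h.re_mem p hp).1

theorem hi_sqK {K : Set ℂ} {x y s : ℝ} (hs : 0 < s) (h : SqK K x y s) :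
    Sqr_185.hi K = x + s := by
  have h1 : (⟨x + s, y⟩ : ℂ) ∈ K := h.sub ⟨x + s, y⟩ ⟨by show x ≤ x + s; linarith, le_refl _⟩
    ⟨le_refl _, by show y ≤ y + s; linarith⟩
  have h2 : BddAbove (Complex.re '' K) := ⟨x + s, by
    rintro _ ⟨p, hp, rfl⟩; exact (h.re_mem p hp).2⟩
  refine le_antisymm (csSup_le ⟨_, _, h1, rfl⟩ ?_) (le_csSup h2 ⟨_, h1, rfl⟩)
  rintro _ ⟨p, hp, rfl⟩
  exact (h.re_mem p hp).2

theorem wd_sqK {K : Set ℂ} {x y s : ℝ} (hs : 0 < s) (h : SqK K x y s) : Sqr_185.wd K = s := by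
  unfold Sqr_185.wd
  rw [lo_sqK hs h, hi_sqK hs h]; ring

/-! ### the end filters -/

theorem topF_le {E L : Set ℂ} {t : ℝ} : TopF E L t ≤ 𝓝 (sSup (sec L t)) := inf_le_left

theorem botF_le {E L : Set ℂ} {t : ℝ} : BotF E L t ≤ 𝓝 (sInf (sec L t)) := inf_le_left

theorem topF_off {E L : Set ℂ} {t : ℝ} : ∀ᶠ v in TopF E L t, (⟨t, v⟩ : ℂ) ∉ E := by
  filter_upwards [self_mem_nhdsWithin] with v hv using hv.1

theorem botF_off {E L : Set ℂ} {t : ℝ} : ∀ᶠ v in BotF E L t, (⟨t, v⟩ : ℂ) ∉ E := by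
  filter_upwards [self_mem_nhdsWithin] with v hv using hv.1

/-- a filter on the line `re = t` at a point of `L`, off `E`, goes to the end `L` -/
theorem tendsto_line {E L : Set ℂ} {t v0 : ℝ} {l : Filter ℝ} (hl : l ≤ 𝓝 v0)
    (h0 : v0 ∈ sec L t) (hoff : ∀ᶠ v in l, (⟨t, v⟩ : ℂ) ∉ E) :
    Tendsto (fun v : ℝ => (⟨t, v⟩ : ℂ)) l (eK E L) := by
  unfold eK
  refine tendsto_inf.2 ⟨?_, ?_⟩
  · have h1 : Tendsto (fun v : ℝ => (⟨t, v⟩ : ℂ)) l (𝓝 ⟨t, v0⟩) := by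
      have hc : Continuous fun v : ℝ => (⟨t, v⟩ : ℂ) :=
        Sqr_185.continuous_mk.comp (continuous_const.prodMk continuous_id)
      exact (hc.tendsto v0).mono_left hl
    exact h1.mono_right (nhds_le_nhdsSet h0)
  · rw [tendsto_principal]
    exact hoff

/-- the end filters of the `P`-picture go to the component of the `F`-picture -/
theorem tendsto_end (h : Pk Y x0 a φ F) (hi : Pk Y x0 b (a i) P) (K : Cmp Yᶜᶜ) {t v0 : ℝ}
    {l : Filter ℝ} (hl : l ≤ 𝓝 v0) (h0 : v0 ∈ sec (cF hi K).1 t)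
    (hoff : ∀ᶠ v in l, (⟨t, v⟩ : ℂ) ∉ (P '' Yᶜ)ᶜ) :
    Tendsto (fun v : ℝ => F ((Uw6_913.endMap hi).inv ⟨t, v⟩)) l
      (eK (F '' Yᶜ)ᶜ (cF h K).1) := by
  have h1 := tendsto_line hl h0 hoff
  have h2 := Ta_937.tendsto_inv (Uw6_913.endMap hi) K
  have h3 := Ta_937.tendsto_corE (Uw6_913.endMap h) K
  exact h3.comp (h2.comp h1)

/-- near a component the real part stays in its projection, up to `ε` -/
theorem re_eK {E : Set ℂ} {L : Set ℂ} {x y s : ℝ} (h : SqK L x y s) {ε : ℝ} (hε : 0 < ε) :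
    ∀ᶠ w in eK E L, w.re ∈ Ioo (x - ε) (x + s + ε) := by
  have h1 : IsOpen {w : ℂ | w.re ∈ Ioo (x - ε) (x + s + ε)} :=
    isOpen_Ioo.preimage Complex.continuous_re
  have h2 : L ⊆ {w : ℂ | w.re ∈ Ioo (x - ε) (x + s + ε)} := by
    intro p hp
    have := h.re_mem p hp
    exact ⟨by linarith [this.1], by linarith [this.2]⟩
  exact mem_inf_of_left ((h1.mem_nhdsSet).2 h2)

/-- limits of the real part at an end lie in the closed projection of the square -/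
theorem lim_mem {E L : Set ℂ} {x y s c : ℝ} (h : SqK L x y s) {l : Filter ℝ} [l.NeBot]
    {G : ℝ → ℂ} (hG : Tendsto G l (eK E L)) (hc : Tendsto (fun v => (G v).re) l (𝓝 c)) :
    c ∈ Icc x (x + s) := by
  constructor
  · refine le_of_forall_pos_le_add fun ε hε => ?_
    have h1 : ∀ᶠ v in l, x - ε ≤ (G v).re :=
      (hG.eventually (re_eK h hε)).mono fun v hv => hv.1.le
    have h2 := ge_of_tendsto hc h1
    linarith
  · refine le_of_forall_pos_le_add fun ε hε => ?_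
    have h1 : ∀ᶠ v in l, (G v).re ≤ x + s + ε :=
      (hG.eventually (re_eK h hε)).mono fun v hv => hv.2.le
    exact le_of_tendsto hc h1

/-! ### the end functions exist -/

theorem endsOf_congr {E : Set ℂ} {L : Cmp E} {w w' : ℂ → ℝ} {wT wB : ℝ → ℝ}
    (h : EndsOf E L w wT wB) (he : ∀ z, z ∉ E → w z = w' z) : EndsOf E L w' wT wB := by
  filter_upwards [h] with t ht hto
  obtain ⟨h1, h2⟩ := ht hto
  refine ⟨h1.congr' ?_, h2.congr' ?_⟩
  · filter_upwards [topF_off] with v hv using he _ hv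
  · filter_upwards [botF_off] with v hv using he _ hv

theorem pu_congr (h : Pk Y x0 a φ F) {w w' : ℂ → ℝ} (he : ∀ z ∈ Yᶜ, w z = w' z) (z : ℂ)
    (hz : z ∉ (F '' Yᶜ)ᶜ) : pu h w z = pu h w' z := by
  have h1 : z ∈ F '' Yᶜ := not_not.1 hz
  have h2 := (Uw6_913.endMap h).inv_mem h1
  exact he _ h2

theorem exists_ed (HE : ENDS) (HN : BVN) (HY : BVY) (h : Pk Y x0 a φ F)
    (hi : Pk Y x0 b (a i) P) (K : Cmp Yᶜᶜ) :
    ∃ xT xB yT yB vT vB : ℝ → ℝ, Ed h hi K xT xB yT yB vT vB := by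
  have hPF := (Uw6_913.picT h).2
  have hPP := (Uw6_913.picT hi).2
  obtain ⟨xT, xB, hx⟩ := (HE _ (cF hi K) hPP).2 _ (HN Y x0 (a i) φ b P hi h.tt (h.com i)).2
  obtain ⟨yT, yB, hy⟩ := (HE _ (cF hi K) hPP).2 _ (HY Y x0 φ a b F P i h hi)
  obtain ⟨vT, vB, hv⟩ := (HE _ (cF h K) hPF).2 _
    (HN Y x0 φ (a i) a F h (h.tta i) (Grd_782.NI_symm (h.com i))).2
  exact ⟨xT, xB, yT, yB, vT, vB, endsOf_congr hx (pu_congr hi fun z hz => (h.re z hz).symm), hy,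
    endsOf_congr hv (pu_congr h fun z hz => (hi.re z hz).symm)⟩

/-! ### the join -/

theorem solEnds_aux (HE : ENDS) (HN : BVN) (HY : BVY) (HA : ATNE) (h : Pk Y x0 a φ F)
    (hi : Pk Y x0 b (a i) P) (K : Cmp Yᶜᶜ) (Q : Sqr)
    (hS : SqK (cF h K).1 Q.x Q.y Q.s) :
    ∀ᵐ t : ℝ, t ∈ Ioo (Sqr_185.lo (cF hi K).1) (Sqr_185.hi (cF hi K).1) →
      EndTop Yᶜ P F (cF hi K).1 t Q.car ∧ EndBot Yᶜ P F (cF hi K).1 t Q.car := by
  have hPF := (Uw6_913.picT h).2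
  have hPP := (Uw6_913.picT hi).2
  obtain ⟨xT, xB, yT, yB, vT, vB, hEd⟩ := exists_ed HE HN HY h hi K
  have hS' : SqK (cF h K).1 (Sqr_185.lo (cF h K).1) Q.y Q.s := by
    rw [lo_sqK Q.hs hS]; exact hS
  have hA := HA Y x0 φ a b F P i K h hi Q.y Q.s xT xB yT yB vT vB Q.hs hS'
    (wd_sqK Q.hs hS).symm hEd
  have hc : IsCompact (cF hi K).1 := (cF hi K).isCompact hPP.cpt
  have hne := (HE _ (cF hi K) hPP).1
  filter_upwards [hA, hEd.x, hEd.y] with t h1 h2 h3 ht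
  obtain ⟨g1, g2⟩ := h1 ht
  obtain ⟨x1, x2⟩ := h2 ht
  obtain ⟨y1, y2⟩ := h3 ht
  obtain ⟨n1, n2⟩ := hne t (Ioo_subset_Icc_self ht)
  have hsc : IsCompact (sec (cF hi K).1 t) := Pj_403.isCompact_sec' hc t
  have hsn : (sec (cF hi K).1 t).Nonempty := by
    obtain ⟨p, hp, hp2⟩ := Sqr_185.exists_lo hc (cF hi K).nonempty
    obtain ⟨q, hq, hq2⟩ := Sqr_185.exists_hi hc (cF hi K).nonempty
    have k3 : IsPreconnected (Complex.re '' (cF hi K).1) :=
      (cF hi K).preconn.image _ Complex.continuous_re.continuousOn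
    have k4 : t ∈ Complex.re '' (cF hi K).1 := k3.ordConnected.out (mem_image_of_mem _ hp)
      (mem_image_of_mem _ hq) ⟨by rw [hp2]; exact ht.1.le, by rw [hq2]; exact ht.2.le⟩
    obtain ⟨w, hw, rfl⟩ := k4
    exact ⟨w.im, hw⟩
  have hT := tendsto_end h hi K (topF_le (E := (P '' Yᶜ)ᶜ)) (hsc.sSup_mem hsn) topF_off
  have hB := tendsto_end h hi K (botF_le (E := (P '' Yᶜ)ᶜ)) (hsc.sInf_mem hsn) botF_off
  have hxT := lim_mem hS hT x1
  have hxB := lim_mem hS hB x2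
  have hoff : ∀ z ∈ Yᶜ, P z ∉ (P '' Yᶜ)ᶜ := fun z hz hz' => hz' (mem_image_of_mem P hz)
  exact ⟨Pj_403.endTop_of_lim hoff (fun z hz => Ta_937.push_comp (Uw6_913.endMap hi) _ hz)
      (fun z hz => Ta_937.push_comp (Uw6_913.endMap hi) _ hz) x1 y1 ⟨hxT, g1⟩,
    Pj_403.endBot_of_lim hoff (fun z hz => Ta_937.push_comp (Uw6_913.endMap hi) _ hz)
      (fun z hz => Ta_937.push_comp (Uw6_913.endMap hi) _ hz) x2 y2 ⟨hxB, g2⟩⟩

/-- **`ATNE` (E13_499) gives the per-solid statement `SolEnds` of 403** -/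
theorem solEnds_of (HE : ENDS) (HN : BVN) (HY : BVY) (HA : ATNE) : SolEnds := by
  intro U x0 a φ F h i b P hb hE hE' hP hP' K Q hQ hS hw
  obtain ⟨Y, rfl⟩ : ∃ Y : Set ℂ, U = Yᶜ := ⟨Uᶜ, (compl_compl U).symm⟩
  rw [compl_compl] at h hb
  exact solEnds_aux HE HN HY HA h hb K Q hS

/-- **`ATNo Ext` from the literal leaves of E13_499** -/
theorem atno_ext (HE : ENDS) (HN : BVN) (HY : BVY) (HA : ATNE) : Jex_987.ATNo Jex_987.Ext :=
  Pj_403.atno_ext (solEnds_of HE HN HY HA)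

end

end Crest.Agent.R105.Lnk3_632
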