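import Crest.Agent.R105.Asm2_895
import Crest.Agent.R105.Kna8_421
import Crest.Agent.R105.Eta6_179
import Crest.Agent.R105.Lnk3_632
import Crest.Agent.R105.Bvl4_31

/-!
# Row 105, S0138: ONE open leaf (helper895, assembly)

`LEMAQ StrQ` = 421 `Kna_421.lemaq`, `ENDo Ext` = 179 `Eta_179.endo_ext`, `LYo Ext` = 987.
`s0138_of_atno : ATNo Ext → S0138`, `s0138_of_solEnds : SolEnds → S0138`,
`s0138_of_e13 : E13_499.ENDS → E13_499.ATNE → S0138`.
-/

set_option autoImplicit false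

open MeasureTheory Set Filter Topology

namespace Crest.Agent.R105.Asm_895

open Crest.AnalysisR

theorem lemaqS : SkT1_137.LEMAQ Psq_425.StrQ := Kna_421.lemaq

theorem ende : ENDE := Eta_179.endo_ext

/-- **S0138 from `ATNo Ext`** -/
theorem s0138_of_atno (hN : ATNE)
    (U : Set ℂ) (hU : IsExteriorDomain U) :
    ∃ f : ℂ → ℂ, DifferentiableOn ℂ f U ∧ Set.InjOn f U ∧
      Filter.Tendsto f (Filter.cocompact ℂ) (Filter.cocompact ℂ) ∧
      IsCircleDomainFinitePart (f '' U) :=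
  s0138_of_hce lemaqS (hce_of hN ende) hN U hU

/-- **S0138 from 403's `SolEnds`** -/
theorem s0138_of_solEnds (hN : Pj_403.SolEnds)
    (U : Set ℂ) (hU : IsExteriorDomain U) :
    ∃ f : ℂ → ℂ, DifferentiableOn ℂ f U ∧ Set.InjOn f U ∧
      Filter.Tendsto f (Filter.cocompact ℂ) (Filter.cocompact ℂ) ∧
      IsCircleDomainFinitePart (f '' U) :=
  s0138_of_atno (atne_of hN) U hU

/-- **S0138 from 499's `ENDS`, `ATNE`** -/
theorem s0138_of_e13 (hE : E13_499.ENDS) (hA : E13_499.ATNE)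
    (U : Set ℂ) (hU : IsExteriorDomain U) :
    ∃ f : ℂ → ℂ, DifferentiableOn ℂ f U ∧ Set.InjOn f U ∧
      Filter.Tendsto f (Filter.cocompact ℂ) (Filter.cocompact ℂ) ∧
      IsCircleDomainFinitePart (f '' U) :=
  s0138_of_solEnds (Lnk3_632.solEnds_of hE Bvl_31.bvn Bvl_31.bvy hA) U hU

end Crest.Agent.R105.Asm_895
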