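import Crest.Agent.R105.Jex5_987
import Crest.Agent.R105.Atl3_948

/-!
# Row 105, S0138: from 499's `PTW` (helper895, assembly)
-/

set_option autoImplicit false

open MeasureTheory Set Filter Topology

namespace Crest.Agent.R105.Asm_895

open Crest.AnalysisR

/-- **S0138 from `PTW`** (948's `atne`, 987's `s0138_atne`) -/
theorem s0138_of_ptw (hP : E13_499.PTW)
    (U : Set ℂ) (hU : IsExteriorDomain U) :
    ∃ f : ℂ → ℂ, DifferentiableOn ℂ f U ∧ Set.InjOn f U ∧
      Filter.Tendsto f (Filter.cocompact ℂ) (Filter.cocompact ℂ) ∧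
      IsCircleDomainFinitePart (f '' U) :=
  Jex_987.s0138_atne (Atl_948.atne hP) U hU

end Crest.Agent.R105.Asm_895
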