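import Crest.Agent.R105.E13_499
import Crest.Agent.R105.Bvl3_31
import Crest.Agent.R105.Bvy1_253
import Crest.Agent.R105.Adg3_600
import Crest.Agent.R105.LmS2_392
import Crest.Agent.R105.Pj2_403

/-!
# Row 105, S0138, node E13, BAL, pieces (B2), (B3): weights in a picture (helper338)

`Wt hi f` : `f` is locally Lipschitz on `Yᶜ`, its push forward to the picture of `P` has bounded
variation on the vertical lines and is locally bounded.  Closed under products, Lipschitz outer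
functions; instances `TT` + `NI`, `x0 + φ`, `Im F`, constants.
-/

set_option autoImplicit false

open MeasureTheory Set Filter Topology Metric
open scoped NNReal ENNReal ContDiff

namespace Crest.Agent.R105.Bp_338

open Crest.AnalysisR (IsExteriorDomain)
open Tc_808 Bd_775 Ends_897 Ni_459
open Ta_937 (corE push push_comp)
open Sqr_185 (sec SqK)
open E13_499 (EndsOf TopF BotF pu cF gg mm Stp)

noncomputable section

variable {Y : Set ℂ} {x0 φ A f g : ℂ → ℝ} {a b : ℕ → ℂ → ℝ} {F P : ℂ → ℂ} {i : ℕ}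

/-- 31's `BVL` gives 499's -/
theorem bvl_to {E : Set ℂ} {w : ℂ → ℝ} (h : Bvl_31.BVL E w) : E13_499.BVL E w := by
  intro R
  obtain ⟨M, h1, h2, h3⟩ := h R
  have h4 : ∀ᵐ t : ℝ, t ∈ Icc (-R) R →
      eVariationOn (fun v : ℝ => w ⟨t, v⟩) {v | (⟨t, v⟩ : ℂ) ∉ E ∧ |v| ≤ R} ≤ M t := by
    filter_upwards [h3] with t ht _
    exact ht
  first
  | exact ⟨M, h2, h4⟩
  | exact ⟨M, h1, h2, h4⟩

theorem pu_apply (hi : SkA_8.Pk Y x0 b A P) (f : ℂ → ℝ) {z : ℂ} (hz : z ∈ Yᶜ) :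
    pu hi f (P z) = f z := push_comp _ f hz

theorem pu_mul (hi : SkA_8.Pk Y x0 b A P) (f g : ℂ → ℝ) (ζ : ℂ) :
    pu hi (fun z => f z * g z) ζ = pu hi f ζ * pu hi g ζ := rfl

/-- a step function is Lipschitz -/
theorem stp_lip {θ : ℝ → ℝ} (h : Stp θ) : ∃ L : ℝ≥0, LipschitzWith L θ := by
  obtain ⟨C, hC⟩ := (h.smooth.continuous_deriv (by simp)).bounded_above_of_compact_support h.supp
  refine ⟨Real.toNNReal C, lipschitzWith_of_nnnorm_deriv_le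
    (h.smooth.differentiable (by simp)) fun t => ?_⟩
  rw [← NNReal.coe_le_coe, coe_nnnorm]
  exact (hC t).trans (Real.le_coe_toNNReal C)

/-- weights in the picture of `P` -/
structure Wt (hi : SkA_8.Pk Y x0 b A P) (f : ℂ → ℝ) : Prop where
  ll : LocallyLipschitzOn Yᶜ f
  bv : Bvl_31.BVL (P '' Yᶜ)ᶜ (pu hi f)
  bd : Bvl_31.Bd (P '' Yᶜ)ᶜ (pu hi f)

variable {hi : SkA_8.Pk Y x0 b A P} {h : SkA_8.Pk Y x0 a φ F}

theorem Wt.mul (hf : Wt hi f) (hg : Wt hi g) : Wt hi fun z => f z * g z where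
  ll := LmS_392.ll_mul' hf.ll hg.ll
  bv := hf.bv.mul hg.bv hf.bd hg.bd
  bd := hf.bd.mul hg.bd

theorem Wt.const (hi : SkA_8.Pk Y x0 b A P) (c : ℝ) : Wt hi fun _ => c where
  ll := (LipschitzWith.const c).locallyLipschitz.locallyLipschitzOn
  bv := Bvl_31.BVL.const c
  bd := Bvl_31.Bd.of_bdd (C := |c|) fun _ => le_rfl

theorem Wt.comp (hf : Wt hi f) {G : ℝ → ℝ} {L : ℝ≥0} (hG : LipschitzWith L G) :
    Wt hi fun z => G (f z) where
  ll := Bd_775.ll_comp hG hf.ll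
  bv := hf.bv.comp_lip hG
  bd := fun R => by
    obtain ⟨C, hC⟩ := hf.bd R
    refine ⟨|G 0| + L * |C|, fun ζ hζ hR => ?_⟩
    have h1 := hG.dist_le_mul (pu hi f ζ) 0
    rw [Real.dist_eq, Real.dist_eq, sub_zero] at h1
    have h2 : (L : ℝ) * |pu hi f ζ| ≤ L * |C| :=
      mul_le_mul_of_nonneg_left ((hC ζ hζ hR).trans (le_abs_self C)) L.2
    have h3 : |G (pu hi f ζ)| ≤ |G (pu hi f ζ) - G 0| + |G 0| := by
      have := abs_add_le (G (pu hi f ζ) - G 0) (G 0)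
      rwa [sub_add_cancel] at this
    show |G (pu hi f ζ)| ≤ _
    linarith

theorem Wt.congr (hf : Wt hi f) (he : ∀ z ∈ Yᶜ, g z = f z) : Wt hi g where
  ll := Tra_937.locLip_congr (fun z hz => (he z hz).symm) hf.ll
  bv := hf.bv.congr fun ζ hζ => by
    obtain ⟨z, hz, rfl⟩ := not_not.1 hζ
    rw [pu_apply hi _ hz, pu_apply hi _ hz, he z hz]
  bd := fun R => by
    obtain ⟨C, hC⟩ := hf.bd R
    refine ⟨C, fun ζ hζ hR => ?_⟩
    have h1 := hC ζ hζ hR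
    obtain ⟨z, hz, rfl⟩ := not_not.1 hζ
    rw [pu_apply hi _ hz] at h1 ⊢
    rwa [he z hz]

/-- `TT` functions commuting with the picture -/
theorem Wt.tt (hi : SkA_8.Pk Y x0 b A P) (hf : TT Y f) (hni : NI Y A f) : Wt hi f where
  ll := hf.q.loc
  bv := Bvl_31.bvl_tt hi hf hni fun _ hz => pu_apply hi f hz
  bd := Bvl_31.bd_tt hi hf fun _ hz => pu_apply hi f hz

theorem loc_x0 (hi : SkA_8.Pk Y x0 b A P) : LocallyLipschitzOn Yᶜ x0 :=
  ((hi.hx.sm.of_le (by exact_mod_cast le_top) : ContDiff ℝ 1 x0).locallyLipschitz).locallyLipschitzOn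

theorem ll_add {O : Set ℂ} {u v : ℂ → ℝ} (hu : LocallyLipschitzOn O u)
    (hv : LocallyLipschitzOn O v) : LocallyLipschitzOn O fun z => u z + v z := by
  intro z hz
  obtain ⟨K, s, hs, h1⟩ := hu hz
  obtain ⟨L, t, ht, h2⟩ := hv hz
  refine ⟨K + L, s ∩ t, inter_mem hs ht, ?_⟩
  exact (h1.mono inter_subset_left).add (h2.mono inter_subset_right)

/-- `x0 + f` -/
theorem Wt.x0add (hi : SkA_8.Pk Y x0 b A P) (hf : TT Y f) (hni : NI Y A f) :
    Wt hi fun z => x0 z + f z where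
  ll := ll_add (loc_x0 hi) hf.q.loc
  bv := Bvl_31.bvl_x0 hi hf hni fun _ hz => pu_apply hi (fun z => x0 z + f z) hz
  bd := Bvl_31.bd_x0 hi hf fun _ hz => pu_apply hi (fun z => x0 z + f z) hz

/-- `Im F` in the picture of an anchor -/
theorem Wt.im (h : SkA_8.Pk Y x0 a φ F) (hi : SkA_8.Pk Y x0 b (a i) P) :
    Wt hi fun z => (F z).im where
  ll := by
    have h1 : IsOpen Yᶜ := h.hY.1
    exact Yv_319.locLip_im h1 h.hol
  bv := (Bvy_253.bvl_y h hi).congr fun ζ hζ => by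
    obtain ⟨z, hz, rfl⟩ := not_not.1 hζ
    rw [pu_apply hi _ hz, Yv_319.yP_apply _ hz]
  bd := fun R => by
    obtain ⟨ρ, hρ⟩ := (Uw6_913.endMap hi).symm.bdd R
    obtain ⟨C, hC⟩ := (Uw6_913.endMap h).bdd ρ
    refine ⟨C, fun ζ hζ hR => ?_⟩
    have h1 := hρ ζ (not_not.1 hζ) hR
    obtain ⟨z, hz, rfl⟩ := not_not.1 hζ
    rw [pu_apply hi _ hz]
    have h2 : (Uw6_913.endMap hi).inv (P z) = z := (Uw6_913.endMap hi).inv_left hz
    rw [h2] at h1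
    exact (Complex.abs_im_le_norm _).trans (hC z hz h1)

/-- `Im F` in its own picture -/
theorem Wt.im_self (h : SkA_8.Pk Y x0 a φ F) : Wt h fun z => (F z).im where
  ll := by
    have h1 : IsOpen Yᶜ := h.hY.1
    exact Yv_319.locLip_im h1 h.hol
  bv := Bvl_31.BVL.im.congr fun ζ hζ => by
    obtain ⟨z, hz, rfl⟩ := not_not.1 hζ
    rw [pu_apply h _ hz]
  bd := fun R => ⟨R, fun ζ hζ hR => by
    obtain ⟨z, hz, rfl⟩ := not_not.1 hζ
    rw [pu_apply h _ hz]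
    exact (Complex.abs_im_le_norm _).trans hR⟩

/-! ### end limits -/

theorem ends_mul {E : Set ℂ} {L : Cmp E} {w w' : ℂ → ℝ} {T B T' B' : ℝ → ℝ}
    (h : EndsOf E L w T B) (h' : EndsOf E L w' T' B') :
    EndsOf E L (fun z => w z * w' z) (fun t => T t * T' t) (fun t => B t * B' t) := by
  filter_upwards [h, h'] with t ht ht' hI
  exact ⟨(ht hI).1.mul (ht' hI).1, (ht hI).2.mul (ht' hI).2⟩

theorem ends_comp {E : Set ℂ} {L : Cmp E} {w : ℂ → ℝ} {T B : ℝ → ℝ} {G : ℝ → ℝ}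
    (hG : Continuous G) (h : EndsOf E L w T B) :
    EndsOf E L (fun z => G (w z)) (fun t => G (T t)) (fun t => G (B t)) := by
  filter_upwards [h] with t ht hI
  exact ⟨(hG.tendsto _).comp (ht hI).1, (hG.tendsto _).comp (ht hI).2⟩

theorem ends_const {E : Set ℂ} {L : Cmp E} (c : ℝ) :
    EndsOf E L (fun _ => c) (fun _ => c) (fun _ => c) :=
  Eventually.of_forall fun _ _ => ⟨tendsto_const_nhds, tendsto_const_nhds⟩

theorem sec_end {E : Set ℂ} (hE : IsCompact E) (L : Cmp E) {t : ℝ}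
    (ht : t ∈ Ioo (Sqr_185.lo L.1) (Sqr_185.hi L.1)) :
    (⟨t, sSup (sec L.1 t)⟩ : ℂ) ∈ L.1 ∧ (⟨t, sInf (sec L.1 t)⟩ : ℂ) ∈ L.1 := by
  have hc := L.isCompact hE
  have h0 : IsPreconnected L.1 := by
    obtain ⟨z, hz, hL⟩ := L.2
    rw [hL]
    exact isPreconnected_connectedComponentIn
  have hne := Sqr_185.sec_nonempty hc h0 L.nonempty (Ioo_subset_Icc_self ht)
  have hs := Pj_403.isCompact_sec' hc t
  exact ⟨hs.sSup_mem hne, hs.sInf_mem hne⟩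

/-- near `L` only the values near `L` matter -/
theorem ends_congr {E : Set ℂ} (hE : IsCompact E) {L : Cmp E} {w w' : ℂ → ℝ} {T B : ℝ → ℝ}
    {N : Set ℂ} (hN : IsOpen N) (hLN : L.1 ⊆ N) (he : ∀ ζ ∈ N, ζ ∉ E → w' ζ = w ζ)
    (h : EndsOf E L w T B) : EndsOf E L w' T B := by
  filter_upwards [h] with t ht hI
  obtain ⟨h1, h2⟩ := ht hI
  obtain ⟨g1, g2⟩ := sec_end hE L hI
  have hcm : Continuous fun v : ℝ => (⟨t, v⟩ : ℂ) :=
    Sqr_185.continuous_mk.comp (continuous_const.prodMk continuous_id)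
  constructor
  · refine h1.congr' ?_
    have h3 : ∀ᶠ v in TopF E L.1 t, (⟨t, v⟩ : ℂ) ∈ N :=
      nhdsWithin_le_nhds (hcm.continuousAt.preimage_mem_nhds (hN.mem_nhds (hLN g1)))
    filter_upwards [h3, self_mem_nhdsWithin] with v hv hv'
    exact (he _ hv hv'.1).symm
  · refine h2.congr' ?_
    have h3 : ∀ᶠ v in BotF E L.1 t, (⟨t, v⟩ : ℂ) ∈ N :=
      nhdsWithin_le_nhds (hcm.continuousAt.preimage_mem_nhds (hN.mem_nhds (hLN g2)))
    filter_upwards [h3, self_mem_nhdsWithin] with v hv hv'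
    exact (he _ hv hv'.1).symm

/-- the cut-off is invisible at the ends -/
theorem ends_cut (hi : SkA_8.Pk Y x0 b A P) (K : Cmp Yᶜᶜ) {χ0 f : ℂ → ℝ} {N : Set ℂ}
    (hN : IsOpen N) (hKN : K.1 ⊆ N) (h1 : ∀ z ∈ N, χ0 z = 1) {T B : ℝ → ℝ}
    (h : EndsOf (P '' Yᶜ)ᶜ (cF hi K) (pu hi f) T B) :
    EndsOf (P '' Yᶜ)ᶜ (cF hi K) (pu hi fun z => χ0 z * f z) T B := by
  have hE : IsCompact (P '' Yᶜ)ᶜ := (Uw6_913.picT hi).2.cpt
  obtain ⟨O, hO, hL, hON⟩ := Ta_937.exists_nhd_push (Uw6_913.endMap hi) K hN hKN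
  refine ends_congr hE hO hL (fun ζ hζ hζE => ?_) h
  obtain ⟨z, hz, rfl⟩ := not_not.1 hζE
  rw [pu_apply hi _ hz, pu_apply hi _ hz, h1 z (hON z hz hζ), one_mul]

/-! ### the weight of the `P`-side (B2) -/

/-- the weight -/
def WP (x0 A φ : ℂ → ℝ) (h1 θ : ℝ → ℝ) (O : Set ℂ) (χ0 w : ℂ → ℝ) (z : ℂ) : ℝ :=
  2 * (χ0 z * gg x0 A φ h1 θ O z) * θ (x0 z + φ z) * w z

/-- **(B2)**, weight `w` with given ends -/
theorem wp_side (h : SkA_8.Pk Y x0 a φ F) (hi : SkA_8.Pk Y x0 b (a i) P) (K : Cmp Yᶜᶜ)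
    {h1 θ : ℝ → ℝ} {O : Set ℂ} (hθ : Stp θ) {χ0 : ℂ → ℝ}
    (htt : TT Y fun z => χ0 z * gg x0 (a i) φ h1 θ O z)
    (hni : NI Y (a i) fun z => χ0 z * gg x0 (a i) φ h1 θ O z)
    {N : Set ℂ} (hN : IsOpen N) (hKN : K.1 ⊆ N) (h1N : ∀ z ∈ N, χ0 z = 1)
    {w : ℂ → ℝ} (hw : Wt hi w) {xT xB gT gB wT wB : ℝ → ℝ}
    (hx : EndsOf (P '' Yᶜ)ᶜ (cF hi K) (pu hi fun z => (F z).re) xT xB)
    (hg : EndsOf (P '' Yᶜ)ᶜ (cF hi K) (pu hi (gg x0 (a i) φ h1 θ O)) gT gB)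
    (hwe : EndsOf (P '' Yᶜ)ᶜ (cF hi K) (pu hi w) wT wB) :
    Wt hi (WP x0 (a i) φ h1 θ O χ0 w) ∧
    EndsOf (P '' Yᶜ)ᶜ (cF hi K) (pu hi (WP x0 (a i) φ h1 θ O χ0 w))
      (fun t => 2 * gT t * θ (xT t) * wT t) (fun t => 2 * gB t * θ (xB t) * wB t) := by
  obtain ⟨L, hL⟩ := stp_lip hθ
  have g1 : Wt hi fun z => χ0 z * gg x0 (a i) φ h1 θ O z := Wt.tt hi htt hni
  have g2 : Wt hi fun z => θ (x0 z + φ z) := (Wt.x0add hi h.tt (h.com i)).comp hL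
  have g3 := (((Wt.const hi 2).mul g1).mul g2).mul hw
  refine ⟨g3, ?_⟩
  have hE : IsCompact (P '' Yᶜ)ᶜ := (Uw6_913.picT hi).2.cpt
  have e1 := ends_cut hi K hN hKN h1N hg
  have e2 : EndsOf (P '' Yᶜ)ᶜ (cF hi K) (pu hi fun z => θ (x0 z + φ z))
      (fun t => θ (xT t)) (fun t => θ (xB t)) := by
    refine ends_congr hE isOpen_univ (subset_univ _) (fun ζ _ hζE => ?_)
      (ends_comp hθ.smooth.continuous hx)
    obtain ⟨z, hz, rfl⟩ := not_not.1 hζE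
    rw [pu_apply hi _ hz, pu_apply hi _ hz, h.re z hz]
  exact ends_mul (ends_mul (ends_mul (ends_const 2) e1) e2) hwe

end

end Crest.Agent.R105.Bp_338
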