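import Crest.Agent.R105.Fml2_61
import Crest.Agent.R105.Bp1_338

/-!
# Row 105, S0138, E13, BAL (E13_499), piece (B1) (helper61): limits of line integrals

`LINEc` : the line lemma for the cut-off sequences `ChnE`
`lim1` : `∫ G(u) W du ∧ dχ_n → ∫ G(t) (W^-_t - W^+_t) dt` in the picture of `u = x0 + A`
-/

set_option autoImplicit false

open MeasureTheory Set Filter Topology Metric
open scoped ENNReal NNReal ContDiff

namespace Crest.Agent.R105.Fml_61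

open Bd_775 Tc_808 Ends_897 Crest.AnalysisR
open Pct_185 (PicT)
open E13_499 (EndsOf pu cF)
open Bp_338 (Wt)

noncomputable section

variable {Y : Set ℂ} {x0 A : ℂ → ℝ} {b : ℕ → ℂ → ℝ} {P : ℂ → ℂ}

/-- the line lemma in one picture -/
def LINEc : Prop := ∀ (E : Set ℂ) (L : Cmp E) (w : ℂ → ℝ) (χ : ℕ → ℂ → ℝ) (G wT wB : ℝ → ℝ)
  (C : ℝ), PicT E → ContinuousOn w Eᶜ → Bvl_31.Bd E w → Bvl_31.BVL E w → Measurable G →
  (∀ t, |G t| ≤ C) → ChnE E L.1 χ → EndsOf E L w wT wB →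
  Tendsto (fun n => ∫ z in Eᶜ, G z.re * w z * gy (χ n) z) atTop
    (𝓝 (∫ t in Icc (Sqr_185.lo L.1) (Sqr_185.hi L.1), G t * (wB t - wT t)))

theorem lim1 (hL : LINEc) (hi : SkA_8.Pk Y x0 b A P) (K : Cmp Yᶜᶜ) {G : ℝ → ℝ} {W : ℂ → ℝ}
    {WT WB : ℝ → ℝ} {C : ℝ} (hG : Measurable G) (hC : ∀ t, |G t| ≤ C) (hW : Wt hi W)
    (hE : EndsOf (P '' Yᶜ)ᶜ (cF hi K) (pu hi W) WT WB) {χ : ℕ → ℂ → ℝ} (hχ : ChnE Yᶜᶜ K.1 χ) :
    Tendsto (fun n => ∫ z in Yᶜ, G (x0 z + A z) * W z * wdg (fun z => x0 z + A z) (χ n) z) atTop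
      (𝓝 (∫ t in Icc (Sqr_185.lo (cF hi K).1) (Sqr_185.hi (cF hi K).1), G t * (WB t - WT t))) := by
  have hP : Tra_937.Uni Yᶜ P := Yv_319.uni_of_pk hi
  have he := Uw6_913.endMap hi
  obtain ⟨χP, h1, h2⟩ := chn_push he hP K hχ
  have hc : ContinuousOn (pu hi W) (P '' Yᶜ)ᶜᶜ := by
    rw [compl_compl]
    exact (Ta_937.loc_push he hP hW.ll).continuousOn
  have h3 := hL (P '' Yᶜ)ᶜ (cF hi K) (pu hi W) χP G WT WB C (Uw6_913.picT hi).2 hc hW.bd hW.bv hG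
    hC h1 hE
  refine h3.congr fun n => ?_
  rw [compl_compl]
  have h4 := to_pic (χ := χ n) (u := fun z => x0 z + A z) hP G W
    (fun z hz => (hi.re z hz).symm) ((hχ.sm n).locallyLipschitz.locallyLipschitzOn)
  rw [h4]
  refine setIntegral_congr_fun hP.isOpen_image.measurableSet fun ζ hζ => ?_
  have e1 : gy (χP n) ζ = gy (χ n ∘ Tra_937.inv Yᶜ P) ζ := by
    refine gy_eq_of_eventuallyEq ?_
    filter_upwards [hP.isOpen_image.mem_nhds hζ] with v hv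
    have := h2 n _ (hP.inv_mem hv)
    rwa [hP.apply_inv hv] at this
  simp only [e1]
  rfl

end

end Crest.Agent.R105.Fml_61
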