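import Crest.Agent.R105.Bp1_338

/-!
# Row 105, S0138, node E13, BAL, piece (B3): the weight of the `F`-side (helper338)
-/

set_option autoImplicit false

open MeasureTheory Set Filter Topology Metric
open scoped NNReal ENNReal ContDiff

namespace Crest.Agent.R105.Bp_338

open Crest.AnalysisR (IsExteriorDomain)
open Tc_808 Bd_775 Ends_897 Ni_459
open Ta_937 (corE push push_comp)
open Sqr_185 (sec SqK)
open E13_499 (EndsOf TopF BotF pu cF gg mm Stp)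

noncomputable section

variable {Y : Set ℂ} {x0 φ A f g : ℂ → ℝ} {a b : ℕ → ℂ → ℝ} {F P : ℂ → ℂ} {i : ℕ}

/-- the ends of `im` at an exact square -/
theorem ends_im {E : Set ℂ} {L : Cmp E} {be s : ℝ} (hs : 0 < s)
    (hQ : SqK L.1 (Sqr_185.lo L.1) be s) (hw : s = Sqr_185.wd L.1) :
    EndsOf E L (fun ζ => ζ.im) (fun _ => be + s) (fun _ => be) := by
  filter_upwards [hQ.ae] with t ht hI
  have h1 : t ∈ Icc (Sqr_185.lo L.1) (Sqr_185.lo L.1 + s) := by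
    refine ⟨hI.1.le, ?_⟩
    rw [hw]; unfold Sqr_185.wd
    linarith [hI.2]
  have h2 := ht h1
  have h3 : sSup (sec L.1 t) = be + s := by rw [h2]; exact csSup_Icc (by linarith)
  have h4 : sInf (sec L.1 t) = be := by rw [h2]; exact csInf_Icc (by linarith)
  constructor
  · have h5 : Tendsto (fun v : ℝ => v) (TopF E L.1 t) (𝓝 (sSup (sec L.1 t))) := by
      exact tendsto_id.mono_left nhdsWithin_le_nhds
    rw [h3] at h5
    exact h5
  · have h5 : Tendsto (fun v : ℝ => v) (BotF E L.1 t) (𝓝 (sInf (sec L.1 t))) := by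
      exact tendsto_id.mono_left nhdsWithin_le_nhds
    rw [h4] at h5
    exact h5

/-- `Im F` in its own picture -/
theorem ends_im_self (h : SkA_8.Pk Y x0 a φ F) (K : Cmp Yᶜᶜ) {be s : ℝ} (hs : 0 < s)
    (hQ : SqK (cF h K).1 (Sqr_185.lo (cF h K).1) be s) (hw : s = Sqr_185.wd (cF h K).1) :
    EndsOf (F '' Yᶜ)ᶜ (cF h K) (pu h fun z => (F z).im) (fun _ => be + s) (fun _ => be) := by
  have hE : IsCompact (F '' Yᶜ)ᶜ := (Uw6_913.picT h).2.cpt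
  refine ends_congr hE isOpen_univ (subset_univ _) (fun ζ _ hζE => ?_) (ends_im hs hQ hw)
  obtain ⟨z, hz, rfl⟩ := not_not.1 hζE
  exact pu_apply h _ hz

/-- the weight -/
def WF (x0 A φ : ℂ → ℝ) (h1 θ : ℝ → ℝ) (O : Set ℂ) (χ0 w : ℂ → ℝ) (z : ℂ) : ℝ :=
  2 * (χ0 z * gg x0 A φ h1 θ O z) * h1 (x0 z + A z) * w z

/-- **(B3)**, weight `w` with given ends -/
theorem wf_side (h : SkA_8.Pk Y x0 a φ F) (hi : SkA_8.Pk Y x0 b (a i) P) (K : Cmp Yᶜᶜ)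
    {h1 θ : ℝ → ℝ} {O : Set ℂ} (hh1 : Stp h1) {χ0 : ℂ → ℝ}
    (htt : TT Y fun z => χ0 z * gg x0 (a i) φ h1 θ O z)
    (hni : NI Y φ fun z => χ0 z * gg x0 (a i) φ h1 θ O z)
    {N : Set ℂ} (hN : IsOpen N) (hKN : K.1 ⊆ N) (h1N : ∀ z ∈ N, χ0 z = 1)
    {w : ℂ → ℝ} (hw : Wt h w) {vT vB kT kB wT wB : ℝ → ℝ}
    (hv : EndsOf (F '' Yᶜ)ᶜ (cF h K) (pu h fun z => (P z).re) vT vB)
    (hg : EndsOf (F '' Yᶜ)ᶜ (cF h K) (pu h (gg x0 (a i) φ h1 θ O)) kT kB)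
    (hwe : EndsOf (F '' Yᶜ)ᶜ (cF h K) (pu h w) wT wB) :
    Wt h (WF x0 (a i) φ h1 θ O χ0 w) ∧
    EndsOf (F '' Yᶜ)ᶜ (cF h K) (pu h (WF x0 (a i) φ h1 θ O χ0 w))
      (fun t => 2 * kT t * h1 (vT t) * wT t) (fun t => 2 * kB t * h1 (vB t) * wB t) := by
  obtain ⟨L, hL⟩ := stp_lip hh1
  have g1 : Wt h fun z => χ0 z * gg x0 (a i) φ h1 θ O z := Wt.tt h htt hni
  have g2 : Wt h fun z => h1 (x0 z + a i z) :=
    (Wt.x0add h (h.tta i) (Grd_782.NI_symm (h.com i))).comp hL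
  have g3 := (((Wt.const h 2).mul g1).mul g2).mul hw
  refine ⟨g3, ?_⟩
  have hE : IsCompact (F '' Yᶜ)ᶜ := (Uw6_913.picT h).2.cpt
  have e1 := ends_cut h K hN hKN h1N hg
  have e2 : EndsOf (F '' Yᶜ)ᶜ (cF h K) (pu h fun z => h1 (x0 z + a i z))
      (fun t => h1 (vT t)) (fun t => h1 (vB t)) := by
    refine ends_congr hE isOpen_univ (subset_univ _) (fun ζ _ hζE => ?_)
      (ends_comp hh1.smooth.continuous hv)
    obtain ⟨z, hz, rfl⟩ := not_not.1 hζE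
    rw [pu_apply h _ hz, pu_apply h _ hz, hi.re z hz]
  exact ends_mul (ends_mul (ends_mul (ends_const 2) e1) e2) hwe

end

end Crest.Agent.R105.Bp_338
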