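import Crest.Agent.R105.Bal1_61
import Crest.Agent.R105.Bp2_338
import Crest.Agent.R105.Lin5_642
import Crest.Agent.R105.Bal5_173
import Crest.Agent.R105.Adx1_636

/-!
# Row 105, S0138, E13: `BAL` (E13_499), assembly (B5) (helper61)
-/

set_option autoImplicit false

open MeasureTheory Set Filter Topology Metric
open scoped ENNReal NNReal ContDiff

namespace Crest.Agent.R105.Fml_61

open Bd_775 Tc_808 Ends_897 Crest.AnalysisR
open Pct_185 (PicT)
open Ni_459 (NI)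
open SkA_8 (Pk)
open Sqr_185 (SqK)
open E13_499 (EndsOf pu cF gg mm Stp Rmp Bal Ed)
open Bp_338 (Wt WP WF)

noncomputable section

variable {Y : Set ℂ} {x0 φ A χ0 w : ℂ → ℝ} {a b : ℕ → ℂ → ℝ} {F P : ℂ → ℂ} {h1 θ : ℝ → ℝ}
  {O : Set ℂ} {χ : ℕ → ℂ → ℝ} {i : ℕ}

theorem linec : LINEc := fun _ L _ _ _ _ _ _ hP hw hb hv hG hC hχ he =>
  Lin_642.line_chn hP L hw hb hv hG hC hχ he

/-- the final function commutes with the cut test function -/
theorem ni_phi_gg (h : Pk Y x0 a φ F) (i : ℕ) (hh : Stp h1) (hθ : Stp θ)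
    (hu : Adg_600.Uc Y (mm x0 (a i) φ h1 θ) O) (hχ0 : LC Y χ0) (hχ0c : HasCompactSupport χ0)
    (h01 : ∀ z, χ0 z ∈ Icc (0:ℝ) 1) : NI Y φ (fun z => χ0 z * gg x0 (a i) φ h1 θ O z) := by
  obtain ⟨L, hL⟩ := Bal_173.stp_lip hh
  obtain ⟨L', hL'⟩ := Bal_173.stp_lip hθ
  have hx : LocallyLipschitzOn Yᶜ x0 := Bp_338.loc_x0 h
  have ll : LocallyLipschitzOn Yᶜ (mm x0 (a i) φ h1 θ) :=
    LmS_392.ll_mul' (Bd_775.ll_comp hL (Bp_338.ll_add hx (h.tta i).q.loc))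
      (Bd_775.ll_comp hL' (Bp_338.ll_add hx h.tt.q.loc))
  have hc := hu.cut h.hY ll (Bal_173.mm_LB hh hθ)
  have h2 := Adx_636.ni_phi_cut h i hχ0 hχ0c h01 hL hL' hh.rg hθ.rg hc
  refine Adg_600.ni_congr (fun z hz => ?_) h2
  have e : (Adg_600.hull Y O).indicator (fun z => h1 (x0 z + a i z) * θ (x0 z + φ z)) z =
      gg x0 (a i) φ h1 θ O z := by
    unfold gg mm
    by_cases hzO : z ∈ O
    · rw [indicator_of_mem hzO, indicator_of_mem ((Adg_600.mem_hull_iff hz hu.op).2 hzO)]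
    · rw [indicator_of_notMem hzO,
        indicator_of_notMem fun hc' => hzO ((Adg_600.mem_hull_iff hz hu.op).1 hc')]
  simp only [e]

/-- `wdg` against a function which is constant near the point vanishes -/
lemma wdg_zero_r {f g : ℂ → ℝ} {z : ℂ} (h : z ∉ tsupport g) : wdg f g z = 0 := by
  have h1 : fderiv ℝ g z = 0 := by
    have := notMem_tsupport_iff_eventuallyEq.1 h
    rw [this.fderiv_eq]
    simp
  unfold wdg gx gy
  rw [h1]; simp

/-- the cut square, near `K` -/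
lemma wdg_gg (hYo : IsOpen Yᶜ) {N : Set ℂ} (hN : IsOpen N) (h1N : ∀ z ∈ N, χ0 z = 1)
    (hh : Stp h1) (hθ : Stp θ) (hO : IsOpen O) {u x : ℂ → ℝ}
    (hu : ∀ z, u z = x0 z + A z) (hx : ∀ z, x z = x0 z + φ z)
    (hg : LocallyLipschitzOn Yᶜ fun z => χ0 z * gg x0 A φ h1 θ O z) {f : ℂ → ℝ}
    (hf : tsupport f ⊆ N) {z : ℂ} (hz : z ∈ Yᶜ) (hud : DifferentiableAt ℝ u z)
    (hxd : DifferentiableAt ℝ x z) :
    wdg (fun z => (χ0 z * gg x0 A φ h1 θ O z) ^ 2) f z =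
      deriv h1 (u z) * (2 * (χ0 z * gg x0 A φ h1 θ O z) * θ (x z)) * wdg u f z +
      deriv θ (x z) * (2 * (χ0 z * gg x0 A φ h1 θ O z) * h1 (u z)) * wdg x f z := by
  by_cases hzf : z ∈ tsupport f
  · have hzN := hf hzf
    refine wdg_sq (g := fun z => χ0 z * gg x0 A φ h1 θ O z) hYo hg hz (fun h0 => ?_) hud hxd
      (hh.smooth.differentiable (by simp) _) (hθ.smooth.differentiable (by simp) _) f
    have hzO : z ∈ O := by
      by_contra hc
      apply h0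
      unfold gg
      rw [indicator_of_notMem hc, mul_zero]
    filter_upwards [hN.mem_nhds hzN, hO.mem_nhds hzO] with v hv hv'
    unfold gg
    rw [h1N v hv, one_mul, indicator_of_mem hv', hu v, hx v]
    rfl
  · rw [wdg_zero_r hzf, wdg_zero_r hzf, wdg_zero_r hzf]; ring

/-- the limit of the boundary term, for a weight `w` -/
theorem lim_bd (h : Pk Y x0 a φ F) (hi : Pk Y x0 b (a i) P) (K : Cmp Yᶜᶜ) (hh : Stp h1)
    (hθ : Stp θ) (hO : IsOpen O) (hu : Adg_600.Uc Y (mm x0 (a i) φ h1 θ) O)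
    (hχ : ChnE Yᶜᶜ K.1 χ) (hχ0 : LC Y χ0) (hχ0c : HasCompactSupport χ0)
    (h01 : ∀ z, χ0 z ∈ Icc (0:ℝ) 1) {N : Set ℂ} (hN : IsOpen N) (hKN : K.1 ⊆ N)
    (h1N : ∀ z ∈ N, χ0 z = 1) (hwi : Wt hi w) (hwf : Wt h w)
    {xT xB vT vB gT gB kT kB wT wB uT uB : ℝ → ℝ}
    (hx : EndsOf (P '' Yᶜ)ᶜ (cF hi K) (pu hi fun z => (F z).re) xT xB)
    (hv : EndsOf (F '' Yᶜ)ᶜ (cF h K) (pu h fun z => (P z).re) vT vB)
    (hg : EndsOf (P '' Yᶜ)ᶜ (cF hi K) (pu hi (gg x0 (a i) φ h1 θ O)) gT gB)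
    (hk : EndsOf (F '' Yᶜ)ᶜ (cF h K) (pu h (gg x0 (a i) φ h1 θ O)) kT kB)
    (hwe : EndsOf (P '' Yᶜ)ᶜ (cF hi K) (pu hi w) wT wB)
    (hue : EndsOf (F '' Yᶜ)ᶜ (cF h K) (pu h w) uT uB) :
    Tendsto (fun n => ∫ z in Yᶜ, w z *
        wdg (fun z => (χ0 z * gg x0 (a i) φ h1 θ O z) ^ 2) (χ n) z) atTop
      (𝓝 ((∫ t in Icc (Sqr_185.lo (cF hi K).1) (Sqr_185.hi (cF hi K).1),
          deriv h1 t * (2 * gB t * θ (xB t) * wB t - 2 * gT t * θ (xT t) * wT t)) +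
        ∫ σ in Icc (Sqr_185.lo (cF h K).1) (Sqr_185.hi (cF h K).1),
          deriv θ σ * (2 * kB σ * h1 (vB σ) * uB σ - 2 * kT σ * h1 (vT σ) * uT σ))) := by
  have hYo : IsOpen Yᶜ := h.hY.1
  have hA := Adg_600.adm_uc h (Adg_600.adm_anchor h i) (Adg_600.adm_phi h) hχ0 hχ0c h01
    (Bal_173.stp_lip hh).choose_spec (Bal_173.stp_lip hθ).choose_spec hh.rg hθ.rg hu
  have hgg : (fun z => χ0 z * gg x0 (a i) φ h1 θ O z) = fun z => χ0 z *
      O.indicator (fun z => h1 (x0 z + a i z) * θ (x0 z + φ z)) z := rfl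
  have htt : TT Y fun z => χ0 z * gg x0 (a i) φ h1 θ O z := by rw [hgg]; exact hA.tt
  have hni : ∀ j, NI Y (a j) fun z => χ0 z * gg x0 (a i) φ h1 θ O z := fun j => by
    rw [hgg]; exact hA.ni j
  have hnf := ni_phi_gg h i hh hθ hu hχ0 hχ0c h01
  obtain ⟨p1, p2⟩ := Bp_338.wp_side h hi K hθ htt (hni i) hN hKN h1N hwi hx hg hwe
  obtain ⟨f1, f2⟩ := Bp_338.wf_side h hi K hh htt hnf hN hKN h1N hwf hv hk hue
  have d1 : Continuous (deriv h1) := hh.smooth.continuous_deriv (by simp)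
  have d2 : Continuous (deriv θ) := hθ.smooth.continuous_deriv (by simp)
  obtain ⟨C1, hC1⟩ := hh.supp.exists_bound_of_continuous d1
  obtain ⟨C2, hC2⟩ := hθ.supp.exists_bound_of_continuous d2
  have l1 := lim1 linec hi K (G := deriv h1) d1.measurable hC1 p1 p2 hχ
  have l2 := lim1 linec h K (G := deriv θ) d2.measurable hC2 f1 f2 hχ
  refine (l1.add l2).congr' ?_
  -- eventually the supports lie in `N`
  filter_upwards [hχ.sh N hN hKN] with n hn
  have hu1 : LocallyLipschitzOn Yᶜ fun z => x0 z + a i z :=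
    Bp_338.ll_add (Bp_338.loc_x0 h) (h.tta i).q.loc
  have hx1 : LocallyLipschitzOn Yᶜ fun z => x0 z + φ z :=
    Bp_338.ll_add (Bp_338.loc_x0 h) h.tt.q.loc
  have hds : tsupport (fderiv ℝ (χ n)) ⊆ Yᶜ := by
    have := hχ.dsupp n
    rwa [compl_compl] at this
  have c1 : ContinuousOn (fun z => deriv h1 (x0 z + a i z) * WP x0 (a i) φ h1 θ O χ0 w z) Yᶜ :=
    (d1.comp_continuousOn hu1.continuousOn).mul p1.ll.continuousOn
  have c2 : ContinuousOn (fun z => deriv θ (x0 z + φ z) * WF x0 (a i) φ h1 θ O χ0 w z) Yᶜ :=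
    (d2.comp_continuousOn hx1.continuousOn).mul f1.ll.continuousOn
  have i1 := integrableOn_mul_wdg_lc hYo hu1 c1 (hχ.sm n) (hχ.lce n).supp hds
  have i2 := integrableOn_mul_wdg_lc hYo hx1 c2 (hχ.sm n) (hχ.lce n).supp hds
  rw [← integral_add i1 i2]
  refine integral_congr_ae ?_
  filter_upwards [Bd_775.ae_diff hYo hu1, Bd_775.ae_diff hYo hx1,
    ae_restrict_mem hYo.measurableSet] with z h3 h4 hz
  rw [wdg_gg hYo hN h1N hh hθ hO (u := fun z => x0 z + a i z) (x := fun z => x0 z + φ z)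
    (fun _ => rfl) (fun _ => rfl) htt.q.loc hn hz h3 h4]
  unfold WP WF
  ring

theorem bal : E13_499.BAL := by
  intro Y x0 φ a b F P i K h1 θ O h hi be s ex xT xB yT yB vT vB gT gB kT kB hh hR hU hs0 hQ hs
    hEd hg hk
  have hYo : IsOpen Yᶜ := h.hY.1
  have hθ := hR.st
  have hu := Bal_173.uc_of h K hh hR hU
  have hYc : IsCompact Yᶜᶜ := Ends_897.isCompact_compl h.hY
  obtain ⟨χ, hχ⟩ := exists_chn hYc K
  -- the cut-off at infinity
  have hL0 : LC Y (χ 0) := by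
    have := Pct_185.LCE.LC (hχ.lce 0)
    rwa [compl_compl] at this
  obtain ⟨c, N, hN, hKN, hc⟩ := Pct_185.LCE.near (hχ.lce 0) K
  have hc1 : c = 1 := by
    obtain ⟨z, hz⟩ := K.nonempty
    rw [← hc z (hKN hz), hχ.one 0 z hz]
  rw [hc1] at hc
  have l1 := lim_bd h hi K hh hθ hU.op hu hχ hL0 (hχ.lce 0).supp (hχ.c01 0) hN hKN hc
    (Wt.const hi 1) (Wt.const h 1) hEd.x hEd.v hg hk (Bp_338.ends_const 1) (Bp_338.ends_const 1)
  have l2 := lim_bd h hi K hh hθ hU.op hu hχ hL0 (hχ.lce 0).supp (hχ.c01 0) hN hKN hc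
    (Wt.im h hi) (Wt.im_self h) hEd.x hEd.v hg hk hEd.y (Bp_338.ends_im_self h K hs0 hQ hs)
  have hA := Adg_600.adm_uc h (Adg_600.adm_anchor h i) (Adg_600.adm_phi h) hL0 (hχ.lce 0).supp
    (hχ.c01 0) (Bal_173.stp_lip hh).choose_spec (Bal_173.stp_lip hθ).choose_spec hh.rg hθ.rg hu
  have htt : TT Y fun z => χ 0 z * gg x0 (a i) φ h1 θ O z := hA.tt
  set g : ℂ → ℝ := fun z => χ 0 z * gg x0 (a i) φ h1 θ O z with hgdef
  have hq : LocallyLipschitzOn Yᶜ fun z => g z ^ 2 := by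
    have := LmS_392.ll_mul' htt.q.loc htt.q.loc
    refine Tra_937.locLip_congr (fun z _ => ?_) this
    ring
  have hds : ∀ n, tsupport (fderiv ℝ (χ n)) ⊆ Yᶜ := fun n => by
    have := hχ.dsupp n
    rwa [compl_compl] at this
  -- COUNT
  have k1 : ∀ n, ∫ z in Yᶜ, (1:ℝ) * wdg (fun z => g z ^ 2) (χ n) z = 0 := fun n => by
    simp only [one_mul]
    exact LmS_392.stokes hYo hq (hχ.sm n) (hχ.lce n).supp (hds n)
  have e1 := tendsto_nhds_unique l1 ((tendsto_const_nhds (x := (0:ℝ))).congr fun n => (k1 n).symm)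
  -- FORMULA
  have hTq : TT Y fun z => g z ^ 2 := by
    have := htt.mul (Ni_459.cpt_of h.hY).isClosed htt
    have e : (fun z => g z * g z) = fun z => g z ^ 2 := by funext z; ring
    rwa [e] at this
  obtain ⟨R, hR'⟩ := hχ.cs (K.isCompact hYc)
  have hyl : LocallyLipschitzOn Yᶜ fun z => (F z).im := (Wt.im_self h).ll
  have hye : ∀ R : ℝ, IntegrableOn (en fun z => (F z).im) (Yᶜ ∩ ball 0 R) := fun R => by
    refine (Yv_319.energy_of_pk h R).congr_fun (fun z hz => ?_)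
      (hYo.measurableSet.inter measurableSet_ball)
    obtain ⟨-, -, g3, g4⟩ := Elf_600.grad_re_im (h.hol.differentiableAt (hYo.mem_nhds hz.1))
    simp only [en]
    rw [g3, g4, Complex.sq_norm, Complex.normSq_apply]
    ring
  obtain ⟨j1, j2⟩ := tendsto_chi (X := χ) (R := R + 1) (M := 1) (q := fun z => g z ^ 2)
    (y := fun z => (F z).im) hYo (hTq.q.fin.mono_set inter_subset_left) (hye _)
    (fun n => (hχ.sm n).continuous) (fun n z => by
      rw [abs_of_nonneg (hχ.c01 n z).1]; exact (hχ.c01 n z).2)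
    (fun n z hz => image_eq_zero_of_notMem_tsupport fun hc' => hz (by
      have := hR' n hc'
      rw [mem_closedBall_zero_iff] at this
      rw [mem_ball_zero_iff]; linarith))
    (fun z hz => by
      have hzK : z ∉ K.1 := fun hc' => (K.subset hc') hz
      exact tendsto_const_nhds.congr' ((hχ.tendsto_zero hzK).mono fun n hn => hn.symm))
  have l3 := j2.add l2
  rw [zero_add] at l3
  have e4 : (fun n => (∫ z in Yᶜ, χ n z * wdg (fun z => g z ^ 2) (fun z => (F z).im) z) +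
      ∫ z in Yᶜ, (F z).im * wdg (fun z => g z ^ 2) (χ n) z) =ᶠ[atTop]
      fun n => ∫ z in Yᶜ, wdg (fun z => χ n z * gg x0 (a i) φ h1 θ O z ^ 2)
      (fun w => (F w).im) z := by
    filter_upwards [hχ.sh N hN hKN] with n hn
    rw [← stokes_cut hYo hq hyl (j1 n) (hχ.sm n) (hχ.lce n).supp (hds n)]
    have e : (fun z => χ n z * g z ^ 2) = fun z => χ n z * gg x0 (a i) φ h1 θ O z ^ 2 := by
      funext z
      by_cases hz : z ∈ tsupport (χ n)
      · simp only [hgdef, hc z (hn hz), one_mul]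
      · rw [image_eq_zero_of_notMem_tsupport hz]; ring
    rw [e]
  have l4 := l3.congr' e4
  obtain ⟨b1, b2⟩ := Bal_173.el_bal h K i hh hR hU hL0 (hχ.lce 0).supp (hχ.c01 0) hN hKN hc hχ hs l4
  have eB : ∀ (Y1 Y2 : ℝ → ℝ) (c1 c2 : ℝ), Bal (Sqr_185.lo (cF hi K).1) (Sqr_185.hi (cF hi K).1)
      (Sqr_185.lo (cF h K).1) (Sqr_185.hi (cF h K).1) h1 θ xT xB vT vB gT gB kT kB Y1 Y2 c1 c2 =
      (∫ t in Icc (Sqr_185.lo (cF hi K).1) (Sqr_185.hi (cF hi K).1),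
          deriv h1 t * (2 * gB t * θ (xB t) * Y2 t - 2 * gT t * θ (xT t) * Y1 t)) +
        ∫ σ in Icc (Sqr_185.lo (cF h K).1) (Sqr_185.hi (cF h K).1),
          deriv θ σ * (2 * kB σ * h1 (vB σ) * c2 - 2 * kT σ * h1 (vT σ) * c1) := by
    intro Y1 Y2 c1 c2
    unfold Bal
    congr 1
    · refine integral_congr_ae (Eventually.of_forall fun t => ?_)
      ring
    · refine integral_congr_ae (Eventually.of_forall fun t => ?_)
      ring
  have ex2 : θ (Sqr_185.hi (cF h K).1) ^ 2 - θ (Sqr_185.lo (cF h K).1) ^ 2 = ex := by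
    rcases hR.sg with ⟨r1, r2, r3⟩ | ⟨r1, r2, r3⟩
    · rw [r1, r2, r3]; norm_num
    · rw [r1, r2, r3]; norm_num
  rw [ex2] at b2
  refine ⟨?_, ?_, ?_⟩
  · rw [eB]; exact e1
  · rw [eB]; exact b1
  · rw [eB]; exact b2

end

end Crest.Agent.R105.Fml_61
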