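import Crest.Agent.R105.Bal5_173
import Crest.Agent.R105.Bp2_338
import Crest.Agent.R105.Lin5_642
import Crest.Agent.R105.LmS6_405
import Crest.Agent.R105.Adx1_636

/-!
# Row 105, S0138, E13: BAL, second typist of (B1) + (B5) of 61 #11579 (helper173)

* `lim1` : one limit in one picture
* `bal : E13_499.BAL`
-/

set_option autoImplicit false

open MeasureTheory Set Filter Topology Metric
open scoped NNReal ENNReal ContDiff

namespace Crest.Agent.R105.Bal_173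

open Bd_775 Tc_808 Ends_897 Crest.AnalysisR
open IfB_641 (X0)
open Ni_459 (NI cpt_of LB)
open SkA_8 (Pk)
open Fml_61 (ChnE)
open Bp_338 (Wt WP WF)
open E13_499 (cF Rmp Stp gg mm pu EndsOf Bal Ed)

noncomputable section

variable {Y : Set ℂ} {x0 φ A χ0 q W : ℂ → ℝ} {a b : ℕ → ℂ → ℝ} {F P : ℂ → ℂ} {χ : ℕ → ℂ → ℝ}
  {G h1 θ : ℝ → ℝ} {O : Set ℂ} {ex : ℝ} {i : ℕ}

theorem uni (hi : Pk Y x0 b A P) : Tra_937.Uni Yᶜ P := ⟨hi.hY.1, hi.hol, (Uw6_913.picT hi).1⟩

/-- **(B1)** one limit in one picture -/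
theorem lim1 (hi : Pk Y x0 b A P) (K : Cmp Yᶜᶜ) {C : ℝ} (hG : Measurable G)
    (hC : ∀ t, |G t| ≤ C) (hW : Wt hi W) {WT WB : ℝ → ℝ}
    (he : EndsOf (P '' Yᶜ)ᶜ (cF hi K) (pu hi W) WT WB) (hχ : ChnE Yᶜᶜ K.1 χ) :
    Tendsto (fun n => ∫ z in Yᶜ, G (x0 z + A z) * W z * wdg (fun z => x0 z + A z) (χ n) z) atTop
      (𝓝 (∫ t in Icc (Sqr_185.lo (cF hi K).1) (Sqr_185.hi (cF hi K).1), G t * (WB t - WT t))) := by
  have hE := Uw6_913.endMap hi
  have hU := uni hi
  obtain ⟨χP, c1, c2⟩ := Fml_61.chn_push hE hU K hχ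
  have hpu : ∀ ζ ∈ P '' Yᶜ, pu hi W ζ = (W ∘ Tra_937.inv Yᶜ P) ζ := by
    rintro _ ⟨z, hz, rfl⟩
    rw [Bp_338.pu_apply hi _ hz, Function.comp_apply, hU.inv_apply hz]
  have hl : LocallyLipschitzOn (P '' Yᶜ) (W ∘ Tra_937.inv Yᶜ P) :=
    hU.symm.locLip_comp (u := W) (by rw [hU.image_inv]; exact hW.ll)
  have hc : ContinuousOn (pu hi W) (P '' Yᶜ)ᶜᶜ := by
    rw [compl_compl]
    exact hl.continuousOn.congr hpu
  have l := Lin_642.line_chn (Uw6_913.picT hi).2 (cF hi K) (w := pu hi W) (G := G) hc hW.bd hW.bv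
    hG hC c1 he
  refine l.congr fun n => ?_
  rw [Fml_61.to_pic hU G W (χ := χ n) (fun z hz => (hi.re z hz).symm)
    (hχ.sm n).locallyLipschitz.locallyLipschitzOn, compl_compl]
  refine setIntegral_congr_fun hU.isOpen_image.measurableSet fun ζ hζ => ?_
  have e1 : gy (χP n) ζ = gy (χ n ∘ Tra_937.inv Yᶜ P) ζ := by
    have e2 : χP n =ᶠ[𝓝 ζ] χ n ∘ Tra_937.inv Yᶜ P := by
      filter_upwards [hU.isOpen_image.mem_nhds hζ] with w hw
      obtain ⟨z, hz, rfl⟩ := hw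
      rw [c2 n z hz, Function.comp_apply, hU.inv_apply hz]
    unfold gy
    rw [e2.fderiv_eq]
  rw [hpu ζ hζ, e1]
  rfl

/-- the cut-off at infinity -/
theorem exists_chi0 (hY : IsCompact Y) (R : ℝ) : ∃ (χ0 : ℂ → ℝ) (N : Set ℂ), LC Y χ0 ∧
    HasCompactSupport χ0 ∧ (∀ z, χ0 z ∈ Icc (0:ℝ) 1) ∧ IsOpen N ∧ Y ⊆ N ∧ closedBall 0 R ⊆ N ∧
    ∀ z ∈ N, χ0 z = 1 := by
  obtain ⟨R1, hR1⟩ := (hY.union (isCompact_closedBall (0:ℂ) R)).isBounded.subset_closedBall (0 : ℂ)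
  set R' : ℝ := max R1 1 + 1
  have hR' : 0 < R' := by positivity
  let f : ContDiffBump (0 : ℂ) := ⟨R', R' + 1, hR', by linarith⟩
  have h1 : ∀ z ∈ ball (0 : ℂ) R', f z = 1 := fun z hz =>
    f.one_of_mem_closedBall (ball_subset_closedBall hz)
  have h2 : ∀ z, z ∈ Y ∪ closedBall 0 R → z ∈ ball (0 : ℂ) R' := fun z hz => by
    have := hR1 hz
    rw [mem_closedBall, dist_zero_right] at this
    rw [mem_ball_zero_iff]
    linarith [le_max_left R1 1]
  refine ⟨f, ball 0 R', ?_, f.hasCompactSupport, fun z => ⟨f.nonneg, f.le_one⟩, isOpen_ball,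
    fun z hz => h2 z (Or.inl hz), fun z hz => h2 z (Or.inr hz), h1⟩
  refine LC.of_compact (f.contDiff (n := 1)).locallyLipschitz f.hasCompactSupport fun z hz => ?_
  have h3 := h2 z (Or.inl hz)
  filter_upwards [isOpen_ball.mem_nhds h3] with u hu
  rw [h1 u hu, h1 z h3]

/-- admissibility of `χ0 gg`, and it commutes with `φ` -/
theorem adm_g (h : Pk Y x0 a φ F) (i : ℕ) (hh : Stp h1) (hθ : Stp θ) (hχ0 : LC Y χ0)
    (hχ0c : HasCompactSupport χ0) (h01 : ∀ z, χ0 z ∈ Icc (0:ℝ) 1)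
    (hll : LocallyLipschitzOn Yᶜ (mm x0 (a i) φ h1 θ))
    (hu : Adg_600.Uc Y (mm x0 (a i) φ h1 θ) O) :
    Adg_600.Adm Y a (fun z => χ0 z * gg x0 (a i) φ h1 θ O z) ∧
      NI Y φ (fun z => χ0 z * gg x0 (a i) φ h1 θ O z) := by
  obtain ⟨L, hL⟩ := stp_lip hh
  obtain ⟨L', hL'⟩ := stp_lip hθ
  refine ⟨Adg_600.adm_uc h (Adg_600.adm_anchor h i) (Adg_600.adm_phi h) hχ0 hχ0c h01 hL hL'
    hh.rg hθ.rg hu, ?_⟩
  have hcut := hu.cut h.hY hll (mm_LB (x0 := x0) (A := a i) (φ := φ) hh hθ)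
  have h2 := Adx_636.ni_phi_cut h i hχ0 hχ0c h01 hL hL' hh.rg hθ.rg hcut
  refine Adg_600.ni_congr (fun z hz => ?_) h2
  unfold gg
  by_cases hzO : z ∈ O
  · rw [indicator_of_mem ((Adg_600.mem_hull_iff hz hu.op).2 hzO), indicator_of_mem hzO]
    rfl
  · rw [indicator_of_notMem fun hc' => hzO ((Adg_600.mem_hull_iff hz hu.op).1 hc'),
      indicator_of_notMem hzO]

/-- **BAL** -/
theorem bal : E13_499.BAL := by
  intro Y x0 φ a b F P i K h1 θ O h hi be s ex xT xB yT yB vT vB gT gB kT kB hh hθ hu hs hQ hw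
    hEd hg hk
  have hYc := cpt_of h.hY
  have hYo : IsOpen Yᶜ := hYc.isClosed.isOpen_compl
  have eY : Yᶜᶜ = Y := compl_compl Y
  have hYc' : IsCompact Yᶜᶜ := by rw [eY]; exact hYc
  obtain ⟨χ, hχ⟩ := Fml_61.exists_chn hYc' K
  obtain ⟨R, hR⟩ := hχ.cs (K.isCompact hYc')
  obtain ⟨χ0, N, hχ0, hχ0c, h01, hN, hYN, hRN, h1N⟩ := exists_chi0 hYc R
  have hKN : K.1 ⊆ N := fun z hz => hYN ((ty K).subset hz)
  have hUc := uc_of (A := a i) h K hh hθ hu
  obtain ⟨L1, hL1⟩ := stp_lip hh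
  obtain ⟨L2, hL2⟩ := stp_lip hθ.st
  have hllm : LocallyLipschitzOn Yᶜ (mm x0 (a i) φ h1 θ) :=
    LmS_392.ll_mul' (Bd_775.ll_comp hL1 (LmS6_405.ll_a h.hx (h.tta i)))
      (Bd_775.ll_comp hL2 (LmS6_405.ll_a h.hx h.tt))
  obtain ⟨ad, nφ⟩ := adm_g h i hh hθ.st hχ0 hχ0c h01 hllm hUc
  set g0 : ℂ → ℝ := fun z => χ0 z * gg x0 (a i) φ h1 θ O z with hg0
  have hq0 : TT Y (fun z => g0 z * g0 z) := ad.tt.mul hYc.isClosed ad.tt
  have hllq : LocallyLipschitzOn Yᶜ (fun z => g0 z ^ 2) := by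
    have := hq0.q.loc
    refine Tra_937.locLip_congr (fun z hz => ?_) this
    ring
  -- the key identity
  have hux : ∀ z ∈ Yᶜ, DifferentiableAt ℝ (fun z => x0 z + a i z) z := fun z hz => by
    have e1 : (fun z => x0 z + a i z) =ᶠ[𝓝 z] fun z => (P z).re := by
      filter_upwards [hYo.mem_nhds hz] with w hw' using (hi.re w hw').symm
    refine DifferentiableAt.congr_of_eventuallyEq ?_ e1
    have h3 : DifferentiableAt ℝ P z :=
      (hi.hol.differentiableAt (hYo.mem_nhds hz)).restrictScalars ℝ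
    exact Complex.reCLM.differentiableAt.comp z h3
  have hxx : ∀ z ∈ Yᶜ, DifferentiableAt ℝ (fun z => x0 z + φ z) z := fun z hz => by
    have e1 : (fun z => x0 z + φ z) =ᶠ[𝓝 z] fun z => (F z).re := by
      filter_upwards [hYo.mem_nhds hz] with w hw' using (h.re w hw').symm
    refine DifferentiableAt.congr_of_eventuallyEq ?_ e1
    have h3 : DifferentiableAt ℝ F z :=
      (h.hol.differentiableAt (hYo.mem_nhds hz)).restrictScalars ℝ
    exact Complex.reCLM.differentiableAt.comp z h3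
  have key : ∀ (w : ℂ → ℝ) (n : ℕ), ∀ z ∈ Yᶜ, w z * wdg (fun z => g0 z ^ 2) (χ n) z =
      deriv h1 (x0 z + a i z) * WP x0 (a i) φ h1 θ O χ0 w z * wdg (fun z => x0 z + a i z) (χ n) z +
      deriv θ (x0 z + φ z) * WF x0 (a i) φ h1 θ O χ0 w z * wdg (fun z => x0 z + φ z) (χ n) z := by
    intro w n z hz
    by_cases hzs : z ∈ tsupport (χ n)
    · have hzN : z ∈ N := hRN (hR n hzs)
      have h2 := Fml_61.wdg_sq (g := g0) (h := h1) (th := θ) (u := fun z => x0 z + a i z)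
        (x := fun z => x0 z + φ z) hYo ad.tt.q.loc hz (fun hne => by
          have hzO : z ∈ O := by
            by_contra hc
            apply hne
            simp only [hg0, gg, indicator_of_notMem hc, mul_zero]
          filter_upwards [hN.mem_nhds hzN, hu.op.mem_nhds hzO] with v hv hvO
          simp only [hg0, gg, indicator_of_mem hvO, h1N v hv, one_mul, mm])
        (hux z hz) (hxx z hz) (hh.smooth.differentiable (by simp) _)
        (hθ.st.smooth.differentiable (by simp) _) (χ n)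
      rw [h2]
      simp only [WP, WF, hg0]
      ring
    · have h2 : fderiv ℝ (χ n) z = 0 := by
        have h3 : χ n =ᶠ[𝓝 z] fun _ => 0 := notMem_tsupport_iff_eventuallyEq.1 hzs
        rw [h3.fderiv_eq]; simp
      have h3 : ∀ f : ℂ → ℝ, wdg f (χ n) z = 0 := fun f => by
        unfold wdg gx gy; rw [h2]; simp
      rw [h3, h3, h3]; ring
  -- limits
  have hd1 : Continuous (deriv h1) := hh.smooth.continuous_deriv (by simp)
  have hd2 : Continuous (deriv θ) := hθ.st.smooth.continuous_deriv (by simp)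
  obtain ⟨C1, hC1⟩ := hh.supp.exists_bound_of_continuous hd1
  obtain ⟨C2, hC2⟩ := hθ.st.supp.exists_bound_of_continuous hd2
  have lims : ∀ (w : ℂ → ℝ) (wT wB : ℝ → ℝ) (c1 c2 : ℝ), Wt hi w → Wt h w →
      EndsOf (P '' Yᶜ)ᶜ (cF hi K) (pu hi w) wT wB →
      EndsOf (F '' Yᶜ)ᶜ (cF h K) (pu h w) (fun _ => c1) (fun _ => c2) →
      Tendsto (fun n => ∫ z in Yᶜ, w z * wdg (fun z => g0 z ^ 2) (χ n) z) atTop
        (𝓝 (Bal (Sqr_185.lo (cF hi K).1) (Sqr_185.hi (cF hi K).1) (Sqr_185.lo (cF h K).1)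
          (Sqr_185.hi (cF h K).1) h1 θ xT xB vT vB gT gB kT kB wT wB c1 c2)) := by
    intro w wT wB c1 c2 hw1 hw2 e1 e2
    obtain ⟨p1, p2⟩ := Bp_338.wp_side h hi K hθ.st ad.tt (ad.ni i) hN hKN h1N hw1 hEd.x hg e1
    obtain ⟨f1, f2⟩ := Bp_338.wf_side h hi K hh ad.tt nφ hN hKN h1N hw2 hEd.v hk e2
    have t1 := lim1 hi K (C := C1) hd1.measurable hC1 p1 p2 hχ
    have t2 := lim1 h K (C := C2) hd2.measurable hC2 f1 f2 hχ
    have t3 := t1.add t2
    have eB : (∫ t in Icc (Sqr_185.lo (cF hi K).1) (Sqr_185.hi (cF hi K).1),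
        deriv h1 t * (2 * gB t * θ (xB t) * wB t - 2 * gT t * θ (xT t) * wT t)) +
        (∫ t in Icc (Sqr_185.lo (cF h K).1) (Sqr_185.hi (cF h K).1),
          deriv θ t * (2 * kB t * h1 (vB t) * c2 - 2 * kT t * h1 (vT t) * c1)) =
        Bal (Sqr_185.lo (cF hi K).1) (Sqr_185.hi (cF hi K).1) (Sqr_185.lo (cF h K).1)
          (Sqr_185.hi (cF h K).1) h1 θ xT xB vT vB gT gB kT kB wT wB c1 c2 := by
      unfold Bal
      congr 1
      · refine setIntegral_congr_fun measurableSet_Icc fun t _ => ?_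
        ring
      · refine setIntegral_congr_fun measurableSet_Icc fun t _ => ?_
        ring
    rw [← eB]
    refine t3.congr fun n => ?_
    have hcs : HasCompactSupport (χ n) := (hχ.lce n).supp
    have hds : tsupport (fderiv ℝ (χ n)) ⊆ Yᶜ := by
      have := hχ.dsupp n
      rwa [eY] at this
    have i1 := Fml_61.integrableOn_mul_wdg_lc (q := fun z => x0 z + a i z)
      (y := fun z => deriv h1 (x0 z + a i z) * WP x0 (a i) φ h1 θ O χ0 w z) (χ := χ n) hYo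
      (LmS6_405.ll_a h.hx (h.tta i))
      ((hd1.comp_continuousOn (LmS6_405.ll_a h.hx (h.tta i)).continuousOn).mul p1.ll.continuousOn)
      (hχ.sm n) hcs hds
    have i2 := Fml_61.integrableOn_mul_wdg_lc (q := fun z => x0 z + φ z)
      (y := fun z => deriv θ (x0 z + φ z) * WF x0 (a i) φ h1 θ O χ0 w z) (χ := χ n) hYo
      (LmS6_405.ll_a h.hx h.tt)
      ((hd2.comp_continuousOn (LmS6_405.ll_a h.hx h.tt).continuousOn).mul f1.ll.continuousOn)
      (hχ.sm n) hcs hds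
    rw [← integral_add i1 i2]
    exact setIntegral_congr_fun hYo.measurableSet fun z hz => (key w n z hz).symm
  -- COUNT
  have lcount := lims (fun _ => 1) (fun _ => 1) (fun _ => 1) 1 1 (Wt.const hi 1) (Wt.const h 1)
    (Bp_338.ends_const 1) (Bp_338.ends_const 1)
  have hds : ∀ n, tsupport (fderiv ℝ (χ n)) ⊆ Yᶜ := fun n => by
    have := hχ.dsupp n
    rwa [eY] at this
  have ccount : ∀ n, ∫ z in Yᶜ, (fun _ : ℂ => (1:ℝ)) z * wdg (fun z => g0 z ^ 2) (χ n) z = 0 := by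
    intro n
    simp only [one_mul]
    exact LmS_392.stokes hYo hllq (hχ.sm n) (hχ.lce n).supp (hds n)
  refine ⟨?_, ?_⟩
  · refine (tendsto_nhds_unique (lcount.congr ccount) tendsto_const_nhds)
  -- FORMULA
  have lform := lims (fun z => (F z).im) yT yB (be + s) be (Wt.im h hi) (Wt.im_self h) hEd.y
    (Bp_338.ends_im_self h K hs hQ hw)
  have hlly : LocallyLipschitzOn Yᶜ fun z => (F z).im := LmS6_405.ll_y hYc.isClosed h.hol
  have hen : IntegrableOn (en fun z => g0 z ^ 2) Yᶜ := by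
    have e1 : (fun z => g0 z ^ 2) = fun z => g0 z * g0 z := by funext z; ring
    rw [e1]; exact hq0.q.fin
  have hXR : ∀ n z, z ∉ ball (0:ℂ) (R + 1) → χ n z = 0 := fun n z hz =>
    image_eq_zero_of_notMem_tsupport fun hm => hz (by
      have := hR n hm
      rw [mem_closedBall_zero_iff] at this
      rw [mem_ball_zero_iff]; linarith)
  obtain ⟨int0, tend0⟩ := Fml_61.tendsto_chi (q := fun z => g0 z ^ 2) (y := fun z => (F z).im)
    (X := χ) (R := R + 1) (M := 1) hYo (hen.mono_set inter_subset_left)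
    (LmS6_405.en_y h.hY h.hx h.tt h.hol h.re (R + 1)) (fun n => (hχ.sm n).continuous)
    (fun n z => by
      have := hχ.c01 n z
      rw [abs_of_nonneg this.1]; exact this.2) hXR
    (fun z hz => by
      have hzK : z ∉ K.1 := fun hm => hz ((ty K).subset hm)
      exact tendsto_const_nhds.congr' (by
        filter_upwards [hχ.tendsto_zero hzK] with n hn using hn.symm))
  have lE : Tendsto (fun n => ∫ z in Yᶜ, wdg (fun z => χ n z * gg x0 (a i) φ h1 θ O z ^ 2)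
      (fun w => (F w).im) z) atTop
      (𝓝 (Bal (Sqr_185.lo (cF hi K).1) (Sqr_185.hi (cF hi K).1) (Sqr_185.lo (cF h K).1)
          (Sqr_185.hi (cF h K).1) h1 θ xT xB vT vB gT gB kT kB yT yB (be + s) be)) := by
    have l2 := tend0.add lform
    rw [zero_add] at l2
    refine l2.congr fun n => ?_
    have e1 : (fun z => χ n z * gg x0 (a i) φ h1 θ O z ^ 2) = fun z => χ n z * g0 z ^ 2 := by
      funext z
      by_cases hzs : z ∈ tsupport (χ n)
      · have hzN : z ∈ N := hRN (hR n hzs)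
        simp only [hg0, h1N z hzN, one_mul]
      · rw [image_eq_zero_of_notMem_tsupport hzs, zero_mul, zero_mul]
    rw [e1]
    exact (Fml_61.stokes_cut hYo hllq hlly (int0 n) (hχ.sm n) (hχ.lce n).supp (hds n)).symm
  have hfin := el_bal h K i hh hθ hu hχ0 hχ0c h01 hN hKN h1N hχ hw lE
  have hex : θ (Sqr_185.hi (cF h K).1) ^ 2 - θ (Sqr_185.lo (cF h K).1) ^ 2 = ex := by
    rcases hθ.sg with ⟨e1, e2, e3⟩ | ⟨e1, e2, e3⟩ <;> rw [e1, e2, e3] <;> norm_num
  rw [hex] at hfin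
  exact hfin

end

end Crest.Agent.R105.Bal_173
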