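import Crest.Agent.R105.Bp2_338
import Crest.Agent.R105.Bal5_173
import Crest.Agent.R105.Lin5_642
import Crest.Agent.R105.Adx1_636
import Crest.Agent.R105.LmS6_405

/-!
# Row 105, S0138, node E13: **BAL** (E13_499), assembly (helper338)

* `lim1` : the line lemma seen from the `z`-plane
* `adm_g`, `ni_phi_g` : the cut test function is admissible, in both pictures
* `bal : E13_499.BAL`
-/

set_option autoImplicit false

open MeasureTheory Set Filter Topology Metric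
open scoped NNReal ENNReal ContDiff

namespace Crest.Agent.R105.Bp_338

open Crest.AnalysisR (IsExteriorDomain)
open Tc_808 Bd_775 Ends_897 Ni_459
open Ta_937 (corE push push_comp)
open Sqr_185 (sec SqK)
open Fml_61 (ChnE)
open E13_499 (EndsOf TopF BotF pu cF gg mm Stp Rmp Ed Bal)

noncomputable section

variable {Y : Set ℂ} {x0 φ A f g : ℂ → ℝ} {a b : ℕ → ℂ → ℝ} {F P : ℂ → ℂ} {i : ℕ}

theorem inv_eq (hi : SkA_8.Pk Y x0 b A P) {ζ : ℂ} (hζ : ζ ∈ P '' Yᶜ) :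
    Tra_937.inv Yᶜ P ζ = (Uw6_913.endMap hi).inv ζ := by
  obtain ⟨z, hz, rfl⟩ := hζ
  rw [(Yv_319.uni_of_pk hi).inv_apply hz, (Uw6_913.endMap hi).inv_left hz]

/-- **(B1)** the line lemma in the `z`-plane -/
theorem lim1 (hi : SkA_8.Pk Y x0 b A P) (K : Cmp Yᶜᶜ) {G : ℝ → ℝ} {C : ℝ} (hG : Measurable G)
    (hC : ∀ t, |G t| ≤ C) {W : ℂ → ℝ} (hW : Wt hi W) {WT WB : ℝ → ℝ}
    (hE : EndsOf (P '' Yᶜ)ᶜ (cF hi K) (pu hi W) WT WB) {χ : ℕ → ℂ → ℝ}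
    (hχ : ChnE Yᶜᶜ K.1 χ) :
    Tendsto (fun n => ∫ z in Yᶜ, G (x0 z + A z) * W z * wdg (fun z => x0 z + A z) (χ n) z) atTop
      (𝓝 (∫ t in Icc (Sqr_185.lo (cF hi K).1) (Sqr_185.hi (cF hi K).1), G t * (WB t - WT t))) := by
  have hu := Yv_319.uni_of_pk hi
  have hm := Uw6_913.endMap hi
  obtain ⟨X, hX, hXχ⟩ := Fml_61.chn_push hm hu K hχ
  have hVo : IsOpen (P '' Yᶜ) := hm.hV.1
  have hcont : ContinuousOn (pu hi W) (P '' Yᶜ)ᶜᶜ := by
    rw [compl_compl]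
    exact (Ta_937.loc_push hm hu hW.ll).continuousOn
  have h1 := Lin_642.line_chn (Uw6_913.picT hi).2 (cF hi K) hcont hW.bd hW.bv hG hC hX hE
  refine h1.congr fun n => ?_
  rw [compl_compl]
  have h2 := Fml_61.to_pic (χ := χ n) hu G W (u := fun z => x0 z + A z)
    (fun z hz => (hi.re z hz).symm) ((hχ.sm n).locallyLipschitz.locallyLipschitzOn)
  rw [h2]
  refine setIntegral_congr_fun hVo.measurableSet fun ζ hζ => ?_
  have e1 : Tra_937.inv Yᶜ P ζ = hm.inv ζ := inv_eq hi hζ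
  have e2 : (χ n ∘ Tra_937.inv Yᶜ P) =ᶠ[𝓝 ζ] X n := by
    filter_upwards [hVo.mem_nhds hζ] with w hw
    obtain ⟨z, hz, rfl⟩ := hw
    rw [Function.comp_apply, hu.inv_apply hz, hXχ n z hz]
  have e3 : gy (χ n ∘ Tra_937.inv Yᶜ P) ζ = gy (X n) ζ := by
    unfold gy; rw [e2.fderiv_eq]
  simp only [e3, e1]
  rfl

/-- admissibility of `χ0 g` -/
theorem adm_g (h : SkA_8.Pk Y x0 a φ F) (i : ℕ) {h1 θ : ℝ → ℝ} {O : Set ℂ} {χ0 : ℂ → ℝ}
    (hh : Stp h1) (hθ : Stp θ) (hχ0 : LC Y χ0) (hχ0c : HasCompactSupport χ0)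
    (h01 : ∀ z, χ0 z ∈ Icc (0:ℝ) 1) (hu : Adg_600.Uc Y (mm x0 (a i) φ h1 θ) O) :
    Adg_600.Adm Y a (fun z => χ0 z * gg x0 (a i) φ h1 θ O z) := by
  obtain ⟨L, hL⟩ := stp_lip hh
  obtain ⟨L', hL'⟩ := stp_lip hθ
  exact Adg_600.adm_uc h (Adg_600.adm_anchor h i) (Adg_600.adm_phi h) hχ0 hχ0c h01 hL hL' hh.rg
    hθ.rg hu

theorem mm_lb (_h : SkA_8.Pk Y x0 a φ F) {A : ℂ → ℝ} {h1 θ : ℝ → ℝ} (hh : Stp h1) (hθ : Stp θ) :
    LB (mm x0 A φ h1 θ) := by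
  refine LB.of_bdd ⟨1, fun z => ?_⟩
  unfold mm
  have e1 := hh.rg (x0 z + A z)
  have e2 := hθ.rg (x0 z + φ z)
  rw [abs_of_nonneg (mul_nonneg e1.1 e2.1)]
  exact mul_le_one₀ e1.2 e2.1 e2.2

theorem mm_ll (h : SkA_8.Pk Y x0 a φ F) (i : ℕ) {h1 θ : ℝ → ℝ} (hh : Stp h1) (hθ : Stp θ) :
    LocallyLipschitzOn Yᶜ (mm x0 (a i) φ h1 θ) := by
  obtain ⟨L, hL⟩ := stp_lip hh
  obtain ⟨L', hL'⟩ := stp_lip hθ
  exact LmS_392.ll_mul' (Bd_775.ll_comp hL (ll_add (loc_x0 h) (h.tta i).q.loc))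
    (Bd_775.ll_comp hL' (ll_add (loc_x0 h) h.tt.q.loc))

/-- `χ0 g` commutes with `φ` -/
theorem ni_phi_g (h : SkA_8.Pk Y x0 a φ F) (i : ℕ) {h1 θ : ℝ → ℝ} {O : Set ℂ} {χ0 : ℂ → ℝ}
    (hh : Stp h1) (hθ : Stp θ) (hχ0 : LC Y χ0) (hχ0c : HasCompactSupport χ0)
    (h01 : ∀ z, χ0 z ∈ Icc (0:ℝ) 1) (hu : Adg_600.Uc Y (mm x0 (a i) φ h1 θ) O) :
    NI Y φ (fun z => χ0 z * gg x0 (a i) φ h1 θ O z) := by
  obtain ⟨L, hL⟩ := stp_lip hh
  obtain ⟨L', hL'⟩ := stp_lip hθ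
  have h1 := Adx_636.ni_phi_cut h i hχ0 hχ0c h01 hL hL' hh.rg hθ.rg
    (hu.cut h.hY (mm_ll h i hh hθ) (mm_lb h hh hθ))
  refine Adg_600.ni_congr (fun z hz => ?_) h1
  have h2 : z ∈ Adg_600.hull Y O ↔ z ∈ O := Adg_600.mem_hull_iff hz hu.op
  unfold gg mm
  by_cases hzO : z ∈ O
  · rw [indicator_of_mem hzO, indicator_of_mem (h2.2 hzO)]
  · rw [indicator_of_notMem hzO, indicator_of_notMem fun h => hzO (h2.1 h)]

/-- a cut-off equal to `1` on a big ball -/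
theorem exists_chi0 (hY : IsCompact Y) (R : ℝ) : ∃ (χ0 : ℂ → ℝ) (R' : ℝ), R < R' ∧ LC Y χ0 ∧
    HasCompactSupport χ0 ∧ (∀ z, χ0 z ∈ Icc (0:ℝ) 1) ∧ Y ⊆ ball 0 R' ∧
    ∀ z ∈ ball (0 : ℂ) R', χ0 z = 1 := by
  obtain ⟨r, hr⟩ := hY.isBounded.subset_closedBall (0 : ℂ)
  set R' : ℝ := max (max r R) 1 + 1
  have hR1 : 0 < R' := by positivity
  let f : ContDiffBump (0 : ℂ) := ⟨R', R' + 1, hR1, by linarith⟩
  have h1 : ∀ z ∈ ball (0 : ℂ) R', f z = 1 := fun z hz =>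
    f.one_of_mem_closedBall (ball_subset_closedBall hz)
  have h2 : Y ⊆ ball 0 R' := fun z hz => by
    have := hr hz
    rw [mem_closedBall, dist_zero_right] at this
    rw [mem_ball_zero_iff]
    linarith [le_max_left (max r R) 1, le_max_left r R]
  refine ⟨f, R', by linarith [le_max_left (max r R) 1, le_max_right r R], ?_,
    f.hasCompactSupport, fun z => ⟨f.nonneg, f.le_one⟩, h2, h1⟩
  refine LC.of_compact (f.contDiff (n := 1)).locallyLipschitz f.hasCompactSupport fun z hz => ?_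
  have h3 := h2 hz
  filter_upwards [isOpen_ball.mem_nhds h3] with u hu
  rw [h1 u hu, h1 z h3]

section asm

variable {h1 θ : ℝ → ℝ} {O : Set ℂ} {χ0 : ℂ → ℝ} {R : ℝ} {χ : ℂ → ℝ}

/-- the differential of `(χ0 g)²` against a cut-off -/
theorem wdg_q (h : SkA_8.Pk Y x0 a φ F) (i : ℕ) (hh : Stp h1) (hθ : Stp θ)
    (hu : Adg_600.Uc Y (mm x0 (a i) φ h1 θ) O)
    (hll : LocallyLipschitzOn Yᶜ fun z => χ0 z * gg x0 (a i) φ h1 θ O z)
    (hR : ∀ z ∈ ball (0 : ℂ) R, χ0 z = 1) (hχ : tsupport χ ⊆ ball 0 R) :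
    ∀ᵐ z ∂(volume.restrict Yᶜ),
      wdg (fun w => (χ0 w * gg x0 (a i) φ h1 θ O w) ^ 2) χ z =
        deriv h1 (x0 z + a i z) * (2 * (χ0 z * gg x0 (a i) φ h1 θ O z) * θ (x0 z + φ z)) *
          wdg (fun w => x0 w + a i w) χ z +
        deriv θ (x0 z + φ z) * (2 * (χ0 z * gg x0 (a i) φ h1 θ O z) * h1 (x0 z + a i z)) *
          wdg (fun w => x0 w + φ w) χ z := by
  have hU : IsOpen Yᶜ := h.hY.1
  filter_upwards [ae_restrict_mem hU.measurableSet,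
    Bd_775.ae_diff hU (ll_add (loc_x0 h) (h.tta i).q.loc),
    Bd_775.ae_diff hU (ll_add (loc_x0 h) h.tt.q.loc)] with z hz d1 d2
  by_cases hzR : z ∈ ball (0 : ℂ) R
  · refine Fml_61.wdg_sq (g := fun w => χ0 w * gg x0 (a i) φ h1 θ O w)
      (u := fun w => x0 w + a i w) (x := fun w => x0 w + φ w) (h := h1) (th := θ) hU hll hz
      (fun h0 => ?_) d1 d2 (hh.smooth.differentiable (by simp) _)
      (hθ.smooth.differentiable (by simp) _) χ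
    have hzO : z ∈ O := by
      by_contra hc
      apply h0
      simp only [gg, indicator_of_notMem hc, mul_zero]
    filter_upwards [hu.op z hzO hz, isOpen_ball.mem_nhds hzR] with w hw hwR
    rw [hR w hwR, one_mul]
    unfold gg mm
    rw [indicator_of_mem hw]
  · have h0 : fderiv ℝ χ z = 0 := by
      have h2 : z ∉ tsupport χ := fun h3 => hzR (hχ h3)
      have h3 : χ =ᶠ[𝓝 z] fun _ => 0 := by
        filter_upwards [(isClosed_tsupport χ).isOpen_compl.mem_nhds h2] with w hw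
        exact image_eq_zero_of_notMem_tsupport hw
      rw [h3.fderiv_eq]
      simp
    have h4 : ∀ f : ℂ → ℝ, wdg f χ z = 0 := fun f => by
      unfold wdg gx gy
      rw [h0]
      simp
    rw [h4, h4, h4]
    ring

end asm

end

end Crest.Agent.R105.Bp_338
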