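import Crest.Agent.R105.Bp3_338

/-!
# Row 105, S0138, node E13: **`bal : E13_499.BAL`** (helper338)
-/

set_option autoImplicit false

open MeasureTheory Set Filter Topology Metric
open scoped NNReal ENNReal ContDiff

namespace Crest.Agent.R105.Bp_338

open Crest.AnalysisR (IsExteriorDomain)
open Tc_808 Bd_775 Ends_897 Ni_459
open Ta_937 (corE push push_comp)
open Sqr_185 (sec SqK)
open Fml_61 (ChnE)
open E13_499 (EndsOf TopF BotF pu cF gg mm Stp Rmp Ed Bal)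

noncomputable section

variable {Y : Set ℂ} {x0 φ A f g : ℂ → ℝ} {a b : ℕ → ℂ → ℝ} {F P : ℂ → ℂ} {i : ℕ}
variable {h1 θ : ℝ → ℝ} {O : Set ℂ} {χ0 : ℂ → ℝ}

theorem stp_deriv (hh : Stp h1) : ∃ C, ∀ t, |deriv h1 t| ≤ C :=
  (hh.smooth.continuous_deriv (by simp)).bounded_above_of_compact_support hh.supp

theorem stp_meas (hh : Stp h1) : Measurable (deriv h1) :=
  (hh.smooth.continuous_deriv (by simp)).measurable

/-- **the limit of the boundary term** -/
theorem lim2 (h : SkA_8.Pk Y x0 a φ F) (hi : SkA_8.Pk Y x0 b (a i) P) (K : Cmp Yᶜᶜ)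
    (hh : Stp h1) (hθ : Stp θ) (hu : Adg_600.Uc Y (mm x0 (a i) φ h1 θ) O)
    (hχ0 : LC Y χ0) (hχ0c : HasCompactSupport χ0) (h01 : ∀ z, χ0 z ∈ Icc (0:ℝ) 1) {R : ℝ}
    (hYR : Y ⊆ ball 0 R) (hR : ∀ z ∈ ball (0 : ℂ) R, χ0 z = 1)
    {w : ℂ → ℝ} (hwP : Wt hi w) (hwF : Wt h w) {xT xB vT vB gT gB kT kB wT wB cT cB : ℝ → ℝ}
    (hx : EndsOf (P '' Yᶜ)ᶜ (cF hi K) (pu hi fun z => (F z).re) xT xB)
    (hg : EndsOf (P '' Yᶜ)ᶜ (cF hi K) (pu hi (gg x0 (a i) φ h1 θ O)) gT gB)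
    (hwe : EndsOf (P '' Yᶜ)ᶜ (cF hi K) (pu hi w) wT wB)
    (hv : EndsOf (F '' Yᶜ)ᶜ (cF h K) (pu h fun z => (P z).re) vT vB)
    (hk : EndsOf (F '' Yᶜ)ᶜ (cF h K) (pu h (gg x0 (a i) φ h1 θ O)) kT kB)
    (hwf : EndsOf (F '' Yᶜ)ᶜ (cF h K) (pu h w) cT cB) {χ : ℕ → ℂ → ℝ}
    (hχ : ChnE Yᶜᶜ K.1 χ) (hχR : ∀ n, tsupport (χ n) ⊆ ball 0 R) :
    Tendsto (fun n => ∫ z in Yᶜ, w z *
      wdg (fun w => (χ0 w * gg x0 (a i) φ h1 θ O w) ^ 2) (χ n) z) atTop
      (𝓝 ((∫ t in Icc (Sqr_185.lo (cF hi K).1) (Sqr_185.hi (cF hi K).1),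
          deriv h1 t * (2 * gB t * θ (xB t) * wB t - 2 * gT t * θ (xT t) * wT t)) +
        ∫ t in Icc (Sqr_185.lo (cF h K).1) (Sqr_185.hi (cF h K).1),
          deriv θ t * (2 * kB t * h1 (vB t) * cB t - 2 * kT t * h1 (vT t) * cT t))) := by
  have hU : IsOpen Yᶜ := h.hY.1
  have hA := adm_g h i hh hθ hχ0 hχ0c h01 hu
  have hN := ni_phi_g h i hh hθ hχ0 hχ0c h01 hu
  have hKR : K.1 ⊆ ball 0 R := fun z hz => hYR (by
    have := K.subset hz
    rwa [compl_compl] at this)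
  obtain ⟨p1, p2⟩ := wp_side h hi K hθ hA.tt (hA.ni i) isOpen_ball hKR hR hwP hx hg hwe
  obtain ⟨f1, f2⟩ := wf_side h hi K hh hA.tt hN isOpen_ball hKR hR hwF hv hk hwf
  obtain ⟨C, hC⟩ := stp_deriv hh
  obtain ⟨C', hC'⟩ := stp_deriv hθ
  have l1 := lim1 hi K (stp_meas hh) hC p1 p2 hχ
  have l2 := lim1 h K (stp_meas hθ) hC' f1 f2 hχ
  refine (l1.add l2).congr fun n => ?_
  have hs := hχ.dsupp n
  rw [compl_compl] at hs
  have c1 : ContinuousOn (fun z => x0 z + a i z) Yᶜ :=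
    (ll_add (loc_x0 h) (h.tta i).q.loc).continuousOn
  have c2 : ContinuousOn (fun z => x0 z + φ z) Yᶜ := (ll_add (loc_x0 h) h.tt.q.loc).continuousOn
  have i1 : IntegrableOn (fun z => (deriv h1 (x0 z + a i z) * WP x0 (a i) φ h1 θ O χ0 w z) *
      wdg (fun z => x0 z + a i z) (χ n) z) Yᶜ :=
    Fml_61.integrableOn_mul_wdg_lc hU (ll_add (loc_x0 h) (h.tta i).q.loc)
      (((hh.smooth.continuous_deriv (by simp)).comp_continuousOn c1).mul p1.ll.continuousOn)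
      (hχ.sm n) (hχ.lce n).supp hs
  have i2 : IntegrableOn (fun z => (deriv θ (x0 z + φ z) * WF x0 (a i) φ h1 θ O χ0 w z) *
      wdg (fun z => x0 z + φ z) (χ n) z) Yᶜ :=
    Fml_61.integrableOn_mul_wdg_lc hU (ll_add (loc_x0 h) h.tt.q.loc)
      (((hθ.smooth.continuous_deriv (by simp)).comp_continuousOn c2).mul f1.ll.continuousOn)
      (hχ.sm n) (hχ.lce n).supp hs
  rw [← integral_add i1 i2]
  refine integral_congr_ae ?_
  filter_upwards [wdg_q h i hh hθ hu hA.tt.q.loc hR (hχR n)] with z hz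
  rw [hz]
  unfold WP WF
  ring

/-- **BAL** -/
theorem bal : E13_499.BAL := by
  intro Y x0 φ a b F P i K h1 θ O h hi be s ex xT xB yT yB vT vB gT gB kT kB hh hR hu0 hs hQ hw hEd
    hgP hgF
  have hu := Bal_173.uc_of h K hh hR hu0
  have hθ := hR.st
  have hYc : IsCompact Y := cpt_of h.hY
  have hU : IsOpen Yᶜ := h.hY.1
  obtain ⟨χ, hχ⟩ := Fml_61.exists_chn (by rw [compl_compl]; exact hYc) K
  obtain ⟨R0, hR0⟩ := hχ.cs (K.isCompact (by rw [compl_compl]; exact hYc))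
  obtain ⟨χ0, R, hRR, hχ0, hχ0c, h01, hYR, hR1⟩ := exists_chi0 hYc R0
  have hχR : ∀ n, tsupport (χ n) ⊆ ball 0 R := fun n => (hR0 n).trans (closedBall_subset_ball hRR)
  have hKR : K.1 ⊆ ball 0 R := fun z hz => hYR (by
    have := K.subset hz
    rwa [compl_compl] at this)
  have hA := adm_g h i hh hθ hχ0 hχ0c h01 hu
  set g0 : ℂ → ℝ := fun z => χ0 z * gg x0 (a i) φ h1 θ O z with hg0
  have hqll : LocallyLipschitzOn Yᶜ fun z => g0 z ^ 2 := by
    have := LmS_392.ll_mul' hA.tt.q.loc hA.tt.q.loc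
    exact Tra_937.locLip_congr (fun z _ => (sq _).symm) this
  have hyll : LocallyLipschitzOn Yᶜ fun z => (F z).im := Yv_319.locLip_im hU h.hol
  -- COUNT
  have c1 := lim2 h hi K hh hθ hu hχ0 hχ0c h01 hYR hR1 (Wt.const hi 1) (Wt.const h 1) hEd.x hgP
    (ends_const 1) hEd.v hgF (ends_const 1) hχ hχR
  have c2 := lim2 h hi K hh hθ hu hχ0 hχ0c h01 hYR hR1 (Wt.im h hi) (Wt.im_self h) hEd.x hgP
    hEd.y hEd.v hgF (ends_im_self h K hs hQ hw) hχ hχR
  have hs' : ∀ n, tsupport (fderiv ℝ (χ n)) ⊆ Yᶜ := fun n => by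
    have := hχ.dsupp n
    rwa [compl_compl] at this
  have e0 : ∀ n, (∫ z in Yᶜ, (1:ℝ) * wdg (fun w => g0 w ^ 2) (χ n) z) = 0 := fun n => by
    simp only [one_mul]
    exact LmS_392.stokes hU hqll (hχ.sm n) (hχ.lce n).supp (hs' n)
  have b1 := tendsto_nhds_unique (tendsto_const_nhds (x := (0:ℝ))) (c1.congr fun n => e0 n)
  -- the interior term
  have hq0 : TT Y fun z => g0 z * g0 z := hA.tt.mul hYc.isClosed hA.tt
  have en1 : IntegrableOn (en fun z => g0 z ^ 2) (Yᶜ ∩ ball 0 R) := by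
    have e : (fun z => g0 z ^ 2) = fun z => g0 z * g0 z := by funext z; ring
    rw [e]
    exact hq0.q.fin.mono_set inter_subset_left
  have en2 := LmS6_405.en_y h.hY h.hx h.tt h.hol h.re R
  obtain ⟨t1, t2⟩ := Fml_61.tendsto_chi (X := χ) (R := R) (M := 1) hU en1 en2
    (fun n => (hχ.sm n).continuous)
    (fun n z => abs_le.2 ⟨by linarith [(hχ.c01 n z).1], (hχ.c01 n z).2⟩)
    (fun n z hz => image_eq_zero_of_notMem_tsupport fun hc => hz (hχR n hc))
    (fun z hz => tendsto_const_nhds.congr' (by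
      have hzK : z ∉ K.1 := fun hc => by
        have := K.subset hc
        rw [compl_compl] at this
        exact hz this
      filter_upwards [hχ.tendsto_zero hzK] with n hn
      exact hn.symm))
  -- E-L
  have c3 : Tendsto (fun n => ∫ z in Yᶜ, wdg (fun z => χ n z * gg x0 (a i) φ h1 θ O z ^ 2)
      (fun w => (F w).im) z) atTop (𝓝 (Bal (Sqr_185.lo (cF hi K).1) (Sqr_185.hi (cF hi K).1)
        (Sqr_185.lo (cF h K).1) (Sqr_185.hi (cF h K).1) h1 θ xT xB vT vB gT gB kT kB yT yB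
        (be + s) be)) := by
    have e1 := t2.add c2
    rw [zero_add] at e1
    have e2 : Bal (Sqr_185.lo (cF hi K).1) (Sqr_185.hi (cF hi K).1)
        (Sqr_185.lo (cF h K).1) (Sqr_185.hi (cF h K).1) h1 θ xT xB vT vB gT gB kT kB yT yB
        (be + s) be =
        (∫ t in Icc (Sqr_185.lo (cF hi K).1) (Sqr_185.hi (cF hi K).1),
          deriv h1 t * (2 * gB t * θ (xB t) * yB t - 2 * gT t * θ (xT t) * yT t)) +
        ∫ t in Icc (Sqr_185.lo (cF h K).1) (Sqr_185.hi (cF h K).1),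
          deriv θ t * (2 * kB t * h1 (vB t) * be - 2 * kT t * h1 (vT t) * (be + s)) := by
      unfold Bal
      congr 1
      · refine setIntegral_congr_fun measurableSet_Icc fun t _ => ?_
        ring
      · refine setIntegral_congr_fun measurableSet_Icc fun t _ => ?_
        ring
    rw [e2]
    refine e1.congr fun n => ?_
    have e3 : (fun z => χ n z * gg x0 (a i) φ h1 θ O z ^ 2) = fun z => χ n z * g0 z ^ 2 := by
      funext z
      by_cases hz : z ∈ tsupport (χ n)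
      · simp only [hg0, hR1 z (hχR n hz), one_mul]
      · rw [image_eq_zero_of_notMem_tsupport hz, zero_mul, zero_mul]
    rw [e3]
    exact (Fml_61.stokes_cut hU hqll hyll (t1 n) (hχ.sm n) (hχ.lce n).supp (hs' n)).symm
  obtain ⟨d1, d2⟩ := Bal_173.el_bal h K i hh hR hu0 hχ0 hχ0c h01 isOpen_ball hKR hR1 hχ hw c3
  refine ⟨?_, d1, ?_⟩
  · refine Eq.trans ?_ b1.symm
    unfold Bal
    congr 1
    · refine setIntegral_congr_fun measurableSet_Icc fun t _ => ?_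
      simp only [Pi.one_apply]
      ring
    · refine setIntegral_congr_fun measurableSet_Icc fun t _ => ?_
      ring
  · have e4 : θ (Sqr_185.hi (cF h K).1) ^ 2 - θ (Sqr_185.lo (cF h K).1) ^ 2 = ex := by
      rcases hR.sg with ⟨q1, q2, q3⟩ | ⟨q1, q2, q3⟩
      · rw [q1, q2, q3]; norm_num
      · rw [q1, q2, q3]; norm_num
    rwa [e4] at d2

end

end Crest.Agent.R105.Bp_338
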