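import Crest.Agent.R105.FK2_644

/-!
# Row 105, finite Koebe (helper644), part 3: the continuity method

`fk_of`  : `Slit`, `UniqSlit`, `UniqDisc`, `Prop4`, `Cont4`, `ConnY` imply `FK`.
-/

set_option autoImplicit false

open Set Filter Topology Metric Complex

namespace Crest.Agent.R105.FK_644

open Crest.AnalysisR

theorem isOpen_X (n : ℕ) : IsOpen (X n) := by
  have h1 : IsOpen {x : Fin n → ℂ × ℝ | ∀ i, 0 < (x i).2} := by
    have : {x : Fin n → ℂ × ℝ | ∀ i, 0 < (x i).2} = ⋂ i, {x | 0 < (x i).2} := by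
      ext x; simp
    rw [this]
    exact isOpen_iInter_of_finite fun i => isOpen_lt continuous_const (by fun_prop)
  have h2 : X n = {x : Fin n → ℂ × ℝ | ∀ i, 0 < (x i).2} ∩
      ⋂ i, ⋂ j, {x | i ≠ j → (x i).2 + (x j).2 < dist (x i).1 (x j).1} := by
    ext x
    simp only [X, mem_setOf_eq, mem_inter_iff, mem_iInter]
    refine and_congr_right fun hx => ?_
    refine forall_congr' fun i => forall_congr' fun j => ?_
    refine imp_congr_right fun _ => ?_
    exact disjoint_closedBall_closedBall_iff (hx i).le (hx j).le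
  rw [h2]
  refine h1.inter (isOpen_iInter_of_finite fun i => isOpen_iInter_of_finite fun j => ?_)
  by_cases hij : i = j
  · have : {x : Fin n → ℂ × ℝ | i ≠ j → (x i).2 + (x j).2 < dist (x i).1 (x j).1} = univ := by
      ext x; simp [hij]
    rw [this]; exact isOpen_univ
  · have : {x : Fin n → ℂ × ℝ | i ≠ j → (x i).2 + (x j).2 < dist (x i).1 (x j).1} =
        {x | (x i).2 + (x j).2 < dist (x i).1 (x j).1} := by
      ext x; simp [hij]
    rw [this]
    exact isOpen_lt (by fun_prop) (by fun_prop)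

theorem X_nonempty (n : ℕ) : (X n).Nonempty := by
  refine ⟨fun i => (((3 * (i : ℕ) : ℝ) : ℂ), 1), fun i => one_pos, fun i j hij => ?_⟩
  rw [discs, discs, disjoint_closedBall_closedBall_iff zero_le_one zero_le_one]
  simp only
  rw [dist_eq_norm, ← Complex.ofReal_sub, Complex.norm_real, Real.norm_eq_abs, ← mul_sub,
    abs_mul, abs_of_pos (by norm_num : (0:ℝ) < 3)]
  have h1 : (1 : ℝ) ≤ |((i : ℕ) : ℝ) - ((j : ℕ) : ℝ)| := by
    have h2 : ((i : ℕ) : ℤ) - ((j : ℕ) : ℤ) ≠ 0 := by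
      intro h
      apply hij
      apply Fin.ext
      omega
    have h3 := Int.one_le_abs h2
    have h4 : ((1 : ℤ) : ℝ) ≤ ((|((i : ℕ) : ℤ) - ((j : ℕ) : ℤ)| : ℤ) : ℝ) := by exact_mod_cast h3
    simpa using h4
  linarith

/-- **the continuity method** -/
theorem fk_of (hslit : Slit) (hus : UniqSlit) (hud : UniqDisc) (hp : Prop4) (hc : Cont4)
    (hconn : ConnY) : FK := by
  classical
  intro n
  have hex : ∀ x : Fin n → ℂ × ℝ, ∃ y : Fin n → ℂ × ℝ, x ∈ X n →
      y ∈ Y n ∧ ∃ f, LMap (discs x) (slits y) f := by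
    intro x
    by_cases hx : x ∈ X n
    · obtain ⟨y, hy, hf⟩ := hslit n (discs x) (fam_discs hx)
      exact ⟨y, fun _ => ⟨hy, hf⟩⟩
    · exact ⟨x, fun h => absurd h hx⟩
  choose Φ hΦ using hex
  have huniq : ∀ x ∈ X n, ∀ y ∈ Y n, (∃ f, LMap (discs x) (slits y) f) → Φ x = y := by
    rintro x hx y hy ⟨f, hf⟩
    obtain ⟨h1, g, hg⟩ := hΦ x hx
    obtain ⟨k, hk, -, -⟩ := hg.symm (fam_discs hx) (fam_slits h1)
    exact hus n _ _ h1 hy _ (hk.trans hf)
  have hinj : InjOn Φ (X n) := by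
    intro x hx x' hx' he
    obtain ⟨h1, g, hg⟩ := hΦ x hx
    obtain ⟨h1', g', hg'⟩ := hΦ x' hx'
    obtain ⟨k, hk, -, -⟩ := hg'.symm (fam_discs hx') (fam_slits h1')
    rw [he] at hg
    exact hud n _ _ hx hx' _ (hg.trans hk)
  have hcont : ContinuousOn Φ (X n) := by
    intro x' hx'
    refine tendsto_of_subseq_tendsto fun ns hns => ?_
    have h1 : ∀ᶠ k in atTop, ns k ∈ X n := hns.eventually self_mem_nhdsWithin
    obtain ⟨N, hN⟩ := eventually_atTop.1 h1
    have h2 : Tendsto (fun k => ns (k + N)) atTop (𝓝 x') :=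
      (hns.mono_right nhdsWithin_le_nhds).comp (tendsto_add_atTop_nat N)
    have h3 : ∀ k, ns (k + N) ∈ X n := fun k => hN _ (Nat.le_add_left _ _)
    choose g hg using fun k => (hΦ _ (h3 k)).2
    obtain ⟨y', hy', φ, hφ, hlim, hmap⟩ := hc n (fun k => ns (k + N)) (fun k => Φ (ns (k + N))) g
      h3 (fun k => (hΦ _ (h3 k)).1) hg x' hx' h2
    refine ⟨fun k => φ k + N, ?_⟩
    rw [huniq x' hx' y' hy' hmap]
    exact hlim
  have hopen : IsOpen (Φ '' X n) := Iod1_690.isOpen_image_fd rfl (isOpen_X n) hcont hinj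
  have hsub : Y n ⊆ Φ '' X n := by
    refine (hconn n).subset_of_closure_inter_subset hopen ?_ ?_
    · obtain ⟨x, hx⟩ := X_nonempty n
      exact ⟨Φ x, (hΦ x hx).1, x, hx, rfl⟩
    · rintro y' ⟨hy1, hy2⟩
      obtain ⟨w, hw, hwl⟩ := mem_closure_iff_seq_limit.1 hy1
      choose x hx hxw using hw
      choose g hg using fun k => (hΦ _ (hx k)).2
      have hw' : ∀ k, w k = Φ (x k) := fun k => (hxw k).symm
      obtain ⟨x', hx', φ, hφ, hlim, hmap⟩ := hp n x (fun k => Φ (x k)) g hx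
        (fun k => (hΦ _ (hx k)).1) hg y' hy2 (by
          have : (fun k => Φ (x k)) = w := by ext1 k; exact hxw k
          rw [this]; exact hwl)
      exact ⟨x', hx', huniq x' hx' y' hy2 hmap⟩
  intro K hK
  obtain ⟨y, hy, f, hf⟩ := hslit n K hK
  obtain ⟨x, hx, rfl⟩ := hsub hy
  obtain ⟨-, g, hg⟩ := hΦ x hx
  obtain ⟨k, hk, -, -⟩ := hg.symm (fam_discs hx) (fam_slits hy)
  exact ⟨x, hx, _, hf.trans hk⟩

end Crest.Agent.R105.FK_644
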