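import Mathlib
import Crest.Agent.R105.FK3_644
import Crest.Agent.R105.Sig4_731

/-!
# Row 105, COFAT, the sequence of finite Koebe maps and its limit (helper107)

`Stage K s f c r`  : `f` maps `ℂ ∖ ⋃_(i ∈ s) K i` onto the complement of the disjoint discs
                     `closedBall (c i) (r i)`, `i ∈ s`, labels kept.
`exists_stage`     : finite Koebe for finsets.
`exists_stages`    : an exhausting sequence of stages which converges.
-/

set_option autoImplicit false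

open Set Filter Topology Metric Complex
open Crest.AnalysisR

namespace Crest.Agent.R105.Cfl_107

open FK_644

/-- one finite Koebe map -/
structure Stage {ι : Type*} (K : ι → Set ℂ) (s : Finset ι) (f : ℂ → ℂ) (c : ι → ℂ) (r : ι → ℝ) :
    Prop where
  sig : Sig (⋃ i ∈ s, K i)ᶜ f
  img : f '' (⋃ i ∈ s, K i)ᶜ = (⋃ i ∈ s, closedBall (c i) (r i))ᶜ
  pos : ∀ i ∈ s, 0 < r i
  disj : ∀ i ∈ s, ∀ j ∈ s, i ≠ j → Disjoint (closedBall (c i) (r i)) (closedBall (c j) (r j))
  lab : ∀ i ∈ s, Tendsto f (𝓝ˢ (K i) ⊓ 𝓟 (⋃ i ∈ s, K i)ᶜ) (𝓝ˢ (closedBall (c i) (r i)))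

theorem dom_fin {ι : Type*} (K : ι → Set ℂ) (s : Finset ι) :
    dom (fun a : Fin s.card => K (s.equivFin.symm a : ι)) = (⋃ i ∈ s, K i)ᶜ := by
  unfold dom
  congr 1
  ext z
  simp only [mem_iUnion, exists_prop]
  constructor
  · rintro ⟨a, ha⟩
    exact ⟨_, (s.equivFin.symm a).2, ha⟩
  · rintro ⟨i, hi, hz⟩
    refine ⟨s.equivFin ⟨i, hi⟩, ?_⟩
    simpa using hz

/-- finite Koebe for finsets -/
theorem exists_stage (hFK : FK) {ι : Type*} (K : ι → Set ℂ) (s : Finset ι)
    (hc : ∀ i ∈ s, IsCompact (K i)) (hk : ∀ i ∈ s, IsConnected (K i))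
    (hn : ∀ i ∈ s, (K i).Nontrivial) (hd : ∀ i ∈ s, ∀ j ∈ s, i ≠ j → Disjoint (K i) (K j))
    (hp : ∀ i ∈ s, IsPreconnected (K i)ᶜ) :
    ∃ (f : ℂ → ℂ) (c : ι → ℂ) (r : ι → ℝ), Stage K s f c r ∧ ∀ i ∉ s, c i = 0 ∧ r i = 0 := by
  classical
  have hF : Fam (fun a : Fin s.card => K (s.equivFin.symm a : ι)) := by
    refine ⟨fun a => hc _ (s.equivFin.symm a).2, fun a => hk _ (s.equivFin.symm a).2,
      fun a => hn _ (s.equivFin.symm a).2, fun a b hab => hd _ (s.equivFin.symm a).2 _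
        (s.equivFin.symm b).2 fun h => hab ?_, ?_⟩
    · exact s.equivFin.symm.injective (Subtype.ext h)
    · rw [dom_fin]
      exact preconn_biUnion s hc hd hp
  obtain ⟨x, hx, f, hf⟩ := hFK _ _ hF
  refine ⟨f, fun i => if h : i ∈ s then (x (s.equivFin ⟨i, h⟩)).1 else 0,
    fun i => if h : i ∈ s then (x (s.equivFin ⟨i, h⟩)).2 else 0, ?_, ?_⟩
  · have hball : ∀ (i : ι) (h : i ∈ s),
        closedBall (if h : i ∈ s then (x (s.equivFin ⟨i, h⟩)).1 else 0)
          (if h : i ∈ s then (x (s.equivFin ⟨i, h⟩)).2 else 0) = discs x (s.equivFin ⟨i, h⟩) := by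
      intro i h
      rw [dif_pos h, dif_pos h]; rfl
    refine ⟨?_, ?_, ?_, ?_, ?_⟩
    · have := hf.sig
      rwa [dom_fin] at this
    · have := hf.img
      rw [dom_fin] at this
      rw [this]
      unfold dom
      congr 1
      ext z
      simp only [mem_iUnion, exists_prop]
      constructor
      · rintro ⟨a, ha⟩
        refine ⟨_, (s.equivFin.symm a).2, ?_⟩
        rw [hball _ (s.equivFin.symm a).2]
        simpa using ha
      · rintro ⟨i, hi, hz⟩
        rw [hball i hi] at hz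
        exact ⟨_, hz⟩
    · intro i hi
      simp only [dif_pos hi]
      exact hx.1 _
    · intro i hi j hj hij
      rw [hball i hi, hball j hj]
      refine hx.2 _ _ fun h => hij ?_
      have := s.equivFin.injective h
      exact congrArg Subtype.val this
    · intro i hi
      rw [hball i hi]
      have := hf.lab (s.equivFin ⟨i, hi⟩)
      rw [dom_fin] at this
      simpa using this
  · intro i hi
    simp only [dif_neg hi, and_self]

/-- the discs of a stage are bounded by the domain -/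
theorem Stage.bound {ι : Type*} {K : ι → Set ℂ} {s : Finset ι} {f : ℂ → ℂ} {c : ι → ℂ} {r : ι → ℝ}
    (h : Stage K s f c r) {R : ℝ} (hR : 0 < R) (hU : ∀ i ∈ s, ∀ z ∈ K i, ‖z‖ ≤ R) {i : ι}
    (hi : i ∈ s) : closedBall (c i) (r i) ⊆ closedBall 0 (33 * R) := by
  have hS : Sig731.Sig (⋃ i ∈ s, K i)ᶜ f := ⟨h.sig.hol, h.sig.inj, h.sig.inf⟩
  have hsub := hS.compl_subset hR (by
    intro z hz hzK
    simp only [mem_iUnion, exists_prop] at hzK
    obtain ⟨j, hj, hzj⟩ := hzK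
    exact absurd (hU j hj z hzj) (not_le.2 hz))
  intro z hz
  apply hsub
  rw [h.img, compl_compl]
  exact mem_iUnion₂.2 ⟨i, hi, hz⟩

/-- an exhausting sequence of stages with limits -/
theorem exists_stages (hFK : FK) {V : Set ℂ} (hV : IsExteriorDomain V) {ι : Type*} [Countable ι]
    (K : ι → Set ℂ) (hK : ∀ i, ∃ z ∈ Vᶜ, K i = connectedComponentIn Vᶜ z)
    (hnt : ∀ i, (K i).Nontrivial) (hinj : Function.Injective K) :
    ∃ (F : ℕ → Finset ι) (f : ℕ → ℂ → ℂ) (c : ℕ → ι → ℂ) (r : ℕ → ι → ℝ) (g : ℂ → ℂ)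
      (c' : ι → ℂ) (r' : ι → ℝ), Monotone F ∧ (∀ i, ∃ n, i ∈ F n) ∧
      (∀ n, Stage K (F n) (f n) (c n) (r n)) ∧ Sig V g ∧ TendstoLocallyUniformlyOn f g atTop V ∧
      (∀ i, Tendsto (fun n => c n i) atTop (𝓝 (c' i))) ∧
      (∀ i, Tendsto (fun n => r n i) atTop (𝓝 (r' i))) ∧ ∀ i, 0 ≤ r' i := by
  classical
  have hcV := Ends_897.isCompact_compl hV
  have hcpt : ∀ i, IsCompact (K i) := by
    intro i
    obtain ⟨z, _, h⟩ := hK i
    rw [h]; exact Ends_897.isCompact_cc hcV _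
  have hsub : ∀ i, K i ⊆ Vᶜ := by
    intro i
    obtain ⟨z, _, h⟩ := hK i
    rw [h]; exact connectedComponentIn_subset _ _
  have hdisj : ∀ i j, i ≠ j → Disjoint (K i) (K j) := by
    intro i j hij
    rw [disjoint_left]
    intro w hw hw'
    apply hij
    apply hinj
    obtain ⟨z, _, h⟩ := hK i
    obtain ⟨z', _, h'⟩ := hK j
    rw [h] at hw; rw [h'] at hw'
    rw [h, h']
    exact (connectedComponentIn_eq hw).trans (connectedComponentIn_eq hw').symm
  have hpre : ∀ i, IsPreconnected (K i)ᶜ := by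
    intro i
    obtain ⟨z, _, h⟩ := hK i
    rw [h]; exact Thin_12.isPreconnected_compl_cc hV.2.1.isPreconnected _
  have hconn : ∀ i, IsConnected (K i) := by
    intro i
    obtain ⟨z, hz, h⟩ := hK i
    rw [h]; exact ⟨⟨z, mem_connectedComponentIn hz⟩, isPreconnected_connectedComponentIn⟩
  -- the exhaustion
  obtain ⟨e, he⟩ := Countable.exists_injective_nat ι
  set F0 : ℕ → Finset ι := fun n => ((Set.finite_Iio n).preimage he.injOn).toFinset with hF0
  have hmem : ∀ n i, i ∈ F0 n ↔ e i < n := by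
    intro n i; simp [hF0]
  have hF0m : Monotone F0 := by
    intro a b hab i hi
    rw [hmem] at hi ⊢
    omega
  -- the stages
  choose f0 c0 r0 hst hout using fun n => exists_stage hFK K (F0 n) (fun i _ => hcpt i)
    (fun i _ => hconn i) (fun i _ => hnt i) (fun i _ j _ => hdisj i j) (fun i _ => hpre i)
  -- the radius
  obtain ⟨R0, hR0⟩ := hV.2.2
  set R : ℝ := max R0 1 with hRdef
  have hR : 0 < R := lt_of_lt_of_le one_pos (le_max_right _ _)
  have hRV : ∀ z, R < ‖z‖ → z ∈ V := fun z hz => hR0 z (lt_of_le_of_lt (le_max_left _ _) hz)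
  have hKR : ∀ i, ∀ z ∈ K i, ‖z‖ ≤ R := by
    intro i z hz
    by_contra h
    exact hsub i hz (hRV z (not_le.1 h))
  have hVs : ∀ s : Finset ι, V ⊆ (⋃ i ∈ s, K i)ᶜ := by
    intro s z hz hzK
    obtain ⟨i, _, hi⟩ := mem_iUnion₂.1 hzK
    exact hsub i hi hz
  -- convergence of the maps
  obtain ⟨φ, hφ, g, hg, hlim⟩ := Sig731.sig_compact_var (U := V) (R := R)
    (W := fun n => (⋃ i ∈ F0 n, K i)ᶜ) (F := f0) hV.1 hV.2.1.isPreconnected hR hRV
    (fun n z hz => hVs _ (hRV z hz)) (fun L hL _ => Eventually.of_forall fun n => hL.trans (hVs _))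
    (fun n => ⟨(hst n).sig.hol, (hst n).sig.inj, (hst n).sig.inf⟩)
  -- convergence of centres and radii
  have hb : ∀ n i, ‖c0 n i‖ ≤ 33 * R ∧ 0 ≤ r0 n i ∧ r0 n i ≤ 66 * R := by
    intro n i
    by_cases hi : i ∈ F0 n
    · have h1 := (hst n).bound hR (fun i _ => hKR i) hi
      have h2 := (hst n).pos i hi
      have h3 : ‖c0 n i‖ ≤ 33 * R := by
        have := h1 (mem_closedBall_self h2.le)
        rwa [mem_closedBall_zero_iff] at this
      refine ⟨h3, h2.le, ?_⟩
      have h4 : c0 n i + (r0 n i : ℂ) ∈ closedBall (c0 n i) (r0 n i) := by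
        rw [mem_closedBall, dist_eq_norm, add_sub_cancel_left, Complex.norm_real,
          Real.norm_eq_abs, abs_of_pos h2]
      have h5 := h1 h4
      rw [mem_closedBall_zero_iff] at h5
      have h6 : ‖(r0 n i : ℂ)‖ ≤ ‖c0 n i + (r0 n i : ℂ)‖ + ‖c0 n i‖ := by
        have : (r0 n i : ℂ) = (c0 n i + (r0 n i : ℂ)) - c0 n i := by ring
        calc ‖(r0 n i : ℂ)‖ = ‖(c0 n i + (r0 n i : ℂ)) - c0 n i‖ := by rw [← this]
          _ ≤ _ := norm_sub_le _ _
      rw [Complex.norm_real, Real.norm_eq_abs, abs_of_pos h2] at h6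
      linarith
    · rw [(hout n i hi).1, (hout n i hi).2]
      refine ⟨by rw [norm_zero]; positivity, le_rfl, by positivity⟩
  set Q : Set (ι → ℂ × ℝ) := Set.pi univ fun _ => closedBall (0 : ℂ) (33 * R) ×ˢ Icc (0 : ℝ) (66 * R)
    with hQ
  have hQc : IsCompact Q := isCompact_univ_pi fun _ => (isCompact_closedBall _ _).prod isCompact_Icc
  obtain ⟨x', hx', ψ, hψ, hlim2⟩ := hQc.tendsto_subseq (x := fun n i => (c0 (φ n) i, r0 (φ n) i))
    (by
      intro n i _
      obtain ⟨h1, h2, h3⟩ := hb (φ n) i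
      exact ⟨mem_closedBall_zero_iff.2 h1, h2, h3⟩)
  have hlim3 : ∀ i, Tendsto (fun n => (c0 (φ (ψ n)) i, r0 (φ (ψ n)) i)) atTop (𝓝 (x' i)) := by
    intro i
    exact (tendsto_pi_nhds.1 hlim2) i
  refine ⟨fun n => F0 (φ (ψ n)), fun n => f0 (φ (ψ n)), fun n => c0 (φ (ψ n)),
    fun n => r0 (φ (ψ n)), g, fun i => (x' i).1, fun i => (x' i).2, ?_, ?_, ?_, ?_, ?_, ?_, ?_, ?_⟩
  · exact hF0m.comp (hφ.comp hψ).monotone
  · intro i
    refine ⟨e i + 1, ?_⟩
    show i ∈ F0 (φ (ψ (e i + 1)))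
    rw [hmem]
    have := (hφ.comp hψ).id_le (e i + 1)
    simp only [id, Function.comp] at this
    omega
  · exact fun n => hst _
  · exact ⟨hg.1, hg.2.1, hg.2.2⟩
  · intro u hu x hx
    obtain ⟨t, ht, h⟩ := hlim u hu x hx
    exact ⟨t, ht, hψ.tendsto_atTop.eventually h⟩
  · intro i
    exact (continuous_fst.tendsto _).comp (hlim3 i)
  · intro i
    exact (continuous_snd.tendsto _).comp (hlim3 i)
  · intro i
    exact (hx' i (mem_univ i)).2.1

end Crest.Agent.R105.Cfl_107
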