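import Crest.Agent.R105.Fk6_286
import Crest.Agent.R105.FK3_644

/-!
# R105, finite Koebe theorem (helper286), part 7: uniqueness of labelled maps of disc domains

* `uniqDisc : UniqDisc`, `uniqSlit' : UniqSlit`
-/

set_option autoImplicit false

open Set Filter Topology Complex Metric MeasureTheory
open scoped ContDiff ComplexConjugate Real

namespace Crest.Agent.R105.Fk_286

open Crest.Agent.R105.FK_644 Crest.Agent.Lib.Bieberbach

/-- (F3a) -/
theorem uniqSlit' : UniqSlit := uniqSlit fun _ _ hy => (fam_slits hy).compl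

theorem ev_ball {c : ℂ} {r : ℝ} (hr : 0 ≤ r) {P : ℂ → Prop}
    (hP : ∀ᶠ z in 𝓝ˢ (closedBall c r), P z) :
    ∀ᶠ δ : ℝ in 𝓝[>] 0, ∀ z ∈ closedBall c (r + δ), P z := by
  obtain ⟨O, hO, hKO, hOP⟩ := mem_nhdsSet_iff_exists.1 hP
  obtain ⟨δ0, hδ0, hsub⟩ := (isCompact_closedBall c r).exists_cthickening_subset_open hO hKO
  rw [cthickening_closedBall hδ0.le hr] at hsub
  filter_upwards [Ioo_mem_nhdsGT hδ0] with δ hδ z hz
  apply hOP
  apply hsub
  exact closedBall_subset_closedBall (by linarith [hδ.2]) hz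

variable {n : ℕ} {x x' : Fin n → ℂ × ℝ}

theorem vol_discs (hx : x ∈ X n) :
    (volume (⋃ i, discs x i)).toReal = ∑ i, π * (x i).2 ^ 2 := by
  have h1 : volume (⋃ i, discs x i) = ∑ i, volume (discs x i) := by
    rw [measure_iUnion (fun i j hij => hx.2 i j hij) fun i => measurableSet_closedBall,
      tsum_fintype]
  have h2 : ∀ i, (volume (discs x i)).toReal = π * (x i).2 ^ 2 := by
    intro i
    rw [discs, Complex.volume_closedBall]
    simp [(hx.1 i).le, ENNReal.toReal_mul, mul_comm]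
  rw [h1, ENNReal.toReal_sum]
  · exact Finset.sum_congr rfl fun i _ => h2 i
  · intro i _
    exact (isCompact_closedBall _ _).measure_lt_top.ne

/-- the energy of `f - id` on compact sets vanishes -/
theorem energy_le (hx : x ∈ X n) (hx' : x' ∈ X n) {f : ℂ → ℂ}
    (hf : LMap (discs x) (discs x') f) {L : Set ℂ} (hL : IsCompact L)
    (hLU : L ⊆ dom (discs x)) : ∫ z in L, ‖deriv f z - 1‖ ^ 2 ≤ 0 := by
  set E : Set ℂ := ⋃ i, discs x' i with hE
  have hEm : MeasurableSet E := (cpt_iUnion (cpt_discs x')).isClosed.measurableSet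
  have hEd : Disjoint (f '' dom (discs x)) E := by
    rw [hf.img]; exact disjoint_compl_left
  have hr : ∀ i, 0 < (x i).2 := hx.1
  set I : ℝ := ∫ z in L, ‖deriv f z - 1‖ ^ 2 with hI
  -- the inequality with parameters
  have h1 : ∀ ε > 0, ∀ᶠ δ : ℝ in 𝓝[>] 0, I ≤
      (∑ i, π * (2 * ((x i).2 + δ) ^ 2 * ((x' i).2 + ε) / ((x i).2 + δ / 2) -
        ((x i).2 + δ / 2) ^ 2)) - ∑ i, π * (x' i).2 ^ 2 := by
    intro ε hε
    -- (1) disjointness
    have e1 : ∀ᶠ δ : ℝ in 𝓝[>] 0, ∀ i j, i ≠ j →
        Disjoint (closedBall (x i).1 ((x i).2 + δ)) (closedBall (x j).1 ((x j).2 + δ)) := by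
      rw [eventually_all]; intro i
      rw [eventually_all]; intro j
      by_cases hij : i = j
      · exact Eventually.of_forall fun δ h => absurd hij h
      · have h2 : (x i).2 + (x j).2 < dist (x i).1 (x j).1 :=
          (disjoint_closedBall_closedBall_iff (hr i).le (hr j).le).1 (hx.2 i j hij)
        have h3 : Tendsto (fun δ : ℝ => (x i).2 + δ + ((x j).2 + δ)) (𝓝[>] 0)
            (𝓝 ((x i).2 + 0 + ((x j).2 + 0))) := by
          apply Tendsto.mono_left _ nhdsWithin_le_nhds
          apply Continuous.tendsto; fun_prop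
        rw [add_zero, add_zero] at h3
        filter_upwards [h3.eventually (gt_mem_nhds h2), self_mem_nhdsWithin] with δ h4 h5 _
        have h6 : (0 : ℝ) < δ := h5
        exact (disjoint_closedBall_closedBall_iff (by linarith [hr i]) (by linarith [hr j])).2 h4
    -- (2) `L`
    have e2 : ∀ᶠ δ : ℝ in 𝓝[>] 0, ∀ i, ∀ z ∈ closedBall (x i).1 ((x i).2 + δ), z ∉ L := by
      rw [eventually_all]; intro i
      apply ev_ball (hr i).le
      apply hL.isClosed.isOpen_compl.mem_nhdsSet.2
      intro z hz hzL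
      exact hLU hzL (mem_iUnion.2 ⟨i, hz⟩)
    -- (3) the labels
    have e3 : ∀ᶠ δ : ℝ in 𝓝[>] 0, ∀ i, ∀ z ∈ closedBall (x i).1 ((x i).2 + δ),
        z ∈ dom (discs x) → ‖f z - (x' i).1‖ ≤ (x' i).2 + ε := by
      rw [eventually_all]; intro i
      apply ev_ball (hr i).le
      have h2 : ∀ᶠ w in 𝓝ˢ (discs x' i), ‖w - (x' i).1‖ < (x' i).2 + ε :=
        (isOpen_lt (by fun_prop) continuous_const :
          IsOpen {w : ℂ | ‖w - (x' i).1‖ < (x' i).2 + ε}).mem_nhdsSet.2 fun w hw => by
            rw [discs, mem_closedBall, dist_eq_norm] at hw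
            show ‖w - (x' i).1‖ < (x' i).2 + ε
            linarith
      have h3 := hf.lab i h2
      rw [mem_map, mem_inf_principal] at h3
      filter_upwards [h3] with z hz hzU
      exact (hz hzU).le
    filter_upwards [e1, e2, e3, self_mem_nhdsWithin] with δ h2 h3 h4 h5
    have hδ : (0 : ℝ) < δ := h5
    have h6 := key_ineq (x := x) (α := fun i => (x i).2 + δ / 2) (β := fun i => (x i).2 + δ)
      (M := fun i => (x' i).2 + ε) (c' := fun i => (x' i).1) hr
      (fun i => by linarith) (fun i => by linarith) h2 hf.sig hEm hEd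
      (fun i z hz => by
        have hz1 : z ∈ closedBall (x i).1 ((x i).2 + δ) := by
          rw [mem_closedBall, dist_eq_norm]; exact hz.2
        apply h4 i z hz1
        intro hmem
        obtain ⟨j, hj⟩ := mem_iUnion.1 hmem
        by_cases hij : i = j
        · subst hij
          rw [discs, mem_closedBall, dist_eq_norm] at hj
          have := hz.1
          linarith
        · exact disjoint_left.1 (h2 i j hij) hz1
            (closedBall_subset_closedBall (by linarith) hj))
      hL (fun i => disjoint_left.2 fun z hzL hz => h3 i z hz hzL)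
    rw [vol_discs hx'] at h6
    exact h6
  -- `δ → 0`
  have h2 : ∀ ε > 0, I ≤ (∑ i, π * (2 * (x i).2 * ((x' i).2 + ε) - (x i).2 ^ 2)) -
      ∑ i, π * (x' i).2 ^ 2 := by
    intro ε hε
    have h3 : Tendsto (fun δ : ℝ => (∑ i, π * (2 * ((x i).2 + δ) ^ 2 * ((x' i).2 + ε) /
        ((x i).2 + δ / 2) - ((x i).2 + δ / 2) ^ 2)) - ∑ i, π * (x' i).2 ^ 2) (𝓝[>] 0)
        (𝓝 ((∑ i, π * (2 * (x i).2 * ((x' i).2 + ε) - (x i).2 ^ 2)) -
          ∑ i, π * (x' i).2 ^ 2)) := by
      apply Tendsto.sub_const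
      apply tendsto_finsetSum
      intro i _
      apply Tendsto.const_mul
      have hp := hr i
      have h4 : Tendsto (fun δ : ℝ => 2 * ((x i).2 + δ) ^ 2 * ((x' i).2 + ε) /
          ((x i).2 + δ / 2) - ((x i).2 + δ / 2) ^ 2) (𝓝 0)
          (𝓝 (2 * ((x i).2 + 0) ^ 2 * ((x' i).2 + ε) /
          ((x i).2 + 0 / 2) - ((x i).2 + 0 / 2) ^ 2)) := by
        apply ContinuousAt.tendsto (f := fun δ : ℝ => 2 * ((x i).2 + δ) ^ 2 * ((x' i).2 + ε) /
          ((x i).2 + δ / 2) - ((x i).2 + δ / 2) ^ 2)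
        apply ContinuousAt.sub
        · apply ContinuousAt.div
          · fun_prop
          · fun_prop
          · simp only [zero_div, add_zero]; exact hp.ne'
        · fun_prop
      have h5 : 2 * ((x i).2 + 0) ^ 2 * ((x' i).2 + ε) / ((x i).2 + 0 / 2) -
          ((x i).2 + 0 / 2) ^ 2 = 2 * (x i).2 * ((x' i).2 + ε) - (x i).2 ^ 2 := by
        field_simp
        ring
      rw [h5] at h4
      exact h4.mono_left nhdsWithin_le_nhds
    exact ge_of_tendsto h3 (h1 ε hε)
  -- `ε → 0`
  have h3 : Tendsto (fun ε : ℝ => (∑ i, π * (2 * (x i).2 * ((x' i).2 + ε) - (x i).2 ^ 2)) -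
      ∑ i, π * (x' i).2 ^ 2) (𝓝[>] 0)
      (𝓝 ((∑ i, π * (2 * (x i).2 * ((x' i).2 + 0) - (x i).2 ^ 2)) -
      ∑ i, π * (x' i).2 ^ 2)) := by
    apply Tendsto.mono_left _ nhdsWithin_le_nhds
    apply Continuous.tendsto (f := fun ε : ℝ =>
      (∑ i, π * (2 * (x i).2 * ((x' i).2 + ε) - (x i).2 ^ 2)) - ∑ i, π * (x' i).2 ^ 2)
    fun_prop
  have h4 := ge_of_tendsto h3 (eventually_mem_nhdsWithin.mono fun ε hε => h2 ε hε)
  refine h4.trans ?_
  rw [← Finset.sum_sub_distrib]
  apply Finset.sum_nonpos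
  intro i _
  have : π * (2 * (x i).2 * ((x' i).2 + 0) - (x i).2 ^ 2) - π * (x' i).2 ^ 2 =
      -(π * ((x i).2 - (x' i).2) ^ 2) := by ring
  rw [this]
  exact neg_nonpos.2 (by positivity)

theorem discs_sphere_closure (hx : x ∈ X n) {i : Fin n} {z : ℂ}
    (hz : z ∈ sphere (x i).1 (x i).2) : z ∈ closure (dom (discs x)) := by
  have hr := hx.1 i
  have hzi : z ∈ discs x i := sphere_subset_closedBall hz
  -- the curve `c + (1 + t) (z - c)`
  have h1 : ∀ᶠ t : ℝ in 𝓝[>] 0, (x i).1 + ((1 + t : ℝ) : ℂ) * (z - (x i).1) ∈ dom (discs x) := by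
    have hcont : Tendsto (fun t : ℝ => (x i).1 + ((1 + t : ℝ) : ℂ) * (z - (x i).1)) (𝓝 0)
        (𝓝 z) := by
      have : Continuous fun t : ℝ => (x i).1 + ((1 + t : ℝ) : ℂ) * (z - (x i).1) := by fun_prop
      have h2 := this.tendsto 0
      simpa using h2
    have h3 : ∀ j, j ≠ i → ∀ᶠ t : ℝ in 𝓝[>] 0,
        (x i).1 + ((1 + t : ℝ) : ℂ) * (z - (x i).1) ∉ discs x j := by
      intro j hj
      have h5 : (discs x j)ᶜ ∈ 𝓝 z := (cpt_discs x j).isClosed.isOpen_compl.mem_nhds
        (disjoint_left.1 (hx.2 i j (Ne.symm hj)) hzi)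
      exact (hcont.mono_left nhdsWithin_le_nhds).eventually h5
    have h4 : ∀ᶠ t : ℝ in 𝓝[>] 0, ∀ j, j ≠ i →
        (x i).1 + ((1 + t : ℝ) : ℂ) * (z - (x i).1) ∉ discs x j := by
      rw [eventually_all]; intro j
      by_cases hj : j = i
      · exact Eventually.of_forall fun t h => absurd hj h
      · filter_upwards [h3 j hj] with t ht _ using ht
    filter_upwards [h4, self_mem_nhdsWithin] with t ht ht0
    have ht1 : (0 : ℝ) < t := ht0
    intro hmem
    obtain ⟨j, hj⟩ := mem_iUnion.1 hmem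
    by_cases hji : j = i
    · subst hji
      rw [discs, mem_closedBall, dist_eq_norm, add_sub_cancel_left, norm_mul, norm_real,
        Real.norm_eq_abs, abs_of_pos (by linarith)] at hj
      rw [mem_sphere, dist_eq_norm] at hz
      rw [hz] at hj
      nlinarith
    · exact ht j hji hj
  have hcont : Tendsto (fun t : ℝ => (x i).1 + ((1 + t : ℝ) : ℂ) * (z - (x i).1)) (𝓝[>] 0)
      (𝓝 z) := by
    apply Tendsto.mono_left _ nhdsWithin_le_nhds
    have : Continuous fun t : ℝ => (x i).1 + ((1 + t : ℝ) : ℂ) * (z - (x i).1) := by fun_prop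
    have h2 := this.tendsto 0
    simpa using h2
  exact mem_closure_of_tendsto hcont h1

theorem closedBall_inj {c c' : ℂ} {r r' : ℝ} (hr : 0 < r) (hr' : 0 < r')
    (h : closedBall c r = closedBall c' r') : c = c' ∧ r = r' := by
  have key : ∀ {c c' : ℂ} {r r' : ℝ}, 0 < r → closedBall c r ⊆ closedBall c' r' →
      dist c c' + r ≤ r' := by
    intro c c' r r' hr hs
    by_cases hcc : c = c'
    · subst hcc
      have h1 : c + (r : ℂ) ∈ closedBall c r := by
        rw [mem_closedBall, dist_eq_norm, add_sub_cancel_left, norm_real, Real.norm_eq_abs,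
          abs_of_pos hr]
      have h2 := hs h1
      rw [mem_closedBall, dist_eq_norm, add_sub_cancel_left, norm_real, Real.norm_eq_abs,
          abs_of_pos hr] at h2
      simpa using h2
    · have hn : 0 < ‖c - c'‖ := norm_pos_iff.2 (sub_ne_zero.2 hcc)
      have h1 : c + ((r / ‖c - c'‖ : ℝ) : ℂ) * (c - c') ∈ closedBall c r := by
        rw [mem_closedBall, dist_eq_norm, add_sub_cancel_left, norm_mul, norm_real,
          Real.norm_eq_abs, abs_of_pos (div_pos hr hn), div_mul_cancel₀ _ hn.ne']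
      have h2 := hs h1
      have h3 : c + ((r / ‖c - c'‖ : ℝ) : ℂ) * (c - c') - c' =
          ((1 + r / ‖c - c'‖ : ℝ) : ℂ) * (c - c') := by push_cast; ring
      rw [mem_closedBall, dist_eq_norm, h3, norm_mul, norm_real, Real.norm_eq_abs,
        abs_of_pos (by positivity), add_mul, one_mul, div_mul_cancel₀ _ hn.ne'] at h2
      rw [dist_eq_norm]
      exact h2
  have h1 := key hr h.subset
  have h2 := key hr' h.symm.subset
  rw [dist_comm] at h2
  have h3 := dist_nonneg (x := c) (y := c')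
  have h4 : dist c c' = 0 := by linarith
  exact ⟨dist_eq_zero.1 h4, by linarith⟩

/-- (F3b) uniqueness for disc domains -/
theorem uniqDisc : UniqDisc := by
  intro n x x' hx hx' f hf
  have hU : IsOpen (dom (discs x)) := isOpen_dom (cpt_discs x)
  have hUc : IsPreconnected (dom (discs x)) := (fam_discs hx).compl
  have hdc : ContinuousOn (deriv f) (dom (discs x)) := (hf.sig.hol.deriv hU).continuousOn
  -- the derivative is one
  have h1 : ∀ z ∈ dom (discs x), deriv f z = 1 := by
    intro z0 hz0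
    obtain ⟨ρ, hρ, hsub⟩ := Metric.nhds_basis_closedBall.mem_iff.1 (hU.mem_nhds hz0)
    have hL := energy_le hx hx' hf (isCompact_closedBall z0 ρ) hsub
    have hFc : ContinuousOn (fun z => ‖deriv f z - 1‖ ^ 2) (closedBall z0 ρ) :=
      ((hdc.mono hsub).sub continuousOn_const).norm.pow 2
    have hFi : IntegrableOn (fun z => ‖deriv f z - 1‖ ^ 2) (closedBall z0 ρ) :=
      hFc.integrableOn_compact (isCompact_closedBall z0 ρ)
    have h0 : ∫ z in closedBall z0 ρ, ‖deriv f z - 1‖ ^ 2 = 0 :=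
      le_antisymm hL (integral_nonneg fun z => by positivity)
    have h2 := (setIntegral_eq_zero_iff_of_nonneg_ae
      (Eventually.of_forall fun z => by positivity) hFi).1 h0
    have h3 : (fun z => ‖deriv f z - 1‖ ^ 2) =ᵐ[volume.restrict (ball z0 ρ)] fun _ => (0 : ℝ) :=
      ae_restrict_of_ae_restrict_of_subset ball_subset_closedBall h2
    have h4 := Measure.eqOn_open_of_ae_eq h3 isOpen_ball (hFc.mono ball_subset_closedBall)
      continuousOn_const (mem_ball_self hρ)
    simp only at h4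
    have h5 : ‖deriv f z0 - 1‖ = 0 := by
      rcases pow_eq_zero_iff (two_ne_zero) |>.1 h4 with h; exact h
    exact sub_eq_zero.1 (norm_eq_zero.1 h5)
  -- `f - id` is constant, hence zero
  have hgd : DifferentiableOn ℂ (fun z => f z - z) (dom (discs x)) :=
    hf.sig.hol.sub differentiableOn_id
  have hg' : (dom (discs x)).EqOn (deriv fun z => f z - z) 0 := by
    intro z hz
    have h2 : HasDerivAt (fun z => f z - z) (deriv f z - 1) z :=
      ((hf.sig.hol.differentiableAt (hU.mem_nhds hz)).hasDerivAt).sub (hasDerivAt_id z)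
    rw [h2.deriv, h1 z hz, sub_self]; rfl
  obtain ⟨a, ha⟩ := hU.exists_is_const_of_deriv_eq_zero hUc hgd hg'
  have ha0 : a = 0 := by
    have h2 : Tendsto (fun z => f z - z) (cocompact ℂ) (𝓝 a) :=
      tendsto_const_nhds.congr' ((dom_cocompact (cpt_discs x)).mono fun z hz => (ha z hz).symm)
    exact tendsto_nhds_unique h2 hf.sig.inf
  have hid : ∀ z ∈ dom (discs x), f z = z := fun z hz => by
    have := ha z hz
    rw [ha0] at this
    exact sub_eq_zero.1 this
  have hsub : ∀ i, discs x i ⊆ discs x' i := by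
    intro i
    rw [discs, ← convexHull_sphere_eq_closedBall _ (hx.1 i).le]
    apply convexHull_min _ (convex_closedBall _ _)
    intro z hz
    exact sub_of_id hf (cpt_discs x') hid i (sphere_subset_closedBall hz)
      (discs_sphere_closure hx hz)
  have hdom : dom (discs x) = dom (discs x') := by
    rw [← hf.img]
    ext z
    constructor
    · intro h; exact ⟨z, h, hid z h⟩
    · rintro ⟨w, hw, rfl⟩; rw [hid w hw]; exact hw
  have hun : ⋃ i, discs x i = ⋃ i, discs x' i := by
    have := congrArg compl hdom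
    rwa [compl_dom, compl_dom] at this
  funext i
  have heq : discs x i = discs x' i := by
    refine Subset.antisymm (hsub i) fun z h => ?_
    have h2 : z ∈ ⋃ j, discs x j := by rw [hun]; exact mem_iUnion.2 ⟨i, h⟩
    obtain ⟨j, hj⟩ := mem_iUnion.1 h2
    by_cases hij : i = j
    · rw [hij]; exact hj
    · exact absurd (hsub j hj) (disjoint_left.1 (hx'.2 i j hij) h)
  obtain ⟨e1, e2⟩ := closedBall_inj (hx.1 i) (hx'.1 i) heq
  exact Prod.ext e1 e2

end Crest.Agent.R105.Fk_286
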