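import Crest.Agent.R105.FK1_644
import Crest.Agent.R105.Iod1_690

/-!
# Row 105, finite Koebe (helper644), part 2

* `lab`      : every `f ∈ Sig (dom K)` is a labelled map onto a finite family (`Fam K'`)
* `fk_of`    : the continuity method: `Slit`, `UniqSlit`, `UniqDisc`, `Prop4`, `Cont4`, `ConnY`
               imply `FK`
-/

set_option autoImplicit false

open Set Filter Topology Metric Complex

namespace Crest.Agent.R105.FK_644

open Crest.AnalysisR

/-- a compact set of the plane with more than one point has two distinct frontier points. -/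
theorem frontier_nontrivial {K : Set ℂ} (hK : IsCompact K) (hn : K.Nontrivial) :
    (frontier K).Nontrivial := by
  obtain ⟨a, ha, b, hb, hab⟩ := hn
  set v : ℂ := b - a with hv
  have hv0 : v ≠ 0 := sub_ne_zero.2 hab.symm
  set l : ℂ → ℝ := fun z => z.re * v.re + z.im * v.im with hl
  have hlc : Continuous l := by fun_prop
  have hlv : 0 < v.re * v.re + v.im * v.im := by
    have h1 := Complex.normSq_pos.2 hv0
    rwa [Complex.normSq_apply] at h1
  have hlab : l a < l b := by
    have h1 : l b - l a = v.re * v.re + v.im * v.im := by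
      simp only [hl, hv, Complex.sub_re, Complex.sub_im]
      ring
    linarith
  obtain ⟨p, hp, hpm⟩ := hK.exists_isMaxOn ⟨a, ha⟩ hlc.continuousOn
  obtain ⟨q, hq, hqm⟩ := hK.exists_isMinOn ⟨a, ha⟩ hlc.continuousOn
  have hadd : ∀ (z : ℂ) (t : ℝ), l (z + (t : ℂ) * v) = l z + t * (v.re * v.re + v.im * v.im) := by
    intro z t
    simp only [hl, Complex.add_re, Complex.add_im, Complex.re_ofReal_mul, Complex.im_ofReal_mul]
    ring
  have key : ∀ (z : ℂ) (s : ℝ), s ≠ 0 → z ∈ K → (∀ t : ℝ, 0 < t → z + ((s * t : ℝ) : ℂ) * v ∉ K) →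
      z ∈ frontier K := by
    intro z s _ hz ht
    rw [frontier, hK.isClosed.closure_eq]
    refine ⟨hz, fun hint => ?_⟩
    have hc : Continuous fun t : ℝ => z + ((s * t : ℝ) : ℂ) * v := by fun_prop
    have h0 : z + ((s * 0 : ℝ) : ℂ) * v = z := by simp
    have h1 : ∀ᶠ t in 𝓝 (0:ℝ), z + ((s * t : ℝ) : ℂ) * v ∈ K := by
      have h2 := hc.continuousAt (x := 0)
      rw [ContinuousAt, h0] at h2
      exact h2.eventually (mem_interior_iff_mem_nhds.1 hint)
    have h3 : ∀ᶠ t in 𝓝[>] (0:ℝ), z + ((s * t : ℝ) : ℂ) * v ∈ K ∧ 0 < t :=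
      (h1.filter_mono nhdsWithin_le_nhds).and self_mem_nhdsWithin
    obtain ⟨t, ht1, ht2⟩ := h3.exists
    exact ht t ht2 ht1
  refine ⟨p, key p 1 one_ne_zero hp ?_, q, key q (-1) (by norm_num) hq ?_, ?_⟩
  · intro t ht hmem
    have h1 : l _ ≤ l p := hpm hmem
    rw [hadd] at h1
    have : 0 < (1 * t) * (v.re * v.re + v.im * v.im) := by positivity
    linarith
  · intro t ht hmem
    have h1 : l q ≤ l _ := hqm hmem
    rw [hadd] at h1
    have : 0 < t * (v.re * v.re + v.im * v.im) := by positivity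
    nlinarith
  · rintro rfl
    have h1 : l b ≤ l p := hpm hb
    have h2 : l p ≤ l a := hqm ha
    linarith

section

variable {ι : Type*} [Finite ι] {K : ι → Set ℂ} {f : ℂ → ℂ}

/-- **labelling**: every normalised conformal map of `dom K` is a labelled map onto `dom K'`. -/
theorem lab (hK : Fam K) (h : Sig (dom K) f) : ∃ K', Fam K' ∧ LMap K K' f := by
  classical
  have hU := hK.exterior
  have hE := h.endMap hU
  have hV := hE.hV
  choose z hz using fun i => (hK.conn i).nonempty
  choose ζ hζ he using fun i => hE.exists_end (not_mem_dom' (hz i))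
  set V := f '' dom K with hVdef
  set K' : ι → Set ℂ := fun i => connectedComponentIn Vᶜ (ζ i) with hK'
  have hdisj : ∀ i j, i ≠ j → Disjoint (K' i) (K' j) := by
    intro i j hij
    rw [disjoint_left]
    intro w hw hw'
    have h1 : connectedComponentIn Vᶜ (ζ i) = connectedComponentIn Vᶜ (ζ j) :=
      (connectedComponentIn_eq hw).trans (connectedComponentIn_eq hw').symm
    have h2 : map f (Ends_897.eF (dom K) (z i)) = map f (Ends_897.eF (dom K) (z j)) := by
      rw [he, he, Ends_897.eF_congr h1]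
    have h3 := hE.map_injective (not_mem_dom' (hz i)) h2
    rw [hK.cc_eq (hz i), hK.cc_eq (hz j)] at h3
    have h4 := hK.disj i j hij
    rw [h3] at h4
    exact (hK.conn j).nonempty.ne_empty (disjoint_self.1 h4)
  have hdom : dom K' = V := by
    rw [dom, compl_eq_comm]
    apply Subset.antisymm
    · intro w hw
      obtain ⟨z', hz', he'⟩ := hE.exists_end' hw
      obtain ⟨i, hi⟩ := not_mem_dom hz'
      have h1 : Ends_897.eF (dom K) z' = Ends_897.eF (dom K) (z i) := by
        rw [hK.eF_eq hi, hK.eF_eq (hz i)]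
      rw [h1, he] at he'
      have h2 := Ends_897.eF_injective hV (hζ i) he'
      refine mem_iUnion.2 ⟨i, ?_⟩
      show w ∈ connectedComponentIn Vᶜ (ζ i)
      rw [h2]
      exact mem_connectedComponentIn hw
    · refine iUnion_subset fun i => ?_
      exact connectedComponentIn_subset _ _
  have hlab : ∀ i, map f (𝓝ˢ (K i) ⊓ 𝓟 (dom K)) = 𝓝ˢ (K' i) ⊓ 𝓟 V := by
    intro i
    have := he i
    rwa [hK.eF_eq (hz i)] at this
  have hcpt : ∀ i, IsCompact (K' i) := fun i =>
    Ends_897.isCompact_cc (Ends_897.isCompact_compl hV) _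
  -- nontriviality: removable singularity
  have hnt : ∀ i, (K' i).Nontrivial := by
    intro i
    by_contra hnot
    rw [not_nontrivial_iff] at hnot
    have hζi : ζ i ∈ K' i := mem_connectedComponentIn (hζ i)
    have hKi : K' i = {ζ i} := hnot.eq_singleton_of_mem hζi
    have hVo : IsOpen V := hV.1
    -- the punctured neighbourhood filter
    have hnb : V ∪ {ζ i} ∈ 𝓝 (ζ i) := by
      have h1 : IsClosed (⋃ j ∈ {j | j ≠ i}, K' j) :=
        (toFinite {j | j ≠ i}).isClosed_biUnion fun j _ => (hcpt j).isClosed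
      have h2 : ζ i ∉ ⋃ j ∈ {j | j ≠ i}, K' j := by
        intro h
        obtain ⟨j, hj, hm⟩ := mem_iUnion₂.1 h
        exact disjoint_left.1 (hdisj j i hj) hm hζi
      filter_upwards [h1.isOpen_compl.mem_nhds h2] with w hw
      by_cases hwV : w ∈ V
      · exact Or.inl hwV
      · right
        rw [← hdom] at hwV
        obtain ⟨j, hj⟩ := not_mem_dom hwV
        by_cases hji : j = i
        · rw [hji, hKi] at hj; exact hj
        · exact absurd (mem_biUnion hji hj) hw
    have hfil : 𝓝[≠] (ζ i) = 𝓝ˢ (K' i) ⊓ 𝓟 V := by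
      rw [hKi, nhdsSet_singleton, nhdsWithin]
      apply le_antisymm
      · refine le_inf inf_le_left ?_
        rw [le_principal_iff]
        filter_upwards [mem_inf_of_left hnb, mem_inf_of_right (mem_principal_self _)] with w h1 h2
        exact h1.resolve_right h2
      · refine inf_le_inf_left _ (principal_mono.2 fun w hw hw' => ?_)
        rw [mem_singleton_iff] at hw'
        rw [hw'] at hw
        exact hζ i hw
    obtain ⟨R, hR, hRU⟩ := Uni231.exists_Ext_subset hU
    obtain ⟨g, hg, hgim, hgf, hfg⟩ := h.toU.exists_inverse hU.1 hR hRU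
    have hgmap : map g (𝓝[≠] (ζ i)) = 𝓝ˢ (K i) ⊓ 𝓟 (dom K) := by
      rw [hfil, ← hlab i, map_map]
      have h1 : (g ∘ f) =ᶠ[𝓝ˢ (K i) ⊓ 𝓟 (dom K)] id := by
        filter_upwards [mem_inf_of_right (mem_principal_self (dom K))] with z hz using hgf z hz
      rw [map_congr h1, map_id]
    have hd : ∀ᶠ w in 𝓝[≠] (ζ i), DifferentiableAt ℂ g w := by
      rw [hfil]
      filter_upwards [mem_inf_of_right (mem_principal_self V)] with w hw
      exact (hg.diff w hw).differentiableAt (hVo.mem_nhds hw)
    have hb : IsBoundedUnder (· ≤ ·) (𝓝[≠] (ζ i)) fun w => ‖g w - g (ζ i)‖ := by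
      obtain ⟨C, hC⟩ := (hK.cpt i).isBounded.exists_norm_le
      have hO : ball (0:ℂ) (C + 1) ∈ 𝓝ˢ (K i) := isOpen_ball.mem_nhdsSet.2 fun w hw => by
        rw [mem_ball_zero_iff]; linarith [hC w hw]
      have h1 : ∀ᶠ w in 𝓝[≠] (ζ i), g w ∈ ball (0:ℂ) (C + 1) := by
        have : Tendsto g (𝓝[≠] (ζ i)) (𝓝ˢ (K i)) := by
          rw [Tendsto, hgmap]; exact inf_le_left
        exact this hO
      refine ⟨C + 1 + ‖g (ζ i)‖, ?_⟩
      rw [eventually_map]
      filter_upwards [h1] with w hw
      rw [mem_ball_zero_iff] at hw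
      linarith [norm_sub_le (g w) (g (ζ i))]
    have hlim := Complex.tendsto_limUnder_of_differentiable_on_punctured_nhds_of_bounded_under hd hb
    rw [Tendsto, hgmap] at hlim
    set z0 := limUnder (𝓝[≠] (ζ i)) g with hz0
    -- all frontier points of `K i` are equal to `z0`
    have hall : ∀ x ∈ frontier (K i), x = z0 := by
      intro x hx
      have hx' : x ∈ frontier (connectedComponentIn (dom K)ᶜ (z i)) := by
        rwa [hK.cc_eq (hz i)]
      have h1 := Ends_897.clusterPt_eF_of_frontier hU hx'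
      rw [hK.eF_eq (hz i)] at h1
      by_contra hne
      have h2 : Disjoint (𝓝 x) (𝓝 z0) := disjoint_nhds_nhds.2 hne
      have h3 : (𝓝 x ⊓ (𝓝ˢ (K i) ⊓ 𝓟 (dom K))).NeBot := h1
      exact h3.ne (eq_bot_iff.2 ((inf_le_inf_left _ hlim).trans h2.eq_bot.le))
    obtain ⟨x1, hx1, x2, hx2, hne⟩ := frontier_nontrivial (hK.cpt i) (hK.nt i)
    exact hne ((hall x1 hx1).trans (hall x2 hx2).symm)
  refine ⟨K', ⟨hcpt, fun i => isConnected_connectedComponentIn_iff.2 (hζ i), hnt, hdisj, ?_⟩,
    ⟨h, hdom.symm, fun i => ?_⟩⟩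
  · rw [hdom]; exact hV.2.1.isPreconnected
  · rw [Tendsto, hlab i]; exact inf_le_left

end

end Crest.Agent.R105.FK_644
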