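import Mathlib
import Crest.Agent.R105.Lim3_107
import Crest.Agent.R105.FK2_644

/-!
Row 105 (helper107), limits of labelled maps, part 4: `gen`, `cont4 : Cont4`, `prop4 : Prop4`.
-/

set_option autoImplicit false

open Set Filter Topology Metric Complex

namespace Crest.Agent.R105.Lim_107

open Crest.AnalysisR Crest.Agent.R105.FK_644

variable {S T : ℂ × ℝ → Set ℂ} {n : ℕ}

theorem Shape.bound (hS : Shape S) : ∃ C : ℝ, 0 ≤ C ∧ ∀ q : ℂ × ℝ, 0 ≤ q.2 → ∀ w ∈ S q,
    ‖w‖ ≤ (1 + C) * ‖q‖ := by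
  obtain ⟨C, hC⟩ := (hS.cpt (0, 1)).isBounded.exists_norm_le
  refine ⟨max C 0, le_max_right _ _, fun q hq w hw => ?_⟩
  obtain ⟨u, hu, hu2⟩ := hS.lower q hq w hw
  have h1 := hu2 (0, 1) zero_le_one
  simp only [zero_add, Complex.ofReal_one, one_mul] at h1
  have h2 := (hC u h1).trans (le_max_left C 0)
  have h3 : ‖q.1‖ ≤ ‖q‖ := norm_fst_le q
  have h4 : ‖q.2‖ ≤ ‖q‖ := norm_snd_le q
  have h5 : ‖(q.2 : ℂ) * u‖ ≤ ‖q‖ * max C 0 := by
    rw [norm_mul, Complex.norm_real]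
    exact mul_le_mul h4 h2 (norm_nonneg _) (norm_nonneg _)
  calc ‖w‖ = ‖q.1 + q.2 * u‖ := by rw [hu]
    _ ≤ ‖q.1‖ + ‖(q.2 : ℂ) * u‖ := norm_add_le _ _
    _ ≤ ‖q‖ + ‖q‖ * max C 0 := by linarith
    _ = _ := by ring

theorem isOpen_domS (hT : Shape T) (y : Fin n → ℂ × ℝ) : IsOpen (dom fun i => T (y i)) := by
  unfold dom
  exact (isClosed_iUnion_of_finite fun i => (hT.cpt _).isClosed).isOpen_compl

/-- limits of labelled maps between configurations of shapes -/
theorem gen (hS : Shape S) (hT : Shape T) {x y : ℕ → Fin n → ℂ × ℝ} {F : ℕ → ℂ → ℂ}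
    (hx0 : ∀ k i, 0 ≤ (x k i).2) (hy0 : ∀ k i, 0 ≤ (y k i).2)
    (hFx : ∀ k, Fam fun i => S (x k i)) (hFy : ∀ k, Fam fun i => T (y k i))
    (hF : ∀ k, LMap (fun i => S (x k i)) (fun i => T (y k i)) (F k))
    {x' : Fin n → ℂ × ℝ} (hx0' : ∀ i, 0 ≤ (x' i).2) (hFx' : Fam fun i => S (x' i))
    (hx : Tendsto x atTop (𝓝 x')) :
    ∃ y' : Fin n → ℂ × ℝ, (∀ i, 0 < (y' i).2) ∧ Fam (fun i => T (y' i)) ∧
      (∃ φ : ℕ → ℕ, StrictMono φ ∧ Tendsto (y ∘ φ) atTop (𝓝 y')) ∧
      ∃ g, LMap (fun i => S (x' i)) (fun i => T (y' i)) g := by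
  classical
  set p : Ultrafilter ℕ := Ultrafilter.of atTop with hp
  have hp_le : (p : Filter ℕ) ≤ atTop := Ultrafilter.of_le atTop
  have hxp : Tendsto x p (𝓝 x') := hx.mono_left hp_le
  -- a common radius
  obtain ⟨C, hC0, hC⟩ := hS.bound
  obtain ⟨M, hM⟩ := hx.norm.bddAbove_range
  have hMk : ∀ k, ‖x k‖ ≤ M := fun k => hM ⟨k, rfl⟩
  have hM0 : 0 ≤ M := (norm_nonneg _).trans (hMk 0)
  have hM' : ‖x'‖ ≤ M := le_of_tendsto hx.norm (Eventually.of_forall hMk)
  set R : ℝ := (1 + C) * M + 1 with hR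
  have hR0 : 0 < R := by positivity
  have hbd : ∀ z : Fin n → ℂ × ℝ, (∀ i, 0 ≤ (z i).2) → ‖z‖ ≤ M → ∀ w, R < ‖w‖ →
      w ∈ dom fun i => S (z i) := by
    intro z hz hzM w hw hmem
    obtain ⟨i, hi⟩ := mem_iUnion.1 hmem
    have h1 := hC (z i) (hz i) w hi
    have h2 : ‖z i‖ ≤ M := (norm_le_pi_norm z i).trans hzM
    have h3 : (1 + C) * ‖z i‖ ≤ (1 + C) * M := by gcongr
    linarith
  have hUR : ∀ k z, R < ‖z‖ → z ∈ dom fun i => S (x k i) := fun k => hbd (x k) (hx0 k) (hMk k)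
  have hUR' : ∀ z, R < ‖z‖ → z ∈ dom fun i => S (x' i) := hbd x' hx0' hM'
  -- `y` is bounded
  have hTb : ∀ k i, ∀ w ∈ T (y k i), ‖w‖ ≤ 33 * R := by
    intro k i w hw
    have h1 : Sig731.Sig (dom fun i => S (x k i)) (F k) :=
      ⟨(hF k).sig.hol, (hF k).sig.inj, (hF k).sig.inf⟩
    have h2 : w ∈ (F k '' (dom fun i => S (x k i)))ᶜ := by
      rw [(hF k).img]
      intro h
      exact h (mem_iUnion.2 ⟨i, hw⟩)
    have h3 := h1.compl_subset hR0 (hUR k) h2
    rwa [mem_closedBall_zero_iff] at h3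
  have hyb : ∀ k, y k ∈ closedBall (0 : Fin n → ℂ × ℝ) (66 * R) := by
    intro k
    rw [mem_closedBall_zero_iff, pi_norm_le_iff_of_nonneg (by positivity)]
    intro i
    have h1 := hTb k i _ (hT.base _ (hy0 k i))
    have h2 := hTb k i _ (hT.tip _ (hy0 k i))
    rw [Prod.norm_def]
    refine max_le (by linarith) ?_
    have h3 : ((y k i).2 : ℂ) = ((y k i).1 + ((y k i).2 : ℂ)) - (y k i).1 := by ring
    have h4 : ‖((y k i).2 : ℂ)‖ ≤ 33 * R + 33 * R := by
      rw [h3]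
      exact (norm_sub_le _ _).trans (add_le_add h2 h1)
    rw [Complex.norm_real] at h4
    linarith
  obtain ⟨y', -, hy'⟩ := (isCompact_closedBall (0 : Fin n → ℂ × ℝ) (66 * R)).ultrafilter_le_nhds
    (p.map y) (by
      rw [Ultrafilter.coe_map, le_principal_iff, mem_map]
      exact Filter.univ_mem' hyb)
  rw [Ultrafilter.coe_map] at hy'
  have hyp : Tendsto y p (𝓝 y') := hy'
  have hypi : ∀ i, Tendsto (fun k => y k i) p (𝓝 (y' i)) := fun i =>
    ((continuous_apply i).tendsto _).comp hyp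
  have hxpi : ∀ i, Tendsto (fun k => x k i) p (𝓝 (x' i)) := fun i =>
    ((continuous_apply i).tendsto _).comp hxp
  have hy0' : ∀ i, 0 ≤ (y' i).2 := by
    intro i
    exact ge_of_tendsto ((continuous_snd.tendsto _).comp (hypi i))
      (Eventually.of_forall fun k => hy0 k i)
  have hsub : ∃ φ : ℕ → ℕ, StrictMono φ ∧ Tendsto (y ∘ φ) atTop (𝓝 y') := by
    have h1 : MapClusterPt y' atTop y := mapClusterPt_iff_ultrafilter.2 ⟨p, hp_le, hyp⟩
    exact h1.tendsto_subseq
  -- the inverse maps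
  have hinv : ∀ k, ∃ g, LMap (fun i => T (y k i)) (fun i => S (x k i)) g ∧
      (∀ z ∈ dom (fun i => S (x k i)), g (F k z) = z) ∧
      ∀ w ∈ dom (fun i => T (y k i)), F k (g w) = w := fun k => (hF k).symm (hFx k) (hFy k)
  choose H hH hHF hFH using hinv
  -- the limit domain
  set V' : Set ℂ := dom fun i => T (y' i) with hV'
  have hV'o : IsOpen V' := isOpen_domS hT y'
  have hVR : ∀ k z, 33 * R < ‖z‖ → z ∈ dom fun i => T (y k i) := by
    intro k z hz hmem
    obtain ⟨i, hi⟩ := mem_iUnion.1 hmem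
    have := hTb k i z hi
    linarith
  have hVR' : ∀ z, 33 * R < ‖z‖ → z ∈ V' := by
    intro z hz hmem
    obtain ⟨i, hi⟩ := mem_iUnion.1 hmem
    obtain ⟨v, hv, hvz⟩ := hT.lsc (fun k => hy0 k i) (hy0' i) (hypi i) hi
    have h1 : ‖z‖ ≤ 33 * R := le_of_tendsto hvz.norm (Eventually.of_forall fun k =>
      hTb k i _ (hv k))
    linarith
  set z₀ : ℂ := ((33 * R + 1 : ℝ) : ℂ) with hz₀
  have hz₀n : 33 * R < ‖z₀‖ := by
    rw [hz₀, Complex.norm_real, Real.norm_eq_abs, abs_of_pos (by positivity)]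
    linarith
  set V : Set ℂ := connectedComponentIn V' z₀ with hV
  have hVV' : V ⊆ V' := connectedComponentIn_subset _ _
  have hVo : IsOpen V := hV'o.connectedComponentIn
  have hVfar : ∀ z, 33 * R < ‖z‖ → z ∈ V := by
    have h1 : IsPreconnected {w : ℂ | 33 * R < ‖w‖} :=
      Ends_897.isPreconnected_norm_gt (by positivity)
    intro z hz
    exact h1.subset_connectedComponentIn hz₀n (fun w hw => hVR' w hw) hz
  have hVe : IsExteriorDomain V := by
    refine ⟨hVo, isConnected_connectedComponentIn_iff.2 (hVR' _ hz₀n), 33 * R, hVfar⟩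
  -- connected subsets of `V'` meeting `V` are contained in `V`
  have hVc : ∀ s : Set ℂ, IsPreconnected s → s ⊆ V' → ∀ b ∈ s, b ∈ V → s ⊆ V := by
    intro s hs hsV b hb hbV
    have h1 : V = connectedComponentIn V' b := connectedComponentIn_eq hbV
    rw [h1]
    exact hs.subset_connectedComponentIn hb hsV
  -- limits
  have hexU : Exh p (fun k => dom fun i => S (x k i)) (dom fun i => S (x' i)) := hS.exh hx0 hxp
  have hexV : Exh p (fun k => dom fun i => T (y k i)) V := (hT.exh hy0 hyp).mono hVV' hVo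
  obtain ⟨f, hf, hfl⟩ := sig_limit (p := p) hFx'.exterior hR0 hUR hUR' hexU
    (fun k => (hF k).sig)
  obtain ⟨h, hh, hhl⟩ := sig_limit (p := p) hVe (R := 33 * R) (by positivity) hVR hVfar hexV
    (fun k => (hH k).sig)
  have hfT : ∀ i, ∀ w ∈ T (y' i), w ∉ f '' (dom fun i => S (x' i)) := by
    intro i w hw
    obtain ⟨v, hv, hvw⟩ := hT.lsc (fun k => hy0 k i) (hy0' i) (hypi i) hw
    refine kernel hFx'.exterior hexU (fun k => (hF k).sig) hf hfl (Eventually.of_forall fun k => ?_)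
      hvw
    rw [(hF k).img]
    intro h
    exact h (mem_iUnion.2 ⟨i, hv k⟩)
  have hhS : ∀ i, ∀ w ∈ S (x' i), w ∉ h '' V := by
    intro i w hw
    obtain ⟨v, hv, hvw⟩ := hS.lsc (fun k => hx0 k i) (hx0' i) (hxpi i) hw
    refine kernel hVe hexV (fun k => (hH k).sig) hh hhl (Eventually.of_forall fun k => ?_) hvw
    rw [(hH k).img]
    intro h
    exact h (mem_iUnion.2 ⟨i, hv k⟩)
  have hfV : f '' (dom fun i => S (x' i)) ⊆ V := by
    have h1 : f '' (dom fun i => S (x' i)) ⊆ V' := by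
      intro w hw hmem
      obtain ⟨i, hi⟩ := mem_iUnion.1 hmem
      exact hfT i w hi hw
    have h2 : IsPreconnected (f '' (dom fun i => S (x' i))) :=
      hFx'.exterior.2.1.isPreconnected.image _ hf.hol.continuousOn
    obtain ⟨r, hr, hrf⟩ := Sig731.eventually_norm_gt hf.inf (33 * R)
    set b : ℂ := ((max r R + 1 : ℝ) : ℂ) with hb
    have hbn : max r R < ‖b‖ := by
      have : 0 < max r R := lt_of_lt_of_le hr (le_max_left _ _)
      rw [hb, Complex.norm_real, Real.norm_eq_abs, abs_of_pos (by positivity)]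
      linarith
    exact hVc _ h2 h1 (f b) ⟨b, hUR' b (lt_of_le_of_lt (le_max_right _ _) hbn), rfl⟩
      (hVfar _ (hrf b (lt_of_le_of_lt (le_max_left _ _) hbn)))
  have hhU : h '' V ⊆ dom fun i => S (x' i) := by
    intro w hw hmem
    obtain ⟨i, hi⟩ := mem_iUnion.1 hmem
    exact hhS i w hi hw
  have hfh : ∀ w ∈ V, f (h w) = w := by
    intro w hw
    exact comp_limit (U := fun k => dom fun i => T (y k i)) hFx'.exterior.1 hf.hol.continuousOn
      hexV hhl hfl (fun k z hz => hFH k z hz) hw (hhU ⟨w, hw, rfl⟩)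
  have himg : f '' (dom fun i => S (x' i)) = V := by
    apply hfV.antisymm
    intro w hw
    exact ⟨h w, hhU ⟨w, hw, rfl⟩, hfh w hw⟩
  obtain ⟨L', hL', hfL⟩ := lab hFx' hf
  have hdomL : dom L' = V := by rw [← hfL.img, himg]
  -- frontier points
  have hfr : ∀ i, frontier (L' i) ⊆ T (y' i) := by
    intro i w hw
    have hwL : w ∈ L' i := (hL'.cpt i).isClosed.frontier_subset hw
    obtain ⟨j, hj⟩ : ∃ j, w ∈ T (y' j) := by
      by_contra hcon
      push Not at hcon
      have hwV' : w ∈ V' := by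
        intro hmem
        obtain ⟨j, hj⟩ := mem_iUnion.1 hmem
        exact hcon j hj
      have h3 : ∀ᶠ u in 𝓝 w, ∀ m, m ≠ i → u ∉ L' m := by
        rw [eventually_all]
        intro m
        by_cases hm : m = i
        · exact Eventually.of_forall fun w h => absurd hm h
        · have hqm : w ∉ L' m := fun h => (Set.disjoint_left.1 (hL'.disj m i hm)) h hwL
          filter_upwards [(hL'.cpt m).isClosed.isOpen_compl.mem_nhds hqm] with w hw _ using hw
      obtain ⟨r, hr, hrw⟩ := Metric.eventually_nhds_iff_ball.1 (h3.and (hV'o.mem_nhds hwV'))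
      have h4 : ∃ b ∈ ball w r, b ∉ L' i := by
        rw [frontier_eq_closure_inter_closure] at hw
        obtain ⟨b, hb1, hb2⟩ := mem_closure_iff.1 hw.2 _ isOpen_ball (mem_ball_self hr)
        exact ⟨b, hb1, hb2⟩
      obtain ⟨b, hb, hbL⟩ := h4
      have hbV : b ∈ V := by
        rw [← hdomL]
        intro hmem
        obtain ⟨m, hm⟩ := mem_iUnion.1 hmem
        by_cases hmi : m = i
        · subst hmi; exact hbL hm
        · exact (hrw b hb).1 m hmi hm
      have h5 := hVc (ball w r) (convex_ball w r).isPreconnected (fun u hu => (hrw u hu).2) b hb hbV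
        (mem_ball_self hr)
      rw [← hdomL] at h5
      exact h5 (mem_iUnion.2 ⟨i, hwL⟩)
    obtain ⟨v, hv, hvw⟩ := hT.lsc (fun k => hy0 k j) (hy0' j) (hypi j) hj
    have h6 : i = j := label_limit hS hx0 hxp hFx hFx' hFy hF hL' hfL hfl hv hvw hw
    rw [h6]; exact hj
  have hLT : ∀ i, L' i ⊆ T (y' i) := by
    intro i
    refine Ends_897.subset_of_frontier (hL'.cpt i) (preconn_convex (hT.cpt _) (hT.cvx _)) ?_ (hfr i)
    intro hb
    have h1 := (hT.cpt (y' i)).isBounded.union hb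
    rw [union_compl_self] at h1
    exact NormedSpace.unbounded_univ ℝ ℂ h1
  have hTL : ∀ i, T (y' i) ⊆ L' i := by
    intro i
    obtain ⟨w, hw⟩ := (hL'.conn i).nonempty
    have h1 : T (y' i) ⊆ (dom L')ᶜ := by
      intro u hu hud
      rw [hdomL] at hud
      exact hVV' hud (mem_iUnion.2 ⟨i, hu⟩)
    have h2 := (hT.cvx (y' i)).isPreconnected.subset_connectedComponentIn (hLT i hw) h1
    rwa [hL'.cc_eq hw] at h2
  have heq : L' = fun i => T (y' i) := by
    funext i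
    exact (hLT i).antisymm (hTL i)
  rw [heq] at hL' hfL
  exact ⟨y', fun i => hT.pos (hy0' i) (hL'.nt i), hL', hsub, f, hfL⟩

/-- (F4, continuity) -/
theorem cont4 : Cont4 := by
  intro n x y f hx hy hf x' hx' hlim
  obtain ⟨y', h1, h2, ⟨φ, hφ, hφ2⟩, g, hg⟩ := gen (S := discS) (T := slitS) shape_disc shape_slit
    (fun k i => ((hx k).1 i).le) (fun k i => ((hy k).1 i).le) (fun k => fam_discs (hx k))
    (fun k => fam_slits (hy k)) hf (fun i => (hx'.1 i).le) (fam_discs hx') hlim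
  exact ⟨y', ⟨h1, fun i j hij => h2.disj i j hij⟩, φ, hφ, hφ2, g, hg⟩

/-- (F4, properness) -/
theorem prop4 : Prop4 := by
  intro n x y f hx hy hf y' hy' hlim
  have hinv : ∀ k, ∃ g, LMap (slits (y k)) (discs (x k)) g := fun k => by
    obtain ⟨g, hg, -⟩ := (hf k).symm (fam_discs (hx k)) (fam_slits (hy k))
    exact ⟨g, hg⟩
  choose F hF using hinv
  obtain ⟨x', h1, h2, ⟨φ, hφ, hφ2⟩, g, hg⟩ := gen (S := slitS) (T := discS) shape_slit shape_disc
    (fun k i => ((hy k).1 i).le) (fun k i => ((hx k).1 i).le) (fun k => fam_slits (hy k))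
    (fun k => fam_discs (hx k)) hF (fun i => (hy'.1 i).le) (fam_slits hy') hlim
  have hx' : x' ∈ X n := ⟨h1, fun i j hij => h2.disj i j hij⟩
  obtain ⟨g', hg', -⟩ := hg.symm (fam_slits hy') (fam_discs hx')
  exact ⟨x', hx', φ, hφ, hφ2, g', hg'⟩

end Crest.Agent.R105.Lim_107
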