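import Crest.Agent.R105.FK4_644
import Crest.Agent.R105.Fk7_286
import Crest.Agent.R105.Lim4_107
import Crest.Agent.R105.Yn1_107

/-!
# Row 105: the finite Koebe theorem (helper644; leaves by 690, 107, 286)

* `fk : FK`
* `fk_fin`     : the same for any finite index type
* `fk_finset`  : the same for a `Finset` of an arbitrary index type
-/

set_option autoImplicit false

open Set Filter Topology Metric Complex

namespace Crest.Agent.R105.FK_644

open Crest.AnalysisR

/-- **finite Koebe theorem** -/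
theorem fk : FK :=
  fk_of slit Fk_286.uniqSlit' Fk_286.uniqDisc Lim_107.prop4 Lim_107.cont4 Yn_107.connY

/-- finite Koebe theorem, any finite index type -/
theorem fk_fin {ι : Type*} [Finite ι] {K : ι → Set ℂ} (hK : Fam K) :
    ∃ x : ι → ℂ × ℝ, (∀ i, 0 < (x i).2) ∧ (∀ i j, i ≠ j → Disjoint (discs x i) (discs x j)) ∧
      ∃ f, LMap K (discs x) f := by
  obtain ⟨n, ⟨e⟩⟩ := Finite.exists_equiv_fin ι
  have hdom : dom (fun k => K (e.symm k)) = dom K := by
    rw [dom, dom, e.symm.surjective.iUnion_comp]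
  have hK' : Fam (fun k => K (e.symm k)) :=
    ⟨fun k => hK.cpt _, fun k => hK.conn _, fun k => hK.nt _,
      fun i j hij => hK.disj _ _ (fun h => hij (e.symm.injective h)), by
        rw [hdom]; exact hK.compl⟩
  obtain ⟨x, hx, f, hf⟩ := fk n _ hK'
  have hd : discs (fun i => x (e i)) = fun i => discs x (e i) := rfl
  have hdom' : dom (discs fun i => x (e i)) = dom (discs x) := by
    rw [dom, dom, hd, e.surjective.iUnion_comp (fun k => discs x k)]
  refine ⟨fun i => x (e i), fun i => hx.1 _, fun i j hij => hx.2 _ _ fun h => hij (e.injective h),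
    f, ?_, ?_, ?_⟩
  · have := hf.sig
    rwa [hdom] at this
  · have := hf.img
    rw [hdom] at this
    rw [this, hdom']
  · intro i
    have := hf.lab (e i)
    rw [hdom, Equiv.symm_apply_apply] at this
    exact this

/-- finite Koebe theorem for the members `K i`, `i ∈ s`, of a family indexed by any type -/
theorem fk_finset {ι : Type*} (s : Finset ι) {K : ι → Set ℂ}
    (cpt : ∀ i ∈ s, IsCompact (K i)) (conn : ∀ i ∈ s, IsConnected (K i))
    (nt : ∀ i ∈ s, (K i).Nontrivial) (disj : ∀ i ∈ s, ∀ j ∈ s, i ≠ j → Disjoint (K i) (K j))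
    (compl : IsPreconnected (⋃ i ∈ s, K i)ᶜ) :
    ∃ (c : ι → ℂ) (r : ι → ℝ) (f : ℂ → ℂ), (∀ i ∈ s, 0 < r i) ∧
      (∀ i ∈ s, ∀ j ∈ s, i ≠ j → Disjoint (closedBall (c i) (r i)) (closedBall (c j) (r j))) ∧
      Sig (⋃ i ∈ s, K i)ᶜ f ∧
      f '' (⋃ i ∈ s, K i)ᶜ = (⋃ i ∈ s, closedBall (c i) (r i))ᶜ ∧
      ∀ i ∈ s, Tendsto f (𝓝ˢ (K i) ⊓ 𝓟 (⋃ i ∈ s, K i)ᶜ) (𝓝ˢ (closedBall (c i) (r i))) := by
  classical
  have hdom : dom (fun i : s => K i) = (⋃ i ∈ s, K i)ᶜ := by
    rw [dom, iUnion_subtype]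
  have hK : Fam (fun i : s => K i) :=
    ⟨fun i => cpt i i.2, fun i => conn i i.2, fun i => nt i i.2,
      fun i j hij => disj i i.2 j j.2 fun h => hij (Subtype.ext h), by rw [hdom]; exact compl⟩
  obtain ⟨x, hx1, hx2, f, hf⟩ := fk_fin hK
  set c : ι → ℂ := fun i => if h : i ∈ s then (x ⟨i, h⟩).1 else 0 with hc
  set r : ι → ℝ := fun i => if h : i ∈ s then (x ⟨i, h⟩).2 else 0 with hr
  have hcr : ∀ (i : ι) (h : i ∈ s), closedBall (c i) (r i) = discs x ⟨i, h⟩ := by
    intro i h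
    rw [hc, hr, discs]
    simp only [dif_pos h]
  have hdom' : dom (discs x) = (⋃ i ∈ s, closedBall (c i) (r i))ᶜ := by
    rw [dom, iUnion_subtype]
    congr 1
    exact iUnion_congr fun i => iUnion_congr fun h => (hcr i h).symm
  refine ⟨c, r, f, fun i hi => ?_, fun i hi j hj hij => ?_, ?_, ?_, fun i hi => ?_⟩
  · rw [hr]
    simp only [dif_pos hi]
    exact hx1 _
  · rw [hcr i hi, hcr j hj]
    exact hx2 _ _ fun h => hij (congrArg Subtype.val h)
  · rw [← hdom]
    exact hf.sig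
  · rw [← hdom, ← hdom']
    exact hf.img
  · rw [hcr i hi, ← hdom]
    exact hf.lab ⟨i, hi⟩

end Crest.Agent.R105.FK_644
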