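import Mathlib
import Crest.Agent.R105.Cof2_515
import Crest.Agent.R105.Cofa1_917
import Crest.Agent.R105.FK5_644

/-!
# R105 / COFAT (node D2), part 4 (helper515): `S4U → CLB → COFAT`

`S4U` : the Courant-Lebesgue estimate with hops, uniform over all finite subfamilies.
-/

set_option autoImplicit false

open Set Filter Topology Metric MeasureTheory
open Crest.AnalysisR

namespace Crest.Agent.R105.Cof_515

open FK_644 Top1_8 Cofa1_917

/-- uniform Courant-Lebesgue estimate with hops (one-dimensional image measure) -/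
def S4U : Prop := ∀ (V : Set ℂ) (τ : ℝ), 0 < τ → Cofat τ V → ∀ p, p ∉ V → ∀ ε : ℝ, 0 < ε →
  ∃ δ : ℝ, 0 < δ ∧ ∀ (n : ℕ) (K : Fin n → Set ℂ) (x : Fin n → ℂ × ℝ) (f : ℂ → ℂ),
    (∀ i, NC V (K i)) → Fam K → x ∈ X n → LMap K (discs x) f →
    ∃ t, δ < t ∧ t < ε ∧ ∀ φ : ℂ → ℝ, LipschitzWith 1 φ →
      volume (φ '' rest K x f p t) ≤ ENNReal.ofReal ε

theorem clb_of (h : S4U) : CLB := by
  intro V τ hτ hV p hp ε hε
  -- the component of `p` meets small circles, if it is nondegenerate
  obtain ⟨ρ, hρ, hmeet⟩ : ∃ ρ > 0, connectedComponentIn Vᶜ p ≠ {p} →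
      ∀ t, 0 ≤ t → t < ρ → (connectedComponentIn Vᶜ p ∩ sphere p t).Nonempty := by
    by_cases h1 : connectedComponentIn Vᶜ p = {p}
    · exact ⟨1, one_pos, fun h2 => absurd h1 h2⟩
    · have hpm : p ∈ connectedComponentIn Vᶜ p := mem_connectedComponentIn hp
      obtain ⟨q, hq, hqp⟩ : ∃ q ∈ connectedComponentIn Vᶜ p, q ≠ p := by
        by_contra hcon
        apply h1
        refine Subset.antisymm (fun q hq => ?_) (singleton_subset_iff.2 hpm)
        by_contra hne
        exact hcon ⟨q, hq, hne⟩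
      refine ⟨dist q p, dist_pos.2 hqp, fun _ t ht0 ht => ?_⟩
      have h2 := ((isPreconnected_connectedComponentIn (F := Vᶜ) (x := p)).image (fun w => dist w p)
        (continuous_id.dist continuous_const).continuousOn).ordConnected
      obtain ⟨w, hw, hwt⟩ := h2.out ⟨p, hpm, rfl⟩ ⟨q, hq, rfl⟩
        (show t ∈ Icc (dist p p) (dist q p) from ⟨by rw [dist_self]; exact ht0, ht.le⟩)
      exact ⟨w, hw, mem_sphere.2 hwt⟩
  obtain ⟨δ, hδ, H⟩ := h V τ hτ hV p hp (min (ε / 2) ρ) (lt_min (by positivity) hρ)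
  refine ⟨δ, hδ, fun n K x f hNC hK hx hm => ?_⟩
  obtain ⟨t, ht1, ht2, hL⟩ := H n K x f hNC hK hx hm
  have hD : Fam (discs x) := fam_discs hx
  have hx0 : ∀ i, 0 ≤ (x i).2 := fun i => (hx.1 i).le
  have hmin : min (ε / 2) ρ ≤ ε / 2 := min_le_left _ _
  have hmin0 : 0 ≤ min (ε / 2) ρ := le_min (by positivity) hρ.le
  refine ⟨fun i hi z hz hzp => ?_, fun hpt z hz z' hz' hzp hzp' => ?_⟩
  · have hcc : connectedComponentIn Vᶜ p = K i := (hNC i).cc_eq hi
    have hne : connectedComponentIn Vᶜ p ≠ {p} := by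
      intro he
      have h3 := (hK.nt i)
      rw [← hcc, he] at h3
      exact not_nontrivial_singleton h3
    have h4 := hmeet hne t (hδ.le.trans ht1.le) (ht2.trans_le (min_le_right _ _))
    rw [hcc] at h4
    have h5 := dist_le_of_mem hK hD hm hx0 hmin0 hL hi h4 hz
      (mem_closedBall.2 (hzp.le.trans ht1.le))
    linarith
  · have hp' : ∀ i, p ∉ K i := by
      intro i hi
      have h3 := (hK.nt i)
      rw [← (hNC i).cc_eq hi, hpt] at h3
      exact not_nontrivial_singleton h3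
    obtain ⟨c, hc⟩ := exists_center hK hD hm hx0 (hδ.le.trans ht1.le) hmin0 hL hp'
    have h6 := hc z hz (mem_closedBall.2 (hzp.le.trans ht1.le))
    have h7 := hc z' hz' (mem_closedBall.2 (hzp'.le.trans ht1.le))
    have h8 := dist_triangle_right (f z) (f z') c
    linarith

/-- **COFAT from the uniform Courant-Lebesgue estimate** -/
theorem cofat_of_s4u (h : S4U) : COFAT := cofat_of fk (clb_of h)

end Crest.Agent.R105.Cof_515
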