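import Mathlib
import Crest.Agent.R105.Cof5_430
import Crest.Agent.R105.Cof4_515
import Crest.Agent.R105.Sig3_731

/-!
# Row 105, COFAT, part 6 (helper430): area bound, `S4U`, and **COFAT**
-/

set_option autoImplicit false

open Set Filter Metric Topology MeasureTheory
open Crest.AnalysisR
open scoped ENNReal Real

namespace Crest.Agent.R105.Cof_430

open FK_644 Top1_8 Cofa1_917 Cof_515

theorem det_deriv (a : ℂ) :
    ((ContinuousLinearMap.toSpanSingleton ℂ a).restrictScalars ℝ : ℂ →L[ℝ] ℂ).det = ‖a‖ ^ 2 := by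
  have h1 : (((ContinuousLinearMap.toSpanSingleton ℂ a).restrictScalars ℝ : ℂ →L[ℝ] ℂ) :
      ℂ →ₗ[ℝ] ℂ) = Algebra.lmul ℝ ℂ a := by
    ext1 z
    simp [mul_comm]
  rw [ContinuousLinearMap.det, h1, ← Algebra.norm_apply, Algebra.norm_complex_apply,
    Complex.normSq_eq_norm_sq]

/-- area formula for injective holomorphic functions -/
theorem area_eq {W S : Set ℂ} (hW : IsOpen W) {f : ℂ → ℂ} (hf : DifferentiableOn ℂ f W)
    (hi : InjOn f W) (hS : MeasurableSet S) (hSW : S ⊆ W) :
    ∫⁻ z in S, ‖deriv f z‖ₑ ^ 2 = volume (f '' S) := by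
  rw [← lintegral_abs_det_fderiv_eq_addHaar_image volume hS
    (f' := fun z => (ContinuousLinearMap.toSpanSingleton ℂ (deriv f z)).restrictScalars ℝ)
    (fun z hz => ?_) (hi.mono hSW)]
  · refine lintegral_congr fun z => ?_
    rw [det_deriv, abs_of_nonneg (by positivity), ENNReal.ofReal_pow (norm_nonneg _), ofReal_norm]
  · have h1 : HasDerivAt f (deriv f z) z :=
      (hf.differentiableAt (hW.mem_nhds (hSW hz))).hasDerivAt
    exact (h1.hasFDerivAt.restrictScalars ℝ).hasFDerivWithinAt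

/-- **uniform area bound** -/
theorem area_bound {n : ℕ} {K : Fin n → Set ℂ} {x : Fin n → ℂ × ℝ} {f : ℂ → ℂ} (hK : Fam K)
    (hx : x ∈ X n) (hm : LMap K (discs x) f) {R : ℝ} (hR : 0 < R)
    (hRK : ∀ z, R < ‖z‖ → z ∈ dom K) (p : ℂ) {ε : ℝ} (hε : 0 < ε) :
    (∫⁻ z in closedBall p ε ∩ dom K, ‖deriv f z‖ₑ ^ 2) + ∑ i, ENNReal.ofReal (x i).2 ^ 2 ≤
      volume (closedBall (0 : ℂ) (33 * (R + (‖p‖ + ε)))) +
      (NNReal.pi : ℝ≥0∞)⁻¹ * volume (closedBall (0 : ℂ) (33 * (R + (‖p‖ + ε)))) := by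
  have hop : IsOpen (dom K) := by
    unfold dom
    exact (isClosed_iUnion_of_finite fun i => (hK.cpt i).isClosed).isOpen_compl
  have hsig : Sig731.Sig (dom K) f := ⟨hm.sig.hol, hm.sig.inj, hm.sig.inf⟩
  refine add_le_add ?_ ?_
  · rw [area_eq hop hm.sig.hol hm.sig.inj (measurableSet_closedBall.inter hop.measurableSet)
      inter_subset_right]
    refine measure_mono ?_
    rintro _ ⟨z, ⟨hz, hzK⟩, rfl⟩
    rw [mem_closedBall_zero_iff]
    refine (hsig.norm_le hR hRK hzK).trans ?_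
    have h1 : ‖z‖ ≤ ‖p‖ + ε := by
      have h2 : ‖z - p‖ ≤ ε := by rw [← dist_eq_norm]; exact hz
      have h3 : ‖z‖ ≤ ‖z - p‖ + ‖p‖ := by
        simpa using norm_add_le (z - p) p
      linarith
    gcongr
  · have hpi : (NNReal.pi : ℝ≥0∞) ≠ 0 := by
      rw [ENNReal.coe_ne_zero]; exact NNReal.pi_ne_zero
    rw [← ENNReal.mul_le_iff_le_inv hpi ENNReal.coe_ne_top, Finset.mul_sum]
    calc ∑ i, (NNReal.pi : ℝ≥0∞) * ENNReal.ofReal (x i).2 ^ 2
        = ∑ i, volume (discs x i) := by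
          refine Finset.sum_congr rfl fun i _ => ?_
          rw [discs, Complex.volume_closedBall, mul_comm]
      _ = volume (⋃ i, discs x i) := by
          rw [measure_iUnion (fun i j hij => hx.2 i j hij) (fun i => measurableSet_closedBall),
            tsum_fintype]
      _ ≤ volume (closedBall (0 : ℂ) (33 * (R + (‖p‖ + ε)))) := by
          refine measure_mono ?_
          have h1 := hsig.compl_subset hR hRK
          rw [hm.img, dom, compl_compl] at h1
          refine h1.trans (closedBall_subset_closedBall ?_)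
          have := norm_nonneg p
          linarith

/-- **(S4U)** -/
theorem s4u : S4U := by
  classical
  intro V τ hτ hV p hp ε hε
  obtain ⟨R, hR, hRV⟩ := Uni231.exists_Ext_subset hV.1
  have hcV : IsCompact Vᶜ := Ends_897.isCompact_compl hV.1
  -- the family of all nondegenerate components
  set KK : NCs V → Set ℂ := fun κ => κ.1 with hKK
  have hcpt : ∀ κ, IsCompact (KK κ) := by
    rintro ⟨K, z, hz, hKz, hn⟩
    simp only [hKK, hKz]
    exact Ends_897.isCompact_cc hcV z
  have hnt : ∀ κ, (KK κ).Nontrivial := fun κ => κ.2.choose_spec.2.2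
  have hfat : ∀ κ, Fat τ (KK κ) := by
    rintro ⟨K, z, hz, hKz, hn⟩
    simp only [hKK]
    rcases hV.2 z hz with h | h
    · rw [hKz, h] at hn
      exact absurd hn not_nontrivial_singleton
    · rwa [← hKz] at h
  have hdisj : Pairwise (Function.onFun Disjoint KK) := fun κ κ' hne =>
    κ.2.disjoint κ'.2 fun h => hne (Subtype.ext h)
  set A : ℝ≥0∞ := volume (closedBall (0 : ℂ) (33 * (R + (‖p‖ + ε)))) +
      (NNReal.pi : ℝ≥0∞)⁻¹ * volume (closedBall (0 : ℂ) (33 * (R + (‖p‖ + ε)))) with hA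
  have hAt : A ≠ ∞ := by
    have h1 : volume (closedBall (0 : ℂ) (33 * (R + (‖p‖ + ε)))) ≠ ∞ :=
      measure_closedBall_lt_top.ne
    refine ENNReal.add_ne_top.2 ⟨h1, ENNReal.mul_ne_top ?_ h1⟩
    rw [Ne, ENNReal.inv_eq_top, ENNReal.coe_eq_zero]; exact NNReal.pi_ne_zero
  obtain ⟨δ, hδ, H⟩ := stage hτ hcpt hfat hnt hdisj p hε hAt
  refine ⟨δ, hδ, fun n K x f hNC hK hx hm => ?_⟩
  have hop : IsOpen (dom K) := by
    unfold dom
    exact (isClosed_iUnion_of_finite fun i => (hK.cpt i).isClosed).isOpen_compl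
  have hVK : V ⊆ dom K := subset_dom_of_NC hNC
  -- the index map
  set e : Fin n → NCs V := fun i => ⟨K i, hNC i⟩ with he
  have hinj : Function.Injective e := by
    intro i j hij
    by_contra hne
    have h1 : K i = K j := congrArg Subtype.val hij
    have h2 := hK.disj i j hne
    rw [← h1, disjoint_self] at h2
    exact (hK.nt i).nonempty.ne_empty h2
  set c : NCs V → ℂ := Function.extend e (fun i => (x i).1) (fun _ => 0) with hc
  set r : NCs V → ℝ := Function.extend e (fun i => (x i).2) (fun _ => 0) with hr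
  have hce : ∀ i, c (e i) = (x i).1 := fun i => hinj.extend_apply _ _ i
  have hre : ∀ i, r (e i) = (x i).2 := fun i => hinj.extend_apply _ _ i
  have hsum : ∑ κ ∈ Finset.univ.image e, ENNReal.ofReal (r κ) ^ 2 =
      ∑ i, ENNReal.ofReal (x i).2 ^ 2 := by
    rw [Finset.sum_image (fun i _ j _ h => hinj h)]
    refine Finset.sum_congr rfl fun i _ => ?_
    rw [hre]
  have hE := area_bound hK hx hm hR (fun z hz => hVK (hRV hz)) p hε
  rw [← hsum] at hE
  obtain ⟨t, ht1, ht2, ht⟩ := H (Finset.univ.image e) c r (dom K) f hop hm.sig.hol hE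
  refine ⟨t, ht1, ht2, fun φ hφ => (measure_mono (image_mono ?_)).trans (ht φ hφ)⟩
  unfold rest chain
  refine union_subset_union_right _ ?_
  intro w hw
  simp only [mem_iUnion] at hw ⊢
  obtain ⟨i, hi, hw⟩ := hw
  refine ⟨e i, Finset.mem_image_of_mem _ (Finset.mem_univ i), hi, ?_⟩
  rw [hce, hre]; exact hw

/-- **COFAT** -/
theorem cofat : COFAT := cofat_of_s4u s4u

end Crest.Agent.R105.Cof_430
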