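import Mathlib
import Crest.Agent.R105.Cov1_70

/-! Row 105 (helper70): covering theorem (C2). -/

set_option autoImplicit false

open Set Metric Filter Topology

namespace Crest.Agent.R105.Cov2_70

open Crest.Agent.R105.Cov1_70

/-- Continuous bump: `1` near the compact set `K`, `0` off a compact subset of the open set `O`. -/
theorem bump {X : Type*} [TopologicalSpace X] [T2Space X] [LocallyCompactSpace X] {K O : Set X}
    (hK : IsCompact K) (hO : IsOpen O) (h : K ⊆ O) :
    ∃ (ψ : C(X, ℝ)) (M : Set X), IsCompact M ∧ M ⊆ O ∧ (∀ x ∉ M, ψ x = 0) ∧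
      (∀ x, ψ x ∈ Icc (0 : ℝ) 1) ∧ ∃ W, IsOpen W ∧ K ⊆ W ∧ ∀ x ∈ W, ψ x = 1 := by
  obtain ⟨L, hL, hKL, hLO⟩ := exists_compact_between hK hO h
  obtain ⟨M, hM, hLM, hMO⟩ := exists_compact_between hL hO hLO
  obtain ⟨ψ, h1, h0, -, h01⟩ := exists_continuous_one_zero_of_isCompact hL
    isOpen_interior.isClosed_compl (disjoint_compl_right_iff_subset.mpr hLM)
  exact ⟨ψ, M, hM, hMO, fun x hx => h0 (fun hx' => hx (interior_subset hx')), h01, interior L,
    isOpen_interior, hKL, fun x hx => h1 (interior_subset hx)⟩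

variable {U : Set ℂ}

/-- A local hull datum at a point of the complement. -/
structure Piece (U : Set ℂ) (F : ℂ → ℂ) (w : ℂ) where
  E : Set ℂ
  V : Set ℂ
  N : Set ℂ
  Q : Set ℂ
  d : ℂ
  hE : IsCompact E
  hEY : E ⊆ Uᶜ
  hV : IsOpen V
  hEV : E ⊆ V
  hVE : V ∩ Uᶜ ⊆ E
  hN : IsOpen N
  hEN : E ⊆ N
  hQ : Convex ℝ Q
  hwQ : w ∉ Q
  hd : d ∈ Q
  hF : ∀ x ∈ N ∩ U, F x ∈ Q

theorem induct (hU : IsOpen U) {F : ℂ → ℂ} (hF : ContinuousOn F U) {w : ℂ} (hw : w ∉ F '' U)
    (l : List (Piece U F w)) :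
    ∃ (g : ℂ → ℂ) (S : Set ℂ), IsCompact S ∧ (∀ x ∉ S, g x = F x) ∧
      S ∩ Uᶜ ⊆ {x | ∃ p ∈ l, x ∈ p.E} ∧ (∀ x ∈ U ∪ {x | ∃ p ∈ l, x ∈ p.E}, ContinuousAt g x) ∧
      ∀ x ∈ U ∪ {x | ∃ p ∈ l, x ∈ p.E}, g x ≠ w := by
  induction l with
  | nil =>
    refine ⟨F, ∅, isCompact_empty, fun x _ => rfl, by simp, ?_, ?_⟩
    · intro x hx
      have : x ∈ U := by simpa using hx
      exact hF.continuousAt (hU.mem_nhds this)
    · intro x hx h
      have : x ∈ U := by simpa using hx
      exact hw ⟨x, this, h⟩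
  | cons p l ih =>
    obtain ⟨g, S, hS, hgF, hSY, hgc, hgw⟩ := ih
    set T : Set ℂ := {x | ∃ p ∈ l, x ∈ p.E} with hT
    have hTc : IsCompact T := by
      have : T = ⋃ q ∈ {q | q ∈ l}, Piece.E q := by
        ext x; simp [hT]
      rw [this]
      exact (List.finite_toSet l).isCompact_biUnion fun q _ => q.hE
    -- T is relatively open in Y
    have hTo : ∃ O, IsOpen O ∧ T = O ∩ Uᶜ := by
      refine ⟨⋃ q ∈ {q | q ∈ l}, Piece.V q, isOpen_biUnion fun q _ => q.hV, ?_⟩
      ext x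
      simp only [hT, mem_ofPred_eq, mem_inter_iff, mem_iUnion, exists_prop]
      constructor
      · rintro ⟨q, hq, hx⟩
        exact ⟨⟨q, hq, q.hEV hx⟩, q.hEY hx⟩
      · rintro ⟨⟨q, hq, hx⟩, hxY⟩
        exact ⟨q, hq, q.hVE ⟨hx, hxY⟩⟩
    obtain ⟨O, hO, hTO⟩ := hTo
    set E' : Set ℂ := p.E \ T with hE'
    have hE'c : IsCompact E' := by
      have : E' = p.E \ O := by
        ext x
        simp only [hE', hTO, Set.mem_sdiff, mem_inter_iff, not_and]
        constructor
        · rintro ⟨h1, h2⟩; exact ⟨h1, fun h => h2 h (p.hEY h1)⟩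
        · rintro ⟨h1, h2⟩; exact ⟨h1, fun h => absurd h h2⟩
      rw [this]
      exact p.hE.diff hO
    have hE'S : ∀ x ∈ E', x ∉ S := by
      intro x hx hxS
      exact hx.2 (hSY ⟨hxS, p.hEY hx.1⟩)
    obtain ⟨ψ, M, hM, hMO, hψ0, hψ01, W, hW, hE'W, hψ1⟩ := bump hE'c
      (((p.hN.inter p.hV).inter hS.isClosed.isOpen_compl).inter hTc.isClosed.isOpen_compl)
      (fun x hx => ⟨⟨⟨p.hEN hx.1, p.hEV hx.1⟩, hE'S x hx⟩, hx.2⟩)
    refine ⟨fun x => (1 - ψ x : ℝ) • g x + (ψ x : ℝ) • p.d, S ∪ M, hS.union hM, ?_, ?_, ?_, ?_⟩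
    · intro x hx
      have h1 : x ∉ S := fun h => hx (Or.inl h)
      have h2 : x ∉ M := fun h => hx (Or.inr h)
      simp [hψ0 x h2, hgF x h1]
    · rintro x ⟨hx | hx, hxY⟩
      · obtain ⟨q, hq, h⟩ := hSY ⟨hx, hxY⟩
        exact ⟨q, List.mem_cons_of_mem _ hq, h⟩
      · exact ⟨p, List.mem_cons_self, p.hVE ⟨(hMO hx).1.1.2, hxY⟩⟩
    · intro x hx
      by_cases hx' : x ∈ U ∪ T
      · exact ((continuousAt_const.sub ψ.continuous.continuousAt).smul (hgc x hx')).add
          (ψ.continuous.continuousAt.smul continuousAt_const)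
      · have hxE : x ∈ E' := by
          rcases hx with hx | ⟨q, hq, hxq⟩
          · exact absurd (Or.inl hx) hx'
          · rw [List.mem_cons] at hq
            rcases hq with rfl | hq
            · exact ⟨hxq, fun h => hx' (Or.inr h)⟩
            · exact absurd (Or.inr ⟨q, hq, hxq⟩) hx'
        have : (fun x => (1 - ψ x : ℝ) • g x + (ψ x : ℝ) • p.d) =ᶠ[𝓝 x] fun _ => p.d := by
          filter_upwards [hW.mem_nhds (hE'W hxE)] with y hy
          simp [hψ1 y hy]
        exact ContinuousAt.congr continuousAt_const this.symm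
    · intro x hx
      by_cases hψx : ψ x = 0
      · have hx' : x ∈ U ∪ T := by
          rcases hx with hx | ⟨q, hq, hxq⟩
          · exact Or.inl hx
          · rw [List.mem_cons] at hq
            rcases hq with rfl | hq
            · by_contra hcon
              have hxE : x ∈ E' := ⟨hxq, fun h => hcon (Or.inr h)⟩
              rw [hψ1 x (hE'W hxE)] at hψx
              exact one_ne_zero hψx
            · exact Or.inr ⟨q, hq, hxq⟩
        simpa [hψx] using hgw x hx'
      · have hxM : x ∈ M := by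
          by_contra h
          exact hψx (hψ0 x h)
        have hxO := hMO hxM
        by_cases hxU : x ∈ U
        · have hgx : g x ∈ p.Q := by
            rw [hgF x hxO.1.2]
            exact p.hF x ⟨hxO.1.1.1, hxU⟩
          have hmem : (1 - ψ x : ℝ) • g x + (ψ x : ℝ) • p.d ∈ p.Q :=
            p.hQ hgx p.hd (by linarith [(hψ01 x).2]) (hψ01 x).1 (by ring)
          intro h
          have h' : (1 - ψ x : ℝ) • g x + (ψ x : ℝ) • p.d = w := h
          rw [h'] at hmem
          exact p.hwQ hmem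
        · have hxE : x ∈ E' := ⟨p.hVE ⟨hxO.1.1.2, hxU⟩, hxO.2⟩
          have h1 := hψ1 x (hE'W hxE)
          simp only [h1, sub_self, zero_smul, zero_add, one_smul]
          intro h
          have h' := p.hd
          rw [h] at h'
          exact p.hwQ h'

/-- **(C2) COVERING THEOREM.** `U` open with compact complement, `F` continuous on `U`, at bounded distance
from the identity near infinity; at every component `K` of `Uᶜ` the map `F` accumulates only on the closed
convex set `D_K`. Then `ℂ = F(U) ∪ ⋃ D_K`. -/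
theorem cover (hU : IsOpen U) (hY : IsCompact Uᶜ) (F : ℂ → ℂ) (hF : ContinuousOn F U) {C R : ℝ}
    (hb : ∀ z, R < ‖z‖ → ‖F z - z‖ ≤ C) (D : ℂ → Set ℂ) (hDc : ∀ z ∉ U, Convex ℝ (D z))
    (hDcl : ∀ z ∉ U, IsClosed (D z)) (hDne : ∀ z ∉ U, (D z).Nonempty)
    (hcl : ∀ z ∉ U, ∀ ε > 0, ∃ N, IsOpen N ∧ connectedComponentIn Uᶜ z ⊆ N ∧
      ∀ x ∈ N ∩ U, F x ∈ thickening ε (D z)) (w : ℂ) :
    w ∈ F '' U ∨ ∃ z ∉ U, w ∈ D z := by
  by_contra hcon
  push Not at hcon
  obtain ⟨hw1, hw2⟩ := hcon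
  -- local pieces
  have hp : ∀ z ∈ Uᶜ, ∃ p : Piece U F w, z ∈ p.E := by
    intro z hz
    have hd : 0 < infDist w (D z) := by
      rw [← (hDcl z hz).notMem_iff_infDist_pos (hDne z hz)]
      exact hw2 z hz
    obtain ⟨N, hN, hKN, hNF⟩ := hcl z hz (infDist w (D z) / 2) (half_pos hd)
    obtain ⟨E, hEY, hE, hE', hKE, hEN⟩ := exists_clopen_piece hY hz hN hKN
    obtain ⟨V, V', hV, hV', hEV, hEV', hVV'⟩ := SeparatedNhds.of_isCompact_isCompact hE hE'
      disjoint_sdiff_self_right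
    obtain ⟨d, hd'⟩ := hDne z hz
    refine ⟨⟨E, V, N, cthickening (infDist w (D z) / 2) (D z), d, hE, hEY, hV, hEV, ?_, hN, hEN,
      (hDc z hz).cthickening _, ?_, self_subset_cthickening _ hd', ?_⟩, ?_⟩
    · rintro x ⟨hx1, hx2⟩
      by_contra hxE
      exact (disjoint_left.mp hVV' hx1) (hEV' ⟨hx2, hxE⟩)
    · intro h
      rw [mem_cthickening_iff] at h
      have h2 : infDist w (D z) ≤ infDist w (D z) / 2 :=
        ENNReal.toReal_le_of_le_ofReal (half_pos hd).le h
      linarith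
    · intro x hx
      exact thickening_subset_cthickening _ _ (hNF x hx)
    · exact hKE (mem_connectedComponentIn hz)
  choose p hp using fun z : ↥(Uᶜ) => hp z z.2
  obtain ⟨t, hcov⟩ := hY.elim_nhds_subcover' (fun z hz => (p ⟨z, hz⟩).V)
    (fun z hz => (p ⟨z, hz⟩).hV.mem_nhds ((p ⟨z, hz⟩).hEV (hp ⟨z, hz⟩)))
  obtain ⟨g, S, hS, hgF, hSY, hgc, hgw⟩ := induct hU hF hw1 (t.toList.map fun z => p z)
  have hall : ∀ x : ℂ, x ∈ U ∪ {x | ∃ q ∈ (t.toList.map fun z => p z), x ∈ q.E} := by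
    intro x
    by_cases hx : x ∈ U
    · exact Or.inl hx
    · right
      have := hcov hx
      simp only [mem_iUnion, exists_prop] at this
      obtain ⟨z, hz, hxz⟩ := this
      exact ⟨p z, List.mem_map.mpr ⟨z, Finset.mem_toList.mpr hz, rfl⟩, (p z).hVE ⟨hxz, hx⟩⟩
  have hg : Continuous g := continuous_iff_continuousAt.mpr fun x => hgc x (hall x)
  -- bounded distance
  obtain ⟨R', hR'⟩ := hS.isBounded.subset_closedBall (0 : ℂ)
  obtain ⟨C', hC'⟩ := ((isCompact_closedBall (0 : ℂ) (max R R')).image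
    (hg.sub continuous_id)).isBounded.subset_closedBall (0 : ℂ)
  obtain ⟨z, hz⟩ := surj_of_bounded g hg (max C C') (by
    intro z
    by_cases hz : ‖z‖ ≤ max R R'
    · have : g z - z ∈ closedBall (0 : ℂ) C' := hC' ⟨z, by simpa using hz, rfl⟩
      rw [mem_closedBall_zero_iff] at this
      exact this.trans (le_max_right _ _)
    · push Not at hz
      have h1 : z ∉ S := fun h => by
        have := hR' h
        rw [mem_closedBall_zero_iff] at this
        exact absurd (this.trans (le_max_right R R')) (not_le.mpr hz)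
      rw [hgF z h1]
      exact (hb z ((le_max_left _ _).trans_lt hz)).trans (le_max_left _ _)) w
  exact hgw z (hall z) hz

end Crest.Agent.R105.Cov2_70
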