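import Mathlib
import Crest.Agent.R193.Planar1
import Crest.Prelude.Def_CircleDomain

/-! Row 105, LIB-ENDS (helper897), part 1: connectedness of `C ∩ V`, components of compact plane sets,
homeomorphisms between exterior domains (`EndMap`), boundedness, inverse. -/

set_option autoImplicit false

open Set Filter Topology Metric

namespace Crest.Agent.R105.Ends_897

open Crest.AnalysisR Crest.Agent.R193.Planar

/-! ### splitting in the plane -/

/-- splitting lemma in `ℂ` -/
theorem split_C {K1 K2 : Set ℂ} (h1 : IsCompact K1) (h2 : IsClosed K2) (hd : Disjoint K1 K2)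
    {c : ℂ → ℝ} (hc : LCOff (K1 ∪ K2) c) :
    ∃ c1 c2 : ℂ → ℝ, LCOff K1 c1 ∧ LCOff K2 c2 ∧ ∀ y, y ∉ K1 ∪ K2 → c y = c1 y + c2 y := by
  set e : ℂ ≃ₜ R135.E2 := Complex.orthonormalBasisOneI.repr.toHomeomorph with he
  have hc' : LCOff (e.symm ⁻¹' (K1 ∪ K2)) (fun y => c (e.symm y)) := hc.comp_homeo e.symm
  have hk1 : IsCompact (e.symm ⁻¹' K1) := by
    rw [e.symm.isCompact_preimage]; exact h1
  have hk2 : IsClosed (e.symm ⁻¹' K2) := h2.preimage e.symm.continuous
  obtain ⟨c1, c2, hc1, hc2, hs, -⟩ := R135.locConst_split isOpen_univ hk1 (subset_univ _)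
    (by rw [hk2.closure_eq]; exact inter_subset_left) (hd.preimage _)
    (c := fun y => c (e.symm y)) (fun x hx => hc' x hx.2)
  refine ⟨fun x => c1 (e x), fun x => c2 (e x), ?_, ?_, ?_⟩
  · intro x hx
    exact e.continuous.continuousAt.eventually (hc1 (e x) ⟨mem_univ _, by simpa using hx⟩)
  · intro x hx
    exact e.continuous.continuousAt.eventually (hc2 (e x) ⟨mem_univ _, by simpa using hx⟩)
  · intro y hy
    have := hs (e y) ⟨mem_univ _, by simpa using hy⟩
    simpa using this

theorem closure_cc_subset {Q : Set ℂ} (hQ : IsClosed Q) (x : ℂ) :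
    closure (connectedComponentIn Qᶜ x) ⊆ connectedComponentIn Qᶜ x ∪ Q := by
  intro y hy
  by_cases hyQ : y ∈ Q
  · exact Or.inr hyQ
  · left
    have hD : IsOpen (connectedComponentIn Qᶜ y) := hQ.isOpen_compl.connectedComponentIn
    obtain ⟨w, hw1, hw2⟩ := mem_closure_iff.1 hy _ hD (mem_connectedComponentIn hyQ)
    rw [connectedComponentIn_eq hw2, ← connectedComponentIn_eq hw1]
    exact mem_connectedComponentIn hyQ

/-- **(E1)** `V` preconnected with compact complement, `Q ⊆ V` closed, `C` a component of `Qᶜ`: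
then `C ∩ V` is preconnected. -/
theorem preconn_inter {V Q : Set ℂ} (hV : IsPreconnected V) (hVK : IsCompact Vᶜ)
    (hQ : IsClosed Q) (hQV : Q ⊆ V) (x : ℂ) :
    IsPreconnected (connectedComponentIn Qᶜ x ∩ V) := by
  classical
  set C := connectedComponentIn Qᶜ x with hC
  have hCo : IsOpen C := hQ.isOpen_compl.connectedComponentIn
  have hVo : IsOpen V := by
    have := hVK.isClosed.isOpen_compl
    rwa [compl_compl] at this
  have hclC : closure C ⊆ C ∪ Q := closure_cc_subset hQ x
  have hK1 : IsCompact (Vᶜ ∩ C) := by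
    have h : Vᶜ ∩ C = Vᶜ ∩ closure C := by
      apply Subset.antisymm (inter_subset_inter_right _ subset_closure)
      rintro y ⟨hyV, hyC⟩
      exact ⟨hyV, (hclC hyC).resolve_right fun h => hyV (hQV h)⟩
    rw [h]; exact hVK.inter_right isClosed_closure
  have hK2 : IsClosed Cᶜ := hCo.isClosed_compl
  have hd : Disjoint (Vᶜ ∩ C) Cᶜ := disjoint_left.2 fun y h h' => h' h.2
  rw [isPreconnected_iff_subset_of_disjoint]
  intro u v hu hv huv hdis
  set c : ℂ → ℝ := fun y => if y ∈ u then 1 else 0 with hcdef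
  have hmem : ∀ y, y ∉ (Vᶜ ∩ C) ∪ Cᶜ ↔ y ∈ C ∩ V := by
    intro y
    simp only [mem_union, mem_inter_iff, mem_compl_iff]
    tauto
  have hc : LCOff ((Vᶜ ∩ C) ∪ Cᶜ) c := by
    intro y hy
    have hy' := (hmem y).1 hy
    by_cases hyu : y ∈ u
    · filter_upwards [hu.mem_nhds hyu] with w hw
      simp only [hcdef, if_pos hyu, if_pos hw]
    · have hyv : y ∈ v := (huv hy').resolve_left hyu
      filter_upwards [hv.mem_nhds hyv, (hCo.inter hVo).mem_nhds hy'] with w hw hw'
      have hwu : w ∉ u := fun h => by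
        have : w ∈ C ∩ V ∩ (u ∩ v) := ⟨hw', h, hw⟩
        rw [hdis] at this; exact this
      simp only [hcdef, if_neg hyu, if_neg hwu]
  obtain ⟨c1, c2, hc1, hc2, hs⟩ := split_C hK1 hK2 hd hc
  by_contra hcon
  rw [not_or, not_subset, not_subset] at hcon
  obtain ⟨⟨a, ha, hau⟩, ⟨b, hb, hbv⟩⟩ := hcon
  have hbu : b ∈ u := (huv hb).resolve_right hbv
  have e1 : c1 a = c1 b := hc1.eq_of_preconnected hV
    (disjoint_left.2 fun y h h' => h'.1 h) ha.2 hb.2
  have e2 : c2 a = c2 b := hc2.eq_of_preconnected isPreconnected_connectedComponentIn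
    (disjoint_left.2 fun y h h' => h' h) ha.1 hb.1
  have e3 := hs a ((hmem a).2 ha)
  have e4 := hs b ((hmem b).2 hb)
  simp only [hcdef, if_neg hau, if_pos hbu] at e3 e4
  linarith

/-! ### components of compact sets -/

theorem isClosed_cc {X : Set ℂ} (hX : IsClosed X) (z : ℂ) :
    IsClosed (connectedComponentIn X z) := by
  by_cases hz : z ∈ X
  · rw [connectedComponentIn_eq_image hz]
    exact hX.isClosedEmbedding_subtypeVal.isClosedMap _ isClosed_connectedComponent
  · rw [connectedComponentIn_eq_empty hz]; exact isClosed_empty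

theorem isCompact_cc {X : Set ℂ} (hX : IsCompact X) (z : ℂ) :
    IsCompact (connectedComponentIn X z) :=
  hX.of_isClosed_subset (isClosed_cc hX.isClosed z) (connectedComponentIn_subset _ _)

/-- clopen pieces of a compact set inside a neighbourhood of a component -/
theorem exists_clopen {X W : Set ℂ} (hX : IsCompact X) {z : ℂ} (hz : z ∈ X) (hW : IsOpen W)
    (hKW : connectedComponentIn X z ⊆ W) :
    ∃ B : Set ℂ, IsCompact B ∧ IsCompact (X \ B) ∧ B ⊆ X ∧ connectedComponentIn X z ⊆ B ∧
      B ⊆ W := by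
  classical
  have _ : CompactSpace X := isCompact_iff_compactSpace.1 hX
  have h0 := connectedComponent_eq_iInter_isClopen (⟨z, hz⟩ : X)
  have hne : Nonempty { s : Set X // IsClopen s ∧ (⟨z, hz⟩ : X) ∈ s } :=
    ⟨⟨univ, isClopen_univ, trivial⟩⟩
  obtain ⟨⟨B, hB, hzB⟩, hBW⟩ := exists_subset_nhds_of_isCompact'
    (V := fun s : { s : Set X // IsClopen s ∧ (⟨z, hz⟩ : X) ∈ s } => (s : Set X))
    (by
      rintro ⟨s, hs, hs'⟩ ⟨t, ht, ht'⟩
      exact ⟨⟨s ∩ t, hs.inter ht, hs', ht'⟩, inter_subset_left, inter_subset_right⟩)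
    (fun s => s.2.1.1.isCompact) (fun s => s.2.1.1)
    (U := (Subtype.val : X → ℂ) ⁻¹' W)
    (by
      intro x hx
      rw [← h0] at hx
      refine (hW.preimage continuous_subtype_val).mem_nhds (hKW ?_)
      rw [connectedComponentIn_eq_image hz]
      exact ⟨x, hx, rfl⟩)
  have hcc : connectedComponentIn X z ⊆ Subtype.val '' B := by
    rw [connectedComponentIn_eq_image hz, h0]
    exact image_mono (iInter_subset _ (⟨B, hB, hzB⟩ :
      { s : Set X // IsClopen s ∧ (⟨z, hz⟩ : X) ∈ s }))
  refine ⟨Subtype.val '' B, hB.1.isCompact.image continuous_subtype_val, ?_, ?_, hcc, ?_⟩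
  · have : X \ (Subtype.val '' B) = Subtype.val '' (Bᶜ : Set X) := by
      ext y
      constructor
      · rintro ⟨hy, hy'⟩
        exact ⟨⟨y, hy⟩, fun h => hy' ⟨_, h, rfl⟩, rfl⟩
      · rintro ⟨⟨w, hw⟩, hw', rfl⟩
        refine ⟨hw, ?_⟩
        rintro ⟨⟨w', hw1⟩, hw2, hw3⟩
        have : w' = w := hw3
        subst this
        exact hw' hw2
    rw [this]
    exact hB.compl.1.isCompact.image continuous_subtype_val
  · rintro _ ⟨y, -, rfl⟩; exact y.2
  · rintro _ ⟨y, hy, rfl⟩; exact hBW hy

/-- a compact piece has a bounded open neighbourhood whose closure misses the rest -/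
theorem exists_nhd {B Y : Set ℂ} (hB : IsCompact B) (hY : IsClosed Y) (hd : Disjoint B Y) :
    ∃ N : Set ℂ, IsOpen N ∧ B ⊆ N ∧ IsCompact (closure N) ∧ Disjoint (closure N) Y := by
  obtain ⟨T, hT, h1, h2⟩ := exists_compact_between hB hY.isOpen_compl
    (fun x hx hxY => disjoint_left.1 hd hx hxY)
  have hcl : closure (interior T) ⊆ T := closure_minimal interior_subset hT.isClosed
  exact ⟨interior T, isOpen_interior, h1, hT.of_isClosed_subset isClosed_closure hcl,
    disjoint_left.2 fun y hy hyY => h2 (hcl hy) hyY⟩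

/-! ### exterior domains -/

theorem isCompact_compl {U : Set ℂ} (hU : IsExteriorDomain U) : IsCompact Uᶜ := by
  obtain ⟨hUo, -, R, hR⟩ := hU
  refine (isCompact_closedBall (0 : ℂ) R).of_isClosed_subset hUo.isClosed_compl ?_
  intro z hz
  rw [mem_closedBall_zero_iff]
  by_contra h
  exact hz (hR z (not_le.1 h))

/-- frontier points of a component of the complement are limits of points of the domain -/
theorem frontier_cc_subset {U : Set ℂ} (hU : IsOpen U) {z ζ : ℂ}
    (hζ : ζ ∈ frontier (connectedComponentIn Uᶜ z)) : ζ ∈ closure U := by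
  have hcl := isClosed_cc hU.isClosed_compl z
  have hζK : ζ ∈ connectedComponentIn Uᶜ z := by
    have := frontier_subset_closure hζ
    rwa [hcl.closure_eq] at this
  by_contra hcon
  have h1 : (closure U)ᶜ ∈ 𝓝 ζ := isClosed_closure.isOpen_compl.mem_nhds hcon
  obtain ⟨ε, hε, hball⟩ := Metric.mem_nhds_iff.1 h1
  have h2 : ball ζ ε ⊆ Uᶜ := fun w hw hwU => hball hw (subset_closure hwU)
  have h3 : ball ζ ε ⊆ connectedComponentIn Uᶜ z := by
    rw [connectedComponentIn_eq hζK]
    exact (convex_ball ζ ε).isPreconnected.subset_connectedComponentIn (mem_ball_self hε) h2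
  exact hζ.2 (mem_interior_iff_mem_nhds.2 (mem_of_superset (ball_mem_nhds ζ hε) h3))

/-- the filter of neighbourhoods of the component of `z`, inside the domain -/
noncomputable def eF (U : Set ℂ) (z : ℂ) : Filter ℂ := 𝓝ˢ (connectedComponentIn Uᶜ z) ⊓ 𝓟 U

theorem eF_congr {U : Set ℂ} {z z' : ℂ}
    (h : connectedComponentIn Uᶜ z = connectedComponentIn Uᶜ z') : eF U z = eF U z' := by
  rw [eF, eF, h]

theorem eF_neBot {U : Set ℂ} (hU : IsExteriorDomain U) {z : ℂ} (hz : z ∉ U) : (eF U z).NeBot := by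
  have hK := isCompact_cc (isCompact_compl hU) z
  have hne : (connectedComponentIn Uᶜ z).Nonempty := ⟨z, mem_connectedComponentIn hz⟩
  have hnu : connectedComponentIn Uᶜ z ≠ univ := by
    intro h
    have h2 := hK.isBounded
    rw [h] at h2
    obtain ⟨C, hC⟩ := h2.exists_norm_le
    have := hC ((|C| + 1 : ℝ) : ℂ) (mem_univ _)
    rw [Complex.norm_real, Real.norm_eq_abs, abs_of_nonneg (by positivity)] at this
    linarith [le_abs_self C]
  have hfr : (frontier (connectedComponentIn Uᶜ z)).Nonempty := by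
    rw [nonempty_iff_ne_empty]
    intro h
    have hclopen : IsClopen (connectedComponentIn Uᶜ z) := isClopen_iff_frontier_eq_empty.2 h
    rcases isClopen_iff.1 hclopen with h | h
    · rw [h] at hne; exact not_nonempty_empty hne
    · exact hnu h
  obtain ⟨ζ, hζ⟩ := hfr
  have h1 := frontier_cc_subset hU.1 hζ
  have hζK : ζ ∈ connectedComponentIn Uᶜ z := by
    have := frontier_subset_closure hζ
    rwa [hK.isClosed.closure_eq] at this
  have h2 : (𝓝 ζ ⊓ 𝓟 U).NeBot := mem_closure_iff_nhdsWithin_neBot.1 h1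
  exact h2.mono (inf_le_inf_right _ (nhds_le_nhdsSet hζK))

theorem eF_disjoint {U : Set ℂ} (hU : IsExteriorDomain U) {z z' : ℂ}
    (h : connectedComponentIn Uᶜ z ≠ connectedComponentIn Uᶜ z') : eF U z ⊓ eF U z' = ⊥ := by
  have hK := isCompact_cc (isCompact_compl hU) z
  have hK' := isCompact_cc (isCompact_compl hU) z'
  have hd : Disjoint (connectedComponentIn Uᶜ z) (connectedComponentIn Uᶜ z') := by
    rw [disjoint_left]
    intro w hw hw'
    exact h ((connectedComponentIn_eq hw).trans (connectedComponentIn_eq hw').symm)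
  have h1 : Disjoint (𝓝ˢ (connectedComponentIn Uᶜ z)) (𝓝ˢ (connectedComponentIn Uᶜ z')) :=
    separatedNhds_iff_disjoint.1 (SeparatedNhds.of_isCompact_isCompact hK hK' hd)
  exact (h1.mono inf_le_left inf_le_left).eq_bot

theorem cc_eq_of_eF_le {U : Set ℂ} (hU : IsExteriorDomain U) {z z' : ℂ} (hz : z ∉ U)
    (h : eF U z ≤ eF U z') : connectedComponentIn Uᶜ z = connectedComponentIn Uᶜ z' := by
  by_contra hne
  have h1 := eF_disjoint hU hne
  rw [inf_eq_left.2 h] at h1
  exact (eF_neBot hU hz).ne h1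

end Crest.Agent.R105.Ends_897
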