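import Crest.Agent.R105.Lnk3_632
import Crest.Agent.R105.Bvl5_31
import Crest.Agent.R105.Lin2_642

/-!
# Row 105, S0138, node E13: the ends without the hypothesis `E13_499.ENDS` (helper189)

* `neBot`            : both ends of a component on its lines are real ends
* `ends_bvl`         : `BVL` (31, measurable bound) gives end limits
* `ends_cont`        : the same from `E13_499.BVL` for functions continuous off `E`
* `exists_ed`        : the end functions `Ed` exist (closed)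
* `solEnds_of_atne`  : `ATNE → SolEnds`
-/

set_option autoImplicit false

open MeasureTheory Set Filter Topology Metric
open scoped NNReal ENNReal

namespace Crest.Agent.R105.Ends_189

open Crest.AnalysisR Tc_808 Ends_897
open Sqr_185 (sec SqK mem_sec)
open Cq_463 (Sqr)
open Pct_185 (PicT)
open Ta_937 (sqs corE)
open SkA_8 (Pk)
open Pj_403 (EndTop EndBot SolEnds)
open E13_499 (TopF BotF EndsOf Ed cF pu ATNE)
open Lnk3_632

noncomputable section

variable {E : Set ℂ} {w : ℂ → ℝ}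

theorem top_eq (hE : IsCompact E) (L : Cmp E) {t : ℝ}
    (ht : t ∈ Icc (Sqr_185.lo L.1) (Sqr_185.hi L.1)) : Lin_642.topF E L.1 t = TopF E L.1 t :=
  Lin_642.topF_eq (L.isCompact hE) (Sqr_185.sec_nonempty (L.isCompact hE) L.preconn L.nonempty ht)

theorem bot_eq (hE : IsCompact E) (L : Cmp E) {t : ℝ}
    (ht : t ∈ Icc (Sqr_185.lo L.1) (Sqr_185.hi L.1)) : Lin_642.botF E L.1 t = BotF E L.1 t :=
  Lin_642.botF_eq (L.isCompact hE) (Sqr_185.sec_nonempty (L.isCompact hE) L.preconn L.nonempty ht)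

/-- **both ends of a component on its lines are real ends** -/
theorem neBot (hE : IsCompact E) (L : Cmp E) {t : ℝ}
    (ht : t ∈ Icc (Sqr_185.lo L.1) (Sqr_185.hi L.1)) :
    (TopF E L.1 t).NeBot ∧ (BotF E L.1 t).NeBot := by
  rw [← top_eq hE L ht, ← bot_eq hE L ht]
  exact ⟨Lin_642.topF_neBot hE L ht, Lin_642.botF_neBot hE L ht⟩

/-- the end limits, with the explicit functions `tp`, `bt` of 642 -/
theorem ends_tp (hE : IsCompact E) (L : Cmp E) (hv : Bvl_31.BVL E w) :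
    EndsOf E L w (Lin_642.tp E L.1 w) (Lin_642.bt E L.1 w) := by
  filter_upwards [Lin_642.ends hE hv L] with t ht hI
  have hI' := Ioo_subset_Icc_self hI
  have h1 := ht hI'
  rw [top_eq hE L hI', bot_eq hE L hI'] at h1
  exact h1

/-- **`BVL` (measurable bound) gives end limits** -/
theorem ends_bvl (hE : IsCompact E) (L : Cmp E) (hv : Bvl_31.BVL E w) :
    ∃ wT wB : ℝ → ℝ, EndsOf E L w wT wB := ⟨_, _, ends_tp hE L hv⟩

/-- **`E13_499.BVL` and continuity off `E` give end limits** -/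
theorem ends_cont (hE : IsCompact E) (L : Cmp E) (hw : ContinuousOn w Eᶜ)
    (hv : E13_499.BVL E w) : ∃ wT wB : ℝ → ℝ, EndsOf E L w wT wB :=
  ends_bvl hE L (Bvl_31.BVL.of499 hE.isClosed hw hv)

variable {Y : Set ℂ} {x0 φ : ℂ → ℝ} {a b : ℕ → ℂ → ℝ} {F P : ℂ → ℂ} {i : ℕ}

/-- **the end functions exist** -/
theorem exists_ed (h : Pk Y x0 a φ F) (hi : Pk Y x0 b (a i) P) (K : Cmp Yᶜᶜ) :
    ∃ xT xB yT yB vT vB : ℝ → ℝ, Ed h hi K xT xB yT yB vT vB := by
  have hPF := (Uw6_913.picT h).2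
  have hPP := (Uw6_913.picT hi).2
  have h1 : Bvl_31.BVL (P '' Yᶜ)ᶜ (pu hi fun z => (F z).re) :=
    Bvl_31.bvl_x h hi fun z hz => Ta_937.push_comp (Uw6_913.endMap hi) _ hz
  have h2 : Bvl_31.BVL (P '' Yᶜ)ᶜ (pu hi fun z => (F z).im) := by
    refine (Bvy_253.bvl_y h hi).congr fun ζ hζ => ?_
    obtain ⟨z, hz, rfl⟩ := not_not.1 hζ
    rw [Yv_319.yP_apply _ hz]
    exact (Ta_937.push_comp (Uw6_913.endMap hi) (fun z => (F z).im) hz).symm
  have h3 : Bvl_31.BVL (F '' Yᶜ)ᶜ (pu h fun z => (P z).re) :=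
    Bvl_31.bvl_u h hi fun z hz => Ta_937.push_comp (Uw6_913.endMap h) _ hz
  exact ⟨_, _, _, _, _, _, ends_tp hPP.cpt (cF hi K) h1, ends_tp hPP.cpt (cF hi K) h2,
    ends_tp hPF.cpt (cF h K) h3⟩

theorem solEnds_aux (HA : ATNE) (h : Pk Y x0 a φ F)
    (hi : Pk Y x0 b (a i) P) (K : Cmp Yᶜᶜ) (Q : Sqr)
    (hS : SqK (cF h K).1 Q.x Q.y Q.s) :
    ∀ᵐ t : ℝ, t ∈ Ioo (Sqr_185.lo (cF hi K).1) (Sqr_185.hi (cF hi K).1) →
      EndTop Yᶜ P F (cF hi K).1 t Q.car ∧ EndBot Yᶜ P F (cF hi K).1 t Q.car := by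
  have hPF := (Uw6_913.picT h).2
  have hPP := (Uw6_913.picT hi).2
  obtain ⟨xT, xB, yT, yB, vT, vB, hEd⟩ := exists_ed h hi K
  have hS' : SqK (cF h K).1 (Sqr_185.lo (cF h K).1) Q.y Q.s := by
    rw [lo_sqK Q.hs hS]; exact hS
  have hA := HA Y x0 φ a b F P i K h hi Q.y Q.s xT xB yT yB vT vB Q.hs hS'
    (wd_sqK Q.hs hS).symm hEd
  have hc : IsCompact (cF hi K).1 := (cF hi K).isCompact hPP.cpt
  filter_upwards [hA, hEd.x, hEd.y] with t h1 h2 h3 ht
  obtain ⟨g1, g2⟩ := h1 ht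
  obtain ⟨x1, x2⟩ := h2 ht
  obtain ⟨y1, y2⟩ := h3 ht
  obtain ⟨n1, n2⟩ := neBot hPP.cpt (cF hi K) (Ioo_subset_Icc_self ht)
  have hsc : IsCompact (sec (cF hi K).1 t) := Pj_403.isCompact_sec' hc t
  have hsn : (sec (cF hi K).1 t).Nonempty :=
    Sqr_185.sec_nonempty hc (cF hi K).preconn (cF hi K).nonempty (Ioo_subset_Icc_self ht)
  have hT := tendsto_end h hi K (topF_le (E := (P '' Yᶜ)ᶜ)) (hsc.sSup_mem hsn) topF_off
  have hB := tendsto_end h hi K (botF_le (E := (P '' Yᶜ)ᶜ)) (hsc.sInf_mem hsn) botF_off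
  have hxT := lim_mem hS hT x1
  have hxB := lim_mem hS hB x2
  have hoff : ∀ z ∈ Yᶜ, P z ∉ (P '' Yᶜ)ᶜ := fun z hz hz' => hz' (mem_image_of_mem P hz)
  exact ⟨Pj_403.endTop_of_lim hoff (fun z hz => Ta_937.push_comp (Uw6_913.endMap hi) _ hz)
      (fun z hz => Ta_937.push_comp (Uw6_913.endMap hi) _ hz) x1 y1 ⟨hxT, g1⟩,
    Pj_403.endBot_of_lim hoff (fun z hz => Ta_937.push_comp (Uw6_913.endMap hi) _ hz)
      (fun z hz => Ta_937.push_comp (Uw6_913.endMap hi) _ hz) x2 y2 ⟨hxB, g2⟩⟩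

/-- **`ATNE` (E13_499) alone gives the per-solid statement `SolEnds` of 403** -/
theorem solEnds_of_atne (HA : ATNE) : SolEnds := by
  intro U x0 a φ F h i b P hb hE hE' hP hP' K Q hQ hS hw
  obtain ⟨Y, rfl⟩ : ∃ Y : Set ℂ, U = Yᶜ := ⟨Uᶜ, (compl_compl U).symm⟩
  rw [compl_compl] at h hb
  exact solEnds_aux HA h hb K Q hS

/-- **`ATNo Ext` from `ATNE`** -/
theorem atno_ext (HA : ATNE) : Jex_987.ATNo Jex_987.Ext :=
  Pj_403.atno_ext (solEnds_of_atne HA)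

end

end Crest.Agent.R105.Ends_189
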