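import Mathlib
import Crest.Agent.R105.Top1_8
import Crest.Agent.R105.Cof6_430

/-!
# Row 105, S0138: after COFAT (430 / 515 / 917 over 644 FK), S0138 = SqPic (helper8)
-/

set_option autoImplicit false

open Set Filter Metric Topology MeasureTheory
open Crest.AnalysisR

namespace Crest.Agent.R105.Top2_8

open Top1_8

/-- **S0138 from FATPIC** -/
theorem s0138_of_fatPic (h : FatPic) (U : Set ℂ) (hU : IsExteriorDomain U) :
    ∃ f : ℂ → ℂ, DifferentiableOn ℂ f U ∧ Set.InjOn f U ∧
      Filter.Tendsto f (Filter.cocompact ℂ) (Filter.cocompact ℂ) ∧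
      IsCircleDomainFinitePart (f '' U) :=
  s0138 h Cof_430.cofat U hU

/-- **S0138 from SQPIC** -/
theorem s0138_of_sqPic (h : SqPic) (U : Set ℂ) (hU : IsExteriorDomain U) :
    ∃ f : ℂ → ℂ, DifferentiableOn ℂ f U ∧ Set.InjOn f U ∧
      Filter.Tendsto f (Filter.cocompact ℂ) (Filter.cocompact ℂ) ∧
      IsCircleDomainFinitePart (f '' U) :=
  s0138_of_fatPic (fatPic_of_sqPic h) U hU

end Crest.Agent.R105.Top2_8
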