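import Crest.Agent.R105.SkA4_8
import Crest.Agent.R105.Uw6_913
import Crest.Agent.R105.Nip9_31
import Crest.Agent.R105.Ta7_937
import Crest.Agent.R105.SkT1_137
import Crest.Agent.R105.Top2_8

/-!
# Row 105, S0138: THE JOIN (helper987)

* `AdmP U a F ψ` : `∀ i, NI Uᶜ (a i) (toC ψ ∘ F)`;
* `el_adm`       : crude E-L for `T`-finite admissible functions of the picture plane;
* leaves: `STRP Str` (stream functions of Lemma A are admissible), `LIMP` (limits of cut functions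
  with bounded charges are admissible), `SkT1_137.LEMAQ`, `SkT1_137.STEPQ`, `Exs_992.LIMQ`;
* `sqPic_of : leaves → Top1_8.SqPic`, `s0138_of : leaves → S0138`.
-/

set_option autoImplicit false

open MeasureTheory Set Filter Topology Metric
open scoped NNReal ENNReal ContDiff

namespace Crest.Agent.R105.SkJ_987

open Crest.AnalysisR Tc_808 Ni_459 Sqr_185 Ends_897
open Bd_775 (Q)
open IfB_641 (X0)
open SelT_871 (JT)
open Cq_463 (Sqr QPic)
open CF_363 (Hair)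
open Skp2_257 (Comps Reg)
open Tra_937 (setR setC toC Uni)
open Pct_185 (PicT Sol)
open Exs_992 (PicS LimOf)
open Stp_722 (OscLe)
open Ta_937 (sqs hrs)
open SkT1_137 (TFin Carr StrT LEMAQ STEPQ)
open Nal_649 (FamQ)
open SkA_8 (Pk)

noncomputable section

variable {U : Set ℂ} {F : ℂ → ℂ} {x0 φ : ℂ → ℝ} {a : ℕ → ℂ → ℝ} {ψ : ℝ × ℝ → ℝ}

/-- admissible functions of the picture plane -/
def AdmP (U : Set ℂ) (a : ℕ → ℂ → ℝ) (F : ℂ → ℂ) (ψ : ℝ × ℝ → ℝ) : Prop :=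
  ∀ i, NI Uᶜ (a i) (fun z => toC ψ (F z))

/-- the picture of a domain -/
abbrev PE (U : Set ℂ) (F : ℂ → ℂ) : Set (ℝ × ℝ) := setR (F '' U)ᶜ

/-- LEAF: stream functions of Lemma A are admissible -/
def STRP (Str : StrT) : Prop :=
  ∀ (U : Set ℂ) (x0 : ℂ → ℝ) (a : ℕ → ℂ → ℝ) (φ : ℂ → ℝ) (F : ℂ → ℂ), Pk Uᶜ x0 a φ F →
    InjOn F U → PicT (F '' U)ᶜ → ∀ g Bm Bp, FamQ (PE U F) g Bm Bp → ∀ ψ,
    Str (PE U F) (sqs (F '' U)ᶜ) (hrs (F '' U)ᶜ) g Bm Bp ψ → AdmP U a F ψ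

/-- LEAF: limits of cut functions with bounded charges are admissible -/
def LIMP : Prop :=
  ∀ (U : Set ℂ) (x0 : ℂ → ℝ) (a : ℕ → ℂ → ℝ) (φ : ℂ → ℝ) (F : ℂ → ℂ), Pk Uᶜ x0 a φ F →
    InjOn F U → PicT (F '' U)ᶜ →
    ∀ (S : ℕ → ℝ × ℝ → ℝ) (ψ : ℝ × ℝ → ℝ) (c : Sqr → ℝ) (o : Set (ℝ × ℝ) → ℝ),
    LimOf (PE U F) (hrs (F '' U)ᶜ) S ψ → (∀ Q, 0 ≤ c Q) →
    (Summable fun Q : sqs (F '' U)ᶜ => c Q.1 ^ 2) →
    (∀ m, ∀ Q ∈ sqs (F '' U)ᶜ, Cq_463.ch (PE U F) univ (S m) Q ≤ c Q) → TFin (PE U F) ψ o →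
    (∀ P ∈ Comps (PE U F), (∀ Q ∈ sqs (F '' U)ᶜ, ¬ Q.car ⊆ P) → o P = 0) → AdmP U a F ψ

/-! ### E-L -/

theorem osc_le_prof {E : Set ℂ} {o : Set (ℝ × ℝ) → ℝ} (hT : TFin (setR E) ψ o) (L : Cmp E) :
    osc E (toC ψ) L.1 ≤ o (setR L.1) := by
  have hm : setR L.1 ∈ Comps (setR E) := Ta_937.mem_comps.2 ⟨L, rfl⟩
  have h2 := hT.osc _ hm
  rw [← Tra_937.setR_compl, Ta_937.oscLe_toC] at h2
  have h3 := (Ta_937.osc_le_iff (U := Eᶜ) (Ta_937.q_toC hT.reg).bdd (hT.nn _ hm)).2 h2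
  rwa [compl_compl] at h3

theorem setR_inj {A B : Set ℂ} (h : setR A = setR B) : A = B := by
  rw [← Tra_937.setC_setR A, h, Tra_937.setC_setR]

/-- components of the two planes -/
def toComps (E : Set ℂ) (L : Cmp E) : Comps (setR E) := ⟨setR L.1, Ta_937.mem_comps.2 ⟨L, rfl⟩⟩

theorem toComps_inj (E : Set ℂ) : Function.Injective (toComps E) := fun _ _ h =>
  Cmp.ext (setR_inj (congrArg Subtype.val h))

/-- `T`-finite functions of the picture plane -/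
theorem tt_of_TFin {E : Set ℂ} {o : Set (ℝ × ℝ) → ℝ} (hT : TFin (setR E) ψ o) : TT E (toC ψ) where
  q := Ta_937.q_toC hT.reg
  sum := by
    have h1 : Summable fun L : Cmp E => o (setR L.1) ^ 2 := by
      have h2 := hT.sum.comp_injective (toComps_inj E)
      exact h2.congr fun L => rfl
    exact Summable.of_nonneg_of_le (fun _ => sq_nonneg _)
      (fun L => pow_le_pow_left₀ (osc_nonneg _ _ _) (osc_le_prof hT L) 2) h1

/-- the component of a square -/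
theorem comp_eq {E : Set ℂ} (hP : PicT E) (Q : sqs E) :
    Nal_649.comp (setR E) Q.1 = setR (Ta_937.solE hP Q).1.1 := by
  have hm : (Q.1.x, Q.1.y) ∈ setR (Ta_937.solE hP Q).1.1 :=
    Ta_937.car_solE hP Q (Cq_463.Sqr.mem_car.2 ⟨⟨le_rfl, by linarith [Q.1.hs]⟩,
      ⟨le_rfl, by linarith [Q.1.hs]⟩⟩)
  have hmE : (Q.1.x, Q.1.y) ∈ setR E := (Ta_937.solE hP Q).1.subset hm
  unfold Nal_649.comp
  rw [Ta_937.cc_setR hmE]
  congr 1
  exact (congrArg Subtype.val ((Ta_937.solE hP Q).1.eq_of_mem hm)).symm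

/-- minimality along admissible directions -/
theorem min_along (h : Pk Uᶜ x0 a φ F) {v : ℂ → ℝ} (hv : TT Uᶜ v)
    (had : ∀ i, NI Uᶜ (a i) v) (t : ℝ) : JT Uᶜ x0 φ ≤ JT Uᶜ x0 (fun z => φ z + t * v z) := by
  have hYc : IsClosed Uᶜ := (cpt_of h.hY).isClosed
  refine h.min _ (h.tt.add hYc ((TT.const t).mul hYc hv)) fun i => ?_
  have h1 := Nip_31.linG h.hY h.hx (h.tta i) (h.swd i) h.tt hv (h.com i) (had i) 1 t
  simpa only [one_mul] using h1

theorem endMap (h : Pk Uᶜ x0 a φ F) (hU : IsExteriorDomain U) (hi : InjOn F U) :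
    EndMap U (F '' U) F := by
  obtain ⟨c, hc⟩ := h.inf
  have hd := h.hol
  rw [compl_compl] at hd
  exact EndMap.of_holo hU hd hi (Red_828.tendsto_cocompact_of_tendsto_sub hc)

/-- **crude E-L for `T`-finite admissible functions** -/
theorem el_adm (hU : IsExteriorDomain U) (h : Pk Uᶜ x0 a φ F) (hi : InjOn F U)
    (hP : PicT (F '' U)ᶜ) {o : Set (ℝ × ℝ) → ℝ} (hT : TFin (PE U F) ψ o) (had : AdmP U a F ψ) :
    |∫ p in (PE U F)ᶜ, CF_363.gx ψ p| ≤
      ∑' Q : sqs (F '' U)ᶜ, Q.1.s * o (Nal_649.comp (PE U F) Q.1) := by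
  have hE := endMap h hU hi
  have hd := h.hol
  rw [compl_compl] at hd
  have hre := h.re
  rw [compl_compl] at hre
  have hF : Uni U F := ⟨hU.1, hd, hi⟩
  have htt := tt_of_TFin hT
  have htp : TT Uᶜ (fun z => toC ψ (F z)) := Ta_937.tt_comp hE hF htt
  have h2 := Ta_937.el_C hE hF h.hx h.tt (fun z hz => (hre z hz).symm) htt
    (Ta_937.compact_toC hT.reg.cpt) (min_along h htp had)
  have h3 : ∫ w in F '' U, Tra_937.gx (toC ψ) w = ∫ p in (PE U F)ᶜ, CF_363.gx ψ p := by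
    rw [← Tra_937.integral_toC, ← Tra_937.setR_compl, Tra_937.setC_setR, compl_compl]
    congr 1
    funext w
    exact Ta_937.gx_toC'' ψ w
  rw [h3, Ta_937.tsum_wd hP fun L => osc (F '' U)ᶜ (toC ψ) L.1] at h2
  refine h2.trans ?_
  -- comparison of the two series
  have hs2 : Summable fun Q : sqs (F '' U)ᶜ => Q.1.s ^ 2 := by
    have h3 : Summable fun L : Sol (F '' U)ᶜ => wd L.1.1 ^ 2 :=
      hP.sum.comp_injective Subtype.val_injective
    rw [← (Ta_937.solE hP).summable_iff] at h3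
    refine h3.congr fun Q => ?_
    simp only [Function.comp_apply, Ta_937.wd_solE]
  have ho2 : Summable fun Q : sqs (F '' U)ᶜ => o (Nal_649.comp (PE U F) Q.1) ^ 2 := by
    let i : sqs (F '' U)ᶜ → Comps (PE U F) := fun Q =>
      ⟨setR (Ta_937.solE hP Q).1.1, Ta_937.mem_comps.2 ⟨_, rfl⟩⟩
    have hinj : Function.Injective i := fun Q Q' hQ => by
      have h1 : (Ta_937.solE hP Q).1.1 = (Ta_937.solE hP Q').1.1 :=
        setR_inj (congrArg Subtype.val hQ)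
      exact (Ta_937.solE hP).injective (Subtype.ext (Cmp.ext h1))
    have h4 := hT.sum.comp_injective hinj
    refine h4.congr fun Q => ?_
    simp only [Function.comp_apply, i]
    rw [comp_eq hP Q]
  have hle : ∀ Q : sqs (F '' U)ᶜ, osc (F '' U)ᶜ (toC ψ) (Ta_937.solE hP Q).1.1 ≤
      o (Nal_649.comp (PE U F) Q.1) := fun Q => by
    rw [comp_eq hP Q]
    exact osc_le_prof hT _
  have hnn : ∀ Q : sqs (F '' U)ᶜ, 0 ≤ o (Nal_649.comp (PE U F) Q.1) := fun Q =>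
    (osc_nonneg _ _ _).trans (hle Q)
  have h4 : Summable fun Q : sqs (F '' U)ᶜ => Q.1.s * o (Nal_649.comp (PE U F) Q.1) := by
    refine Summable.of_nonneg_of_le (fun Q => mul_nonneg Q.1.hs.le (hnn Q)) (fun Q => ?_)
      ((hs2.add ho2).div_const 2)
    nlinarith [sq_nonneg (Q.1.s - o (Nal_649.comp (PE U F) Q.1))]
  have h5 : ∀ Q : sqs (F '' U)ᶜ, Q.1.s * osc (F '' U)ᶜ (toC ψ) (Ta_937.solE hP Q).1.1 ≤
      Q.1.s * o (Nal_649.comp (PE U F) Q.1) := fun Q =>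
    mul_le_mul_of_nonneg_left (hle Q) Q.1.hs.le
  have h6 : Summable fun Q : sqs (F '' U)ᶜ => Q.1.s * osc (F '' U)ᶜ (toC ψ) (Ta_937.solE hP Q).1.1 :=
    Summable.of_nonneg_of_le (fun Q => mul_nonneg Q.1.hs.le (osc_nonneg _ _ _)) h5 h4
  exact h6.tsum_le_tsum h5 h4

/-- the interface of the second half -/
theorem carr {Str : StrT} (h1 : STRP Str) (h2 : LIMP) (hU : IsExteriorDomain U)
    (h : Pk Uᶜ x0 a φ F) (hi : InjOn F U) (hP : PicT (F '' U)ᶜ) :
    Carr Str (PE U F) (sqs (F '' U)ᶜ) (hrs (F '' U)ᶜ) (AdmP U a F) where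
  el := fun _ _ hT had => el_adm hU h hi hP hT had
  str := fun g Bm Bp hg ψ hψ => h1 U x0 a φ F h hi hP g Bm Bp hg ψ hψ
  lim := fun S ψ c o a1 a2 a3 a4 a5 a6 => h2 U x0 a φ F h hi hP S ψ c o a1 a2 a3 a4 a5 a6

/-! ### translation -/

theorem cc_translate (V : Set ℂ) (c : ℂ) {z : ℂ} (hz : z ∈ (fun w => w - c) '' V) :
    connectedComponentIn ((fun w => w - c) '' V) z =
      (fun w => w - c) '' connectedComponentIn V (z + c) := by
  obtain ⟨w, hw, rfl⟩ := hz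
  have h := (Homeomorph.subRight c).image_connectedComponentIn (s := V) (x := w) hw
  have e : (fun w => w - c) w + c = w := by simp
  rw [e]
  exact h.symm

theorem sq_translate (c d : ℂ) (s : ℝ) :
    (fun w => w - c) '' Top1_8.Sq d s = Top1_8.Sq (d - c) s := by
  ext w
  constructor
  · rintro ⟨v, ⟨h1, h2⟩, rfl⟩
    refine ⟨?_, ?_⟩
    · have : (v - c).re - (d - c).re = v.re - d.re := by simp
      rw [this]; exact h1
    · have : (v - c).im - (d - c).im = v.im - d.im := by simp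
      rw [this]; exact h2
  · rintro ⟨h1, h2⟩
    refine ⟨w + c, ⟨?_, ?_⟩, by simp⟩
    · have : (w + c).re - d.re = w.re - (d - c).re := by simp; ring
      rw [this]; exact h1
    · have : (w + c).im - d.im = w.im - (d - c).im := by simp; ring
      rw [this]; exact h2

/-! ### the join -/

/-- **SQPIC from the leaves** -/
theorem sqPic_of {Str : StrT} {C0 θ : ℝ} (hC0 : 0 ≤ C0) (hθ : 0 < θ) (hA : LEMAQ Str)
    (hST : STEPQ C0 θ) (hL : Exs_992.LIMQ) (h1 : STRP Str) (h2 : LIMP) : Top1_8.SqPic := by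
  intro U hU
  have hUc : IsCompact Uᶜ := Ends_897.isCompact_compl hU
  obtain ⟨x0, hx0⟩ := X0.exists hUc
  obtain ⟨a, φ, F, h⟩ := SkA_8.attainp Uᶜ x0 (by rw [compl_compl]; exact hU) hx0
  have hiP := Uw6_913.picT h
  rw [compl_compl] at hiP
  obtain ⟨hi, hP⟩ := hiP
  have hd := h.hol
  rw [compl_compl] at hd
  obtain ⟨c, hc⟩ := h.inf
  have hC := carr h1 h2 hU h hi hP
  have h0 : hrs (F '' U)ᶜ = ∅ :=
    SkT1_137.hairless hC0 hθ hA hST hL (Ta_937.picS hP) hC.els (hC.elq (Ta_937.picS hP).q)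
  refine ⟨fun z => F z - c, ⟨hd.sub_const c, fun z hz w hw hzw => hi hz hw (by simpa using hzw), ?_⟩,
    fun z hz => ?_⟩
  · have := hc.sub_const c
    rw [sub_self] at this
    refine this.congr fun z => ?_
    ring
  · have e1 : (fun z => F z - c) '' U = (fun w => w - c) '' (F '' U) := by
      rw [image_image]
    have e2 : ((fun z => F z - c) '' U)ᶜ = (fun w => w - c) '' (F '' U)ᶜ := by
      rw [e1]
      exact (image_compl_eq (Homeomorph.subRight c).bijective).symm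
    rw [e2] at hz ⊢
    obtain ⟨w, hw, rfl⟩ := hz
    obtain ⟨d, s, hs, hd⟩ := Ta_937.sq_of_no_hairs hP h0 hw
    refine ⟨d - c, s, hs, ?_⟩
    rw [cc_translate _ _ ⟨w, hw, rfl⟩]
    have e : (fun w => w - c) w + c = w := by simp
    rw [e, hd, sq_translate]

/-- **S0138 from the leaves** -/
theorem s0138_of {Str : StrT} {C0 θ : ℝ} (hC0 : 0 ≤ C0) (hθ : 0 < θ) (hA : LEMAQ Str)
    (hST : STEPQ C0 θ) (hL : Exs_992.LIMQ) (h1 : STRP Str) (h2 : LIMP)
    (U : Set ℂ) (hU : IsExteriorDomain U) :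
    ∃ f : ℂ → ℂ, DifferentiableOn ℂ f U ∧ Set.InjOn f U ∧
      Filter.Tendsto f (Filter.cocompact ℂ) (Filter.cocompact ℂ) ∧
      IsCircleDomainFinitePart (f '' U) :=
  Top2_8.s0138_of_sqPic (sqPic_of hC0 hθ hA hST hL h1 h2) U hU

end

end Crest.Agent.R105.SkJ_987
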