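import Crest.Agent.R105.Plv2_626
import Crest.Agent.R105.SkJ2_987
import Crest.Agent.R105.Skc2_49

/-!
# Row 105, S0138 (NI frame), node NIEP, part 3 (helper909): the picture side

* `reg_cfj` : functions cut along finitely many hairs in `E` are regular off `E`
* `lipAt_flat` : at a component without solid which is not cut, `g ∘ F` is a Lipschitz function of
  `(Re F, Im F)`
* `chLe_sol` : at a solid, along a level which leaves the solid only near the square
-/

set_option autoImplicit false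

open MeasureTheory Set Filter Topology Metric
open scoped NNReal ENNReal

namespace Crest.Agent.R105.Nie_909

open Crest.AnalysisR Tc_808 Ni_459 Sqr_185 Ends_897 Plv_626
open Bd_775 (Q)
open IfB_641 (X0)
open Cq_463 (Sqr QPic)
open CF_363 (Hair g2 SL CFJ CF cut mem_cut isClosed_cut isCompact_cut volume_cut)
open Skp2_257 (Comps Reg)
open Tra_937 (setR setC toC Uni)
open Pct_185 (PicT Sol)
open Stp_722 (OscLe)
open Ta_937 (sqs hrs corE)

noncomputable section

variable {U : Set ℂ} {F : ℂ → ℂ} {x0 φ : ℂ → ℝ} {a : ℕ → ℂ → ℝ} {ψ g : ℝ × ℝ → ℝ}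

/-- functions cut along finitely many hairs in `E` -/
theorem reg_cfj {E : Set (ℝ × ℝ)} {𝓗 : Set Hair} (h𝓗 : ∀ K ∈ 𝓗, K.car ⊆ E) {f : ℝ × ℝ → ℝ}
    (hf : CFJ 𝓗 univ f) (hc : HasCompactSupport f) (hb : ∃ C : ℝ, ∀ p, |f p| ≤ C) : Reg E f := by
  obtain ⟨J, hJ, L, C', hL, hSL, -⟩ := hf
  have hcE : cut J ⊆ E := by
    intro p hp
    obtain ⟨K, hK, hpK⟩ := mem_cut.1 hp
    exact h𝓗 K (hJ K hK) hpK
  have hSL' : SL (cut J)ᶜ L f := by rwa [← compl_eq_univ_sdiff] at hSL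
  have hop : IsOpen (cut J)ᶜ := (isClosed_cut J).isOpen_compl
  refine ⟨?_, hc, hb, (Skc2_49.integrable_g2 hSL' (isClosed_cut J) (volume_cut J) hc).integrableOn⟩
  intro p hp
  obtain ⟨r, hr, -, hl⟩ := hSL'.lipschitzOnWith_ball hop (fun h => hp (hcE h))
  exact ⟨_, _, mem_nhdsWithin_of_mem_nhds (Metric.ball_mem_nhds p hr), hl⟩

theorem car_convex (K : Hair) : Convex ℝ K.car := by
  rw [K.car_eq]; exact (convex_singleton _).prod (convex_Icc _ _)

/-- flat components are convex -/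
theorem convex_flat {E : Set ℂ} (hE : IsCompact E) {L : Cmp E} (hL : wd L.1 = 0) :
    Convex ℝ (setR L.1) := by
  rcases Ta_937.flat_cases hE hL with ⟨p, hp⟩ | ⟨K, hK⟩
  · rw [hp]; exact convex_singleton _
  · rw [hK]; exact car_convex K

theorem dist_le_coord (p q : ℝ × ℝ) : dist p q ≤ |p.1 - q.1| + |p.2 - q.2| := by
  rw [Prod.dist_eq, Real.dist_eq, Real.dist_eq]
  exact max_le (le_add_of_nonneg_right (abs_nonneg _)) (le_add_of_nonneg_left (abs_nonneg _))

/-- **at an uncut flat component** -/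
theorem lipAt_flat (hE : EndMap U (F '' U) F) {K : Cmp Uᶜ} (hK : wd (corE hE K).1 = 0)
    {J : Finset Hair} {M : ℝ} (hSL : SL (univ \ cut J) M g)
    (hd : Disjoint (setR (corE hE K).1) (cut J)) (L : Set ℂ) {z : ℂ} (hz : z ∈ K.1) :
    LipAt Uᶜ L (fun z => (F z).re) (fun z => (F z).im) (fun z => toC g (F z)) z := by
  have hcp : IsCompact (F '' U)ᶜ := isCompact_compl hE.hV
  have hPc : IsCompact (setR (corE hE K).1) := Ta_937.isCompact_setR ((corE hE K).isCompact hcp)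
  obtain ⟨δ, hδ, hsub⟩ := hPc.exists_thickening_subset_open (isClosed_cut J).isOpen_compl
    (disjoint_left.1 hd)
  have hcv := (convex_flat hcp hK).thickening δ
  have hO : IsOpen (setC (thickening δ (setR (corE hE K).1))) :=
    Tra_937.isOpen_setC.2 isOpen_thickening
  obtain ⟨O', hO', hKO', hF⟩ := Ta_937.exists_nhd_pull hE K hO (fun w hw =>
    self_subset_thickening hδ _ (show (w.re, w.im) ∈ setR (corE hE K).1 from hw))
  refine ⟨O', |M|, hO', ?_, ?_⟩
  · have := congrArg Subtype.val (K.eq_of_mem hz)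
    rw [this] at hKO'
    exact hKO'
  · rintro p ⟨⟨hpO, -⟩, hpU⟩ q ⟨⟨hqO, -⟩, hqU⟩
    rw [mem_compl_iff, not_not] at hpU hqU
    have hp : ((F p).re, (F p).im) ∈ thickening δ (setR (corE hE K).1) := hF p hpO hpU
    have hq : ((F q).re, (F q).im) ∈ thickening δ (setR (corE hE K).1) := hF q hqO hqU
    have h1 := hSL _ _ (fun w hw => ⟨mem_univ w, hsub (hcv.segment_subset hp hq hw)⟩)
    have h2 := dist_le_coord ((F p).re, (F p).im) ((F q).re, (F q).im)
    calc |toC g (F p) - toC g (F q)|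
        ≤ M * dist ((F p).re, (F p).im) ((F q).re, (F q).im) := h1
      _ ≤ |M| * dist ((F p).re, (F p).im) ((F q).re, (F q).im) :=
          mul_le_mul_of_nonneg_right (le_abs_self M) dist_nonneg
      _ ≤ _ := mul_le_mul_of_nonneg_left h2 (abs_nonneg M)

/-- **at a solid**, along a level which leaves the solid near the square only -/
theorem chLe_sol (hE : EndMap U (F '' U) F) {K : Cmp Uᶜ} {Q : Sqr}
    (hgb : ∃ C : ℝ, ∀ p, |g p| ≤ C) {c : ℝ}
    (hc : Cq_463.ch (setR (F '' U)ᶜ) univ g Q ≤ c) {L : Set ℂ}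
    (hL : ∀ δ > 0, ∃ O, IsOpen O ∧ setR (corE hE K).1 ⊆ O ∧ ∀ z ∈ U, z ∈ L →
      ((F z).re, (F z).im) ∈ O → infDist ((F z).re, (F z).im) Q.car < δ) :
    ChLe Uᶜ L (fun z => toC g (F z)) K.1 c := by
  intro ε hε
  obtain ⟨C, hC⟩ := hgb
  have hfin : Cq_463.Fin ((setR (F '' U)ᶜ)ᶜ ∩ univ) (Q.car ∩ closure univ) g :=
    Cq_463.fin_of_bdd (A := C) fun p _ => hC p
  have h1 : OscLe ((setR (F '' U)ᶜ)ᶜ ∩ univ) (Q.car ∩ closure univ) g c :=
    hfin.oscLe.mono hc
  obtain ⟨O₁, hO₁, hQO, H⟩ := h1 ε hε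
  rw [closure_univ, inter_univ] at hQO
  obtain ⟨δ, hδ, hsub⟩ := Q.isCompact_car.exists_thickening_subset_open hO₁ hQO
  obtain ⟨O, hO, hPO, hLO⟩ := hL δ hδ
  obtain ⟨O', hO', hKO', hF⟩ := Ta_937.exists_nhd_pull hE K (Tra_937.isOpen_setC.2 hO)
    (fun w hw => hPO (show (w.re, w.im) ∈ setR (corE hE K).1 from hw))
  have key : ∀ z ∈ (O' ∩ L) \ Uᶜ, ((F z).re, (F z).im) ∈
      O₁ ∩ ((setR (F '' U)ᶜ)ᶜ ∩ univ) := by
    rintro z ⟨⟨hzO, hzL⟩, hzU⟩
    rw [mem_compl_iff, not_not] at hzU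
    have h2 := hLO z hzU hzL (hF z hzO hzU)
    refine ⟨hsub ?_, ?_, mem_univ _⟩
    · rw [mem_thickening_iff_infDist_lt Q.nonempty]; exact h2
    · intro hc
      exact hc (mem_image_of_mem F hzU)
  refine ⟨O', hO', hKO', fun p hp q hq => ?_⟩
  exact H _ (key p hp) _ (key q hq)

end

end Crest.Agent.R105.Nie_909
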