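import Crest.Agent.R105.SkJ2_987
import Crest.Agent.R105.Psq0_425
import Crest.Agent.R105.Cdf2_377
import Crest.Agent.R105.Plh1_412
import Crest.Agent.R105.Thin1_12

/-!
# Row 105, S0138: stream functions of Lemma A are admissible (helper987)

* `TCont E f o`  : continuity off `E`, boundedness, oscillation profile in `ℓ²`;
* `PLAP`         : leaf: planar limits with `TCont` are admissible;
* `off_null`     : the joint image of an anchor and a stream function is null off the family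
                   (countably many clopen pieces, `κ f`);
* `strq_adm`     : with the strip half: null image.
-/

set_option autoImplicit false

open MeasureTheory Set Filter Topology Metric
open scoped NNReal ENNReal ContDiff

namespace Crest.Agent.R105.SkJ_987

open Crest.AnalysisR Tc_808 Ni_459 Ends_897
open Sqr_185 (wd)
open Bd_775 (Q)
open IfB_641 (X0)
open Cq_463 (Sqr QPic)
open CF_363 (Hair)
open Skp2_257 (Comps Reg)
open Tra_937 (setR setC toC Uni)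
open Pct_185 (PicT Sol)
open Exs_992 (PicS LimOf)
open Stp_722 (OscLe)
open Ta_937 (sqs hrs)
open SkT1_137 (TFin StrT LEMAQ STEPQ)
open Nal_649 (FamQ)
open SkA_8 (Pk)
open Psq_425 (LimAt PlaLim)
open Cdf_377 (NPon)

noncomputable section

/-- regularity of a planar limit -/
structure TCont (E : Set (ℝ × ℝ)) (f : ℝ × ℝ → ℝ) (o : Set (ℝ × ℝ) → ℝ) : Prop where
  cont : ContinuousOn f Eᶜ
  bdd : ∃ C : ℝ, ∀ p, |f p| ≤ C
  nn : ∀ P ∈ Comps E, 0 ≤ o P
  osc : ∀ P ∈ Comps E, OscLe Eᶜ P f (o P)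
  sum : Summable fun P : Comps E => o P.1 ^ 2

/-- LEAF: planar limits are admissible -/
def PLAP : Prop :=
  ∀ (U : Set ℂ) (x0 : ℂ → ℝ) (a : ℕ → ℂ → ℝ) (φ : ℂ → ℝ) (F : ℂ → ℂ), Pk Uᶜ x0 a φ F →
    InjOn F U → PicT (F '' U)ᶜ → ∀ (f : ℝ × ℝ → ℝ) (o : Set (ℝ × ℝ) → ℝ),
    PlaLim (PE U F) (sqs (F '' U)ᶜ) f → TCont (PE U F) f o → AdmP U a F f

/-! ### envelopes of asymptotically equal functions -/

section env
variable {E : Set ℂ} {a b u : ℂ → ℝ} {z : ℂ}

theorem up_le_of_close (hE : IsExteriorDomain Eᶜ) (ha : LB a) (hb : LB b)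
    (h : ∀ ε > 0, ∃ O, Nb E z O ∧ ∀ w ∈ O, w ∉ E → |a w - b w| ≤ ε) : up E a z ≤ up E b z := by
  refine le_of_forall_pos_le_add fun ε hε => ?_
  obtain ⟨O, hO, h1⟩ := h (ε / 2) (by positivity)
  obtain ⟨P, hP, h2⟩ := exists_lt_of_up_lt hE hb (show up E b z < up E b z + ε / 2 by linarith)
  refine up_le hE ha (hO.inter hP) fun w hw hwE => ?_
  have h3 := (abs_le.1 (h1 w hw.1 hwE)).2
  have h4 := h2 w hw.2 hwE
  linarith

theorem up_eq_of_close' (hE : IsExteriorDomain Eᶜ) (ha : LB a) (hb : LB b)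
    (h : ∀ ε > 0, ∃ O, Nb E z O ∧ ∀ w ∈ O, w ∉ E → |a w - b w| ≤ ε) : up E a z = up E b z := by
  refine le_antisymm (up_le_of_close hE ha hb h) (up_le_of_close hE hb ha fun ε hε => ?_)
  obtain ⟨O, hO, h1⟩ := h ε hε
  exact ⟨O, hO, fun w hw hwE => by rw [abs_sub_comm]; exact h1 w hw hwE⟩

theorem lo_eq_of_close' (hE : IsExteriorDomain Eᶜ) (ha : LB a) (hb : LB b)
    (h : ∀ ε > 0, ∃ O, Nb E z O ∧ ∀ w ∈ O, w ∉ E → |a w - b w| ≤ ε) : lo E a z = lo E b z := by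
  unfold lo
  rw [up_eq_of_close' hE ha.neg hb.neg fun ε hε => ?_]
  obtain ⟨O, hO, h1⟩ := h ε hε
  refine ⟨O, hO, fun w hw hwE => ?_⟩
  have := h1 w hw hwE
  rwa [show -a w - -b w = -(a w - b w) by ring, abs_neg]

end env

/-! ### components of the two planes -/

variable {E : Set ℂ} {g : Set (Set (ℝ × ℝ))} {ψ f : ℝ × ℝ → ℝ} {u : ℂ → ℝ} {𝒬 : Set Sqr}

/-- the component of `z` in the picture plane -/
def pc (E : Set ℂ) (z : ℂ) : Set (ℝ × ℝ) := setR (connectedComponentIn E z)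

theorem pc_mem {z : ℂ} (hz : z ∈ E) : pc E z ∈ Comps (setR E) :=
  Ta_937.mem_comps.2 ⟨Cmp.of hz, rfl⟩

theorem mem_pc {z : ℂ} (hz : z ∈ E) : (z.re, z.im) ∈ pc E z :=
  show (⟨z.re, z.im⟩ : ℂ) ∈ connectedComponentIn E z from mem_connectedComponentIn hz

theorem pc_eq {z : ℂ} (hz : z ∈ E) : pc E z = connectedComponentIn (setR E) (z.re, z.im) := by
  have h : (z.re, z.im) ∈ setR E := hz
  rw [Ta_937.cc_setR h]
  rfl

/-- open sets of the picture plane around the component are neighbourhoods -/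
theorem nb_of_pc {z : ℂ} (hz : z ∈ E) {O : Set (ℝ × ℝ)} (hO : IsOpen O) (h : pc E z ⊆ O) :
    Nb E z (setC O) :=
  nb_of_mem hz (Tra_937.isOpen_setC.2 hO) fun w hw => h (show (w.re, w.im) ∈ pc E z from hw)

theorem comps_eq {R : Set (ℝ × ℝ)} {P P' : Set (ℝ × ℝ)} (hP : P ∈ Comps R) (hP' : P' ∈ Comps R)
    {p : ℝ × ℝ} (h : p ∈ P) (h' : p ∈ P') : P = P' := by
  obtain ⟨x, hx, rfl⟩ := hP
  obtain ⟨x', hx', rfl⟩ := hP'
  rw [connectedComponentIn_eq h, connectedComponentIn_eq h']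

/-! ### the off half -/

theorem plaLim_bdd {R : Set (ℝ × ℝ)} (h : PlaLim R 𝒬 f) : ∃ C : ℝ, ∀ p ∉ R, |f p| ≤ C := by
  obtain ⟨fn, -, -, ⟨C, hC⟩, hlim, -⟩ := h
  exact ⟨C, fun p hp => le_of_tendsto (hlim p hp).abs (Eventually.of_forall fun n => hC n p)⟩

theorem plaLim_congr {R : Set (ℝ × ℝ)} {f' : ℝ × ℝ → ℝ} (h : PlaLim R 𝒬 f)
    (he : ∀ p ∉ R, f' p = f p) : PlaLim R 𝒬 f' := by
  obtain ⟨fn, h1, h2, h3, hlim, h5⟩ := h
  exact ⟨fn, h1, h2, h3, fun p hp => by rw [he p hp]; exact hlim p hp, h5⟩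

open Classical in
/-- **the off half**: off the family the joint image is null -/
theorem off_null (hE : IsExteriorDomain Eᶜ) (hψ : LB (toC ψ)) {o : Set (ℝ × ℝ) → ℝ}
    (hnn : ∀ P ∈ Comps (setR E), 0 ≤ o P)
    (hosc : ∀ P ∈ Comps (setR E), OscLe (setR E)ᶜ P ψ (o P))
    (hsum : Summable fun P : Comps (setR E) => o P.1 ^ 2)
    (hgs : g ⊆ Comps (setR E)) (hgc : IsCompact (⋃₀ g)) (hfc : ContinuousOn f (setR E)ᶜ)
    (hlim : ∀ P ∈ Comps (setR E), LimAt (setR E) P (fun p => ψ p - f p) 0)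
    (hpla : ∀ (κ : ℝ × ℝ → ℝ) (L : ℝ≥0), LipschitzWith L κ → HasCompactSupport κ →
      (∃ O, IsOpen O ∧ ⋃₀ g ⊆ O ∧ ∀ p ∈ O, κ p = 0) → PlaLim (setR E) 𝒬 fun p => κ p * f p)
    (hNI : ∀ (f : ℝ × ℝ → ℝ) (o : Set (ℝ × ℝ) → ℝ), PlaLim (setR E) 𝒬 f → TCont (setR E) f o →
      NI E u (toC f)) :
    volume (NPon E u (toC ψ) {z | z ∈ E ∧ pc E z ∉ g}) = 0 := by
  set R := setR E with hR
  have hEc : IsCompact E := cpt_of hE
  have hRc : IsCompact R := Ta_937.isCompact_setR hEc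
  set G : Set (ℝ × ℝ) := ⋃₀ g with hG
  -- the clopen pieces
  let ι := {A : Set (ℝ × ℝ) // IsCompact A ∧ IsCompact (R \ A) ∧ A ⊆ R ∧ A ⊆ Gᶜ}
  obtain ⟨T, hTc, hT⟩ := TopologicalSpace.isOpen_iUnion_countable
    (fun A : ι => (R \ A.1)ᶜ) (fun A => A.2.2.1.isClosed.isOpen_compl)
  -- every component off the family is in one of the pieces of `T`
  have hcov : ∀ z ∈ E, pc E z ∉ g → ∃ A ∈ T, pc E z ⊆ A.1 := by
    intro z hz hzg
    have hzR : (z.re, z.im) ∈ R := hz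
    have hW : connectedComponentIn R (z.re, z.im) ⊆ Gᶜ := by
      rw [← pc_eq hz]
      rintro p hp ⟨P, hP, hpP⟩
      apply hzg
      rw [comps_eq (pc_mem hz) (hgs hP) hp hpP]
      exact hP
    obtain ⟨A, hA, hA', hAR, hcA, hAG⟩ := Thin_12.exists_clopen hRc hzR
      hgc.isClosed.isOpen_compl hW
    have h1 : (z.re, z.im) ∈ ⋃ A : ι, (R \ A.1)ᶜ := by
      refine mem_iUnion.2 ⟨⟨A, hA, hA', hAR, hAG⟩, fun hc => hc.2 ?_⟩
      exact hcA (mem_connectedComponentIn hzR)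
    rw [← hT] at h1
    obtain ⟨B, hB, hzB⟩ := mem_iUnion₂.1 h1
    have hzB' : (z.re, z.im) ∈ B.1 := by
      by_contra hc
      exact hzB ⟨hzR, hc⟩
    refine ⟨B, hB, ?_⟩
    have hcon : IsPreconnected (pc E z) := by
      rw [pc_eq hz]; exact isPreconnected_connectedComponentIn
    have hsub : pc E z ⊆ B.1 ∪ (R \ B.1) := by
      intro p hp
      have hpR : p ∈ R := by
        have h2 : pc E z ⊆ R := by rw [pc_eq hz]; exact connectedComponentIn_subset _ _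
        exact h2 hp
      by_cases h : p ∈ B.1
      · exact Or.inl h
      · exact Or.inr ⟨hpR, h⟩
    rcases isPreconnected_iff_subset_of_disjoint_closed.1 hcon _ _ B.2.1.isClosed
      B.2.2.1.isClosed hsub (by
        rw [eq_empty_iff_forall_notMem]
        rintro p ⟨-, h1, h2⟩
        exact h2.2 h1) with h | h
    · exact h
    · exact absurd hzB' (h (mem_pc hz)).2
  -- the functions `κ f`
  set f' : ℝ × ℝ → ℝ := fun p => if p ∈ R then 0 else f p with hf'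
  have hf'R : ∀ p ∉ R, f' p = f p := fun p hp => if_neg hp
  have hex : ∀ A : ι, ∃ β : ℂ → ℝ, LB β ∧ NI E u β ∧
      ∀ z ∈ E, pc E z ⊆ A.1 → ∀ ε > 0, ∃ O, Nb E z O ∧ ∀ w ∈ O, w ∉ E → |toC ψ w - β w| ≤ ε := by
    intro A
    obtain ⟨κ, ⟨L, hκ⟩, hκc, hκ01, ⟨O₁, hO₁, hAO₁, h1⟩, ⟨O₀, hO₀, hRO₀, h0⟩⟩ :=
      Plh_412.exists_cutoff A.2.1 A.2.2.1.isClosed disjoint_sdiff_self_right
    have hGO : ⋃₀ g ⊆ O₀ := by
      intro p hp
      refine hRO₀ ⟨?_, fun hc => A.2.2.2.2 hc hp⟩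
      obtain ⟨P, hP, hpP⟩ := hp
      obtain ⟨x, hx, rfl⟩ := hgs hP
      exact connectedComponentIn_subset _ _ hpP
    have hp0 := hpla κ L hκ hκc ⟨O₀, hO₀, hGO, h0⟩
    have hp1 : PlaLim R 𝒬 (fun p => κ p * f' p) := plaLim_congr hp0 fun p hp => by rw [hf'R p hp]
    obtain ⟨C, hC⟩ := plaLim_bdd hp1
    have hbdd : ∃ C : ℝ, ∀ p, |κ p * f' p| ≤ C := by
      refine ⟨max C 0, fun p => ?_⟩
      by_cases hp : p ∈ R
      · simp only [hf', if_pos hp, mul_zero, abs_zero]; exact le_max_right _ _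
      · exact (hC p hp).trans (le_max_left _ _)
    set oA : Set (ℝ × ℝ) → ℝ := fun P => if P ⊆ A.1 then o P else 0 with hoA
    have hTC : TCont R (fun p => κ p * f' p) oA := by
      refine ⟨?_, hbdd, ?_, ?_, ?_⟩
      · refine hκ.continuous.continuousOn.mul ?_
        exact hfc.congr fun p hp => hf'R p hp
      · intro P hP
        simp only [hoA]
        split_ifs
        · exact hnn P hP
        · exact le_rfl
      · intro P hP
        by_cases hPA : P ⊆ A.1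
        · simp only [hoA, if_pos hPA]
          intro ε hε
          obtain ⟨O, hO, hPO, h2⟩ := hosc P hP (ε / 3) (by positivity)
          obtain ⟨O', hO', hPO', h3⟩ := hlim P hP (ε / 3) (by positivity)
          refine ⟨O ∩ O' ∩ O₁, (hO.inter hO').inter hO₁,
            subset_inter (subset_inter hPO hPO') (hPA.trans hAO₁), ?_⟩
          rintro q ⟨⟨⟨hq1, hq2⟩, hq3⟩, hqR⟩ q' ⟨⟨⟨hq1', hq2'⟩, hq3'⟩, hqR'⟩
          simp only [h1 q hq3, h1 q' hq3', one_mul, hf'R q hqR, hf'R q' hqR']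
          have e1 := abs_le.1 (h2 q ⟨hq1, hqR⟩ q' ⟨hq1', hqR'⟩)
          have e2 := h3 q ⟨hq2, hqR⟩
          have e3 := h3 q' ⟨hq2', hqR'⟩
          rw [sub_zero] at e2 e3
          have e2' := abs_le.1 e2
          have e3' := abs_le.1 e3
          rw [abs_le]
          constructor <;> linarith [e1.1, e1.2, e2'.1, e2'.2, e3'.1, e3'.2]
        · simp only [hoA, if_neg hPA]
          -- `P ⊆ R \ A`
          have hPR : P ⊆ R := by
            obtain ⟨x, hx, rfl⟩ := hP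
            exact connectedComponentIn_subset _ _
          have hPc : IsPreconnected P := by
            obtain ⟨x, hx, rfl⟩ := hP
            exact isPreconnected_connectedComponentIn
          have hPB : P ⊆ R \ A.1 := by
            have hsub : P ⊆ A.1 ∪ (R \ A.1) := by
              intro p hp
              by_cases h : p ∈ A.1
              · exact Or.inl h
              · exact Or.inr ⟨hPR hp, h⟩
            rcases isPreconnected_iff_subset_of_disjoint_closed.1 hPc _ _ A.2.1.isClosed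
              A.2.2.1.isClosed hsub (by
                rw [eq_empty_iff_forall_notMem]
                rintro p ⟨-, h1, h2⟩
                exact h2.2 h1) with h | h
            · exact absurd h hPA
            · exact h
          intro ε hε
          refine ⟨O₀, hO₀, hPB.trans hRO₀, ?_⟩
          rintro q ⟨hq, -⟩ q' ⟨hq', -⟩
          simp only [h0 q hq, h0 q' hq', zero_mul, sub_zero, abs_zero]
          linarith
      · refine Summable.of_nonneg_of_le (fun _ => sq_nonneg _) (fun P => ?_) hsum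
        simp only [hoA]
        split_ifs
        · exact le_rfl
        · rw [zero_pow two_ne_zero]; exact sq_nonneg _
    refine ⟨toC fun p => κ p * f' p, ?_, hNI _ oA hp1 hTC, ?_⟩
    · obtain ⟨C, hC⟩ := hbdd
      exact LB.of_bdd ⟨C, fun z => hC _⟩
    · intro z hz hzA ε hε
      obtain ⟨O', hO', hPO', h3⟩ := hlim _ (pc_mem hz) ε hε
      refine ⟨setC (O' ∩ O₁), nb_of_pc hz (hO'.inter hO₁)
        (subset_inter hPO' (hzA.trans hAO₁)), fun w hw hwE => ?_⟩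
      have hw1 : (w.re, w.im) ∈ O' := hw.1
      have hw2 : (w.re, w.im) ∈ O₁ := hw.2
      have hwR : (w.re, w.im) ∉ R := hwE
      have h4 := h3 (w.re, w.im) ⟨hw1, hwR⟩
      rw [sub_zero] at h4
      show |ψ (w.re, w.im) - κ (w.re, w.im) * f' (w.re, w.im)| ≤ ε
      rw [h1 _ hw2, one_mul, hf'R _ hwR]
      exact h4
  choose β hβ hβN hβc using hex
  refine measure_mono_null (t := ⋃ A ∈ T, NP E u (β A)) ?_
    ((measure_biUnion_null_iff hTc).2 fun A _ => hβN A)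
  rintro p ⟨z, ⟨hz, hzg⟩, h1, h2, h3, h4⟩
  obtain ⟨A, hA, hzA⟩ := hcov z hz hzg
  refine mem_iUnion₂.2 ⟨A, hA, z, hz, h1, h2, ?_, ?_⟩
  · rw [← lo_eq_of_close' hE hψ (hβ A) (hβc A z hz hzA)]; exact h3
  · rw [← up_eq_of_close' hE hψ (hβ A) (hβc A z hz hzA)]; exact h4

/-! ### glue -/

/-- **the strip half**: vertical segments crossing a common level -/
theorem strip_null (hE : IsExteriorDomain Eᶜ) (hu : LB u) (hψ : LB (toC ψ)) {Bm Bp : ℝ}
    (hg : FamQ (setR E) g Bm Bp)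
    (hs : ∃ C : Set (Set (ℝ × ℝ)), C.Countable ∧ ∃ F : ℝ → ℝ, Antitone F ∧
      ∀ P ∈ g, P ∉ C → ∃ K : Hair, P = K.car ∧ LimAt (setR E) P ψ (F K.x)) :
    volume (NPon E u (toC ψ) {z | z ∈ E ∧ pc E z ∈ g}) = 0 := by
  classical
  obtain ⟨C, hC, F, hF, h⟩ := hs
  -- the members outside `C`
  have h1 : volume (NPon E u (toC ψ) {z | z ∈ E ∧ pc E z ∈ g ∧ pc E z ∉ C}) = 0 := by
    have key : ∀ z ∈ {z | z ∈ E ∧ pc E z ∈ g ∧ pc E z ∉ C}, ∃ K : Hair, pc E z = K.car ∧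
        LimAt (setR E) (pc E z) ψ (F K.x) ∧ K.x = z.re := by
      rintro z ⟨hz, hzg, hzC⟩
      obtain ⟨K, hK, hL⟩ := h _ hzg hzC
      refine ⟨K, hK, hL, ?_⟩
      have h2 : (z.re, z.im) ∈ K.car := by rw [← hK]; exact mem_pc hz
      exact (CF_363.Hair.mem_car.1 h2).1.symm
    refine Cdf_377.volume_NPon_family (B := Bm) (G := F) hE hu (Or.inr hF) (fun z hz => hz.1)
      (fun z hz => ?_) (fun z hz _ => ?_)
    · obtain ⟨K, hK, -, hx⟩ := key z hz
      obtain ⟨⟨p, hp, hp2⟩, ⟨q, hq, hq2⟩⟩ := hg.crs _ hz.2.1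
      have hlt := hg.lt
      rw [hK] at hp hq
      have hp' := CF_363.Hair.mem_car.1 hp
      have hq' := CF_363.Hair.mem_car.1 hq
      have : ((z.re, Bm) : ℝ × ℝ) ∈ pc E z := by
        rw [hK]
        exact CF_363.Hair.mem_car.2 ⟨hx.symm, by linarith [hp'.2.1], by linarith [hq'.2.2]⟩
      exact this
    · obtain ⟨K, hK, hL, hx⟩ := key z hz
      refine (up_eq_of_close hE hψ (z := z) (s := F z.re) fun ε hε => ?_).1
      obtain ⟨O, hO, hPO, hc⟩ := hL ε hε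
      refine ⟨setC O, nb_of_pc hz.1 hO hPO, fun w hw hwE => ?_⟩
      have h3 := hc (w.re, w.im) ⟨hw, hwE⟩
      rw [hx] at h3
      exact h3
  -- the countably many members in `C`
  have h2 : volume (NPon E u (toC ψ) {z | z ∈ E ∧ pc E z ∈ C}) = 0 := by
    have hcount : (NPon E u (toC ψ) {z | z ∈ E ∧ pc E z ∈ C}).Countable := by
      have hr : ∀ P ∈ C, ∀ z, z ∈ E → pc E z = P → ∀ z', z' ∈ E → pc E z' = P →
          connectedComponentIn E z' = connectedComponentIn E z := by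
        intro P _ z _ hzP z' _ hzP'
        exact setR_inj (hzP'.trans hzP.symm)
      let v : Set (ℝ × ℝ) → ℝ × ℝ := fun P =>
        if h : ∃ z, z ∈ E ∧ pc E z = P then (up E u h.choose, up E (toC ψ) h.choose) else 0
      refine (hC.image v).mono ?_
      rintro p ⟨z, ⟨hz, hzC⟩, -, h3, -, h4⟩
      refine ⟨pc E z, hzC, ?_⟩
      have hex : ∃ z', z' ∈ E ∧ pc E z' = pc E z := ⟨z, hz, rfl⟩
      simp only [v]
      rw [dif_pos hex]
      have h5 := hex.choose_spec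
      have h6 : connectedComponentIn E hex.choose = connectedComponentIn E z :=
        hr _ hzC z hz rfl _ h5.1 h5.2
      have h7 : hex.choose ∈ connectedComponentIn E z := by
        rw [← h6]; exact mem_connectedComponentIn h5.1
      rw [up_congr_cc hz h7, up_congr_cc hz h7, h3, h4]
    exact hcount.measure_zero _
  refine measure_mono_null ?_ (measure_union_null h1 h2)
  rintro p ⟨z, ⟨hz, hzg⟩, h'⟩
  by_cases hzC : pc E z ∈ C
  · exact Or.inr ⟨z, ⟨hz, hzC⟩, h'⟩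
  · exact Or.inl ⟨z, ⟨hz, hzg, hzC⟩, h'⟩

variable {U : Set ℂ} {F : ℂ → ℂ} {x0 φ : ℂ → ℝ} {a : ℕ → ℂ → ℝ}

/-- **stream functions are admissible** -/
theorem strq_adm (hPL : PLAP) (hU : IsExteriorDomain U) (h : Pk Uᶜ x0 a φ F) (hi : InjOn F U)
    (hP : PicT (F '' U)ᶜ) {Bm Bp : ℝ} (hg : FamQ (PE U F) g Bm Bp) {o : Set (ℝ × ℝ) → ℝ}
    (hT : TFin (PE U F) ψ o)
    (hstrip : ∃ C : Set (Set (ℝ × ℝ)), C.Countable ∧ ∃ G : ℝ → ℝ, Antitone G ∧
      ∀ P ∈ g, P ∉ C → ∃ K : Hair, P = K.car ∧ LimAt (PE U F) P ψ (G K.x))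
    (hoff : ∃ f : ℝ × ℝ → ℝ, ContinuousOn f (PE U F)ᶜ ∧
      (∀ P ∈ Comps (PE U F), LimAt (PE U F) P (fun p => ψ p - f p) 0) ∧
      ∀ (κ : ℝ × ℝ → ℝ) (L : ℝ≥0), LipschitzWith L κ → HasCompactSupport κ →
      (∃ O, IsOpen O ∧ ⋃₀ g ⊆ O ∧ ∀ p ∈ O, κ p = 0) →
        PlaLim (PE U F) (sqs (F '' U)ᶜ) fun p => κ p * f p) : AdmP U a F ψ := by
  intro i
  have hE := endMap h hU hi
  have hY : IsExteriorDomain ((F '' U)ᶜ)ᶜ := by rw [compl_compl]; exact hE.hV
  have hup : LB (Ta_937.push hE (a i)) := by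
    obtain ⟨M, hM⟩ := (h.tta i).q.bdd
    exact LB.of_bdd ⟨M, fun z => hM _⟩
  have hψb : LB (toC ψ) := by
    obtain ⟨M, hM⟩ := hT.reg.bdd
    exact LB.of_bdd ⟨M, fun z => hM _⟩
  obtain ⟨f, hfc, hlim, hpla⟩ := hoff
  have h1 := strip_null hY hup hψb hg hstrip
  have h2 := off_null hY hψb hT.nn hT.osc hT.sum hg.sub hg.cpt hfc hlim hpla
    (u := Ta_937.push hE (a i)) fun f o hf ho =>
      (Ta_937.ni_mixed hE (a i) (toC f)).2 (hPL U x0 a φ F h hi hP f o hf ho i)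
  have h3 : NI (F '' U)ᶜ (Ta_937.push hE (a i)) (toC ψ) := by
    refine measure_mono_null ?_ (measure_union_null h1 h2)
    rintro p ⟨z, hz, h'⟩
    by_cases hzg : pc (F '' U)ᶜ z ∈ g
    · exact Or.inl ⟨z, ⟨hz, hzg⟩, h'⟩
    · exact Or.inr ⟨z, ⟨hz, hzg⟩, h'⟩
  exact (Ta_937.ni_mixed hE (a i) (toC ψ)).1 h3

end

end Crest.Agent.R105.SkJ_987
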