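import Crest.Agent.R105.Nie2_909
import Crest.Agent.R105.Nie3_909
import Crest.Agent.R105.SkJ3_987

/-!
# Row 105, S0138 (NI frame), node NIEP, part 4 (helper909): LIMP and PLAP, anchor by anchor

For the package `Pk` (8), the picture `PicT` (185) and ONE anchor `a i`:
* `LYi`  : Lemma Y: small variation of `Im F` along a.e. level, off the jump components of `φ`
* `HCi`  : `osc φ K = 0 → osc (a i) K = 0`
* `ATNi` : a.e. level meets a solid only at its square
imply: limits of cut functions (`limp_i`) and planar limits (`plap_i`) are admissible for `a i`.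
-/

set_option autoImplicit false

open MeasureTheory Set Filter Topology Metric
open scoped NNReal ENNReal

namespace Crest.Agent.R105.Nie_909

open Crest.AnalysisR Tc_808 Ni_459 Sqr_185 Ends_897 Plv_626
open Bd_775 (Q en)
open IfB_641 (X0)
open Cq_463 (Sqr QPic)
open CF_363 (Hair g2 SL CFJ CF cut mem_cut isClosed_cut isCompact_cut volume_cut)
open Skp2_257 (Comps Reg)
open Tra_937 (setR setC toC Uni)
open Pct_185 (PicT Sol)
open Stp_722 (OscLe)
open Ta_937 (sqs hrs corE)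
open SkA_8 (Pk)
open SkJ_987 (PE AdmP endMap TCont)

noncomputable section

variable {U : Set ℂ} {F : ℂ → ℂ} {x0 φ : ℂ → ℝ} {a : ℕ → ℂ → ℝ} {ψ g : ℝ × ℝ → ℝ}

/-- the jump components of `φ` (= the solids) -/
abbrev JP (Y : Set ℂ) (φ : ℂ → ℝ) : Set (Cmp Y) := {K | osc Y φ K.1 ≠ 0}

/-- Lemma Y for the anchor `α` -/
def LYi (U : Set ℂ) (x0 φ α : ℂ → ℝ) (F : ℂ → ℂ) : Prop :=
  ∀ᵐ t : ℝ, SmV Uᶜ (Lv Uᶜ (fun z => x0 z + α z) t) (Sv (JP Uᶜ φ)) (fun z => (F z).im)

/-- the anchor `α` jumps at solids only -/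
def HCi (U : Set ℂ) (φ α : ℂ → ℝ) : Prop := ∀ K : Cmp Uᶜ, osc Uᶜ φ K.1 = 0 → osc Uᶜ α K.1 = 0

/-- a.e. level of `x0 + α` meets a solid only at its square -/
def ATNi (U : Set ℂ) (x0 α : ℂ → ℝ) (F : ℂ → ℂ) : Prop :=
  ∀ᵐ t : ℝ, ∀ Q ∈ sqs (F '' U)ᶜ, ∀ P ∈ Comps (PE U F), Q.car ⊆ P → ∀ δ > 0,
    ∃ O, IsOpen O ∧ P ⊆ O ∧ ∀ z ∈ U, ((F z).re, (F z).im) ∈ O → x0 z + α z = t →
      infDist ((F z).re, (F z).im) Q.car < δ

theorem reg_q (hg : Reg (PE U F) g) : Q (F '' U)ᶜ (toC g) := Ta_937.q_toC hg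

/-- energy of the pull back -/
theorem en_pull (hE : EndMap U (F '' U) F) (hF : Uni U F) (hg : Reg (PE U F) g) :
    ∫⁻ z in (Uᶜ)ᶜ, ENNReal.ofReal (en (fun z => toC g (F z)) z) =
      ENNReal.ofReal (∫ p in (PE U F)ᶜ, g2 g p) := by
  have h1 : Q Uᶜ (toC g ∘ F) := Ta_937.q_comp hE hF (reg_q hg)
  have hl : LocallyLipschitzOn (F '' U) (toC g) := by
    have := (reg_q hg).loc; rwa [compl_compl] at this
  have h2 := Ta_937.int_en hE hF hl
  have h3 : ∫ w in F '' U, en (toC g) w = ∫ p in (PE U F)ᶜ, g2 g p := by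
    rw [← Tra_937.integral_toC, ← Tra_937.setR_compl, Tra_937.setC_setR, compl_compl]
    congr 1
    funext w
    exact Ta_937.en_toC'' g w
  rw [← h3, ← h2]
  have hfin := h1.fin
  rw [compl_compl] at hfin ⊢
  rw [ofReal_integral_eq_lintegral_ofReal hfin (Eventually.of_forall fun z => Bd_775.en_nonneg _ z)]
  rfl

section
variable (hU : IsExteriorDomain U) (h : Pk Uᶜ x0 a φ F) (hi : InjOn F U) (hP : PicT (F '' U)ᶜ)
include hU h hi hP

theorem uni_of : Uni U F := by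
  have hd := h.hol
  rw [compl_compl] at hd
  exact ⟨hU.1, hd, hi⟩

/-- width of the picture component = jump of `φ` -/
theorem osc_wd (K : Cmp Uᶜ) :
    osc Uᶜ φ K.1 = wd (corE (endMap h hU hi) K).1 := by
  have hre := h.re
  rw [compl_compl] at hre
  exact Ta_937.osc_coord (endMap h hU hi) h.hx (fun z hz => (hre z hz).symm) K

/-- `Re F` has small variation along the levels -/
theorem smv_re (i : ℕ) : ∀ᵐ t : ℝ,
    SmV Uᶜ (Lv Uᶜ (fun z => x0 z + a i z) t) (Sv (JP Uᶜ φ)) (fun z => (F z).re) := by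
  have h1 := smv_of_ni h.hY h.hx (h.tta i) h.tt (h.com i) (P := JP Uᶜ φ) h.tt.countable
    (fun K hK => hK)
  filter_upwards [h1] with t ht δ hδ
  obtain ⟨V, hV, hsub, hvar⟩ := ht δ hδ
  refine ⟨V ∩ (tsupport x0)ᶜ, hV.inter (isClosed_tsupport x0).isOpen_compl, fun z hz =>
    ⟨hsub hz, fun hc => h.hx.zero hc hz.1.2⟩, ?_⟩
  refine (hvar.mono inter_subset_left le_rfl).congr ?_
  rintro z ⟨⟨-, -, hz⟩, hzY⟩
  have h2 := h.re z hzY
  rw [h2, image_eq_zero_of_notMem_tsupport hz, zero_add]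

end

end

end Crest.Agent.R105.Nie_909
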