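import Crest.Agent.R105.Nod3_281
import Crest.Agent.R105.Nie4_909

/-!
# Row 105, S0138 (NI frame), node E13, NO NODE, part 4 (helper281): adapter to 909's `HCi`

`no_node_pk` : package `Pk` + picture `PicT` + `LYi` + `ATNi` for ONE anchor `a i`, `q` off `F '' U`
and off the closed squares: a.e. level of `x0 + a i` stays away from `q`.
`hc_of`      : if `F` reaches ONE point `q` of the picture component of `K` (`osc φ K = 0`) along
a.e. level between the two values of the anchor at `K`, then the anchor does not jump at `K`.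
-/

set_option autoImplicit false

open MeasureTheory Set Filter Topology Metric
open scoped NNReal ENNReal

namespace Crest.Agent.R105.Nod_281

open Crest.AnalysisR Tc_808 Ends_897 Plv_626 Nie_909
open Ni_459 (Lv)
open Bd_775 (Q en)
open IfB_641 (X0)
open Cq_463 (Sqr)
open Skp2_257 (Comps)
open Tra_937 (setR Uni)
open Pct_185 (PicT)
open Ta_937 (sqs corE)
open SkA_8 (Pk)
open SkJ_987 (PE endMap)
open Sqr_185 (SqK wd)

noncomputable section

/-- centre of a square -/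
def ctr (Q : Sqr) : ℂ := ⟨Q.x + Q.s / 2, Q.y + Q.s / 2⟩

lemma mem_CSq_ctr {Q : Sqr} {w : ℂ} : w ∈ CSq (ctr Q) (Q.s / 2) ↔ (w.re, w.im) ∈ Q.car := by
  simp only [CSq, ctr, mem_ofPred_eq, abs_le, Sqr.mem_car]
  constructor
  · rintro ⟨⟨h1, h2⟩, h3, h4⟩
    exact ⟨⟨by linarith, by linarith⟩, by linarith, by linarith⟩
  · rintro ⟨⟨h1, h2⟩, h3, h4⟩
    exact ⟨⟨by linarith, by linarith⟩, by linarith, by linarith⟩

lemma OSq_subset_CSq (c : ℂ) (r : ℝ) : OSq c r ⊆ CSq c r := fun _ hw => ⟨hw.1.le, hw.2.le⟩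

lemma volume_nm_ball (q : ℂ) {R : ℝ} (hR : 0 < R) :
    volume {w : ℂ | nm (w - q) < R} = ENNReal.ofReal (4 * R ^ 2) := by
  have h1 : {w : ℂ | nm (w - q) < R} = Bx (q.re - R) (q.im - R) (2 * R) := by
    ext w
    simp only [nm, Bx, mem_ofPred_eq, max_lt_iff, abs_lt, Complex.sub_re, Complex.sub_im, mem_Ioo]
    constructor
    · rintro ⟨⟨h1, h2⟩, h3, h4⟩
      exact ⟨⟨by linarith, by linarith⟩, by linarith, by linarith⟩
    · rintro ⟨⟨h1, h2⟩, h3, h4⟩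
      exact ⟨⟨by linarith, by linarith⟩, by linarith, by linarith⟩
  rw [h1, volume_Bx _ _ (by positivity)]
  congr 1
  ring

variable {U : Set ℂ} {F : ℂ → ℂ} {x0 φ : ℂ → ℝ} {a : ℕ → ℂ → ℝ}

/-- area of the part of the domain which is mapped near `q` -/
theorem area_GG (hF : Uni U F) {q : ℂ} {R : ℝ} (hR : 0 < R) :
    ∫⁻ z in GG Uᶜ F q R, ENNReal.ofReal (en (fun z => (F z).re) z + en (fun z => (F z).im) z)
      ≤ ENNReal.ofReal (8 * R ^ 2) := by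
  have hUo : IsOpen Uᶜᶜ := by rw [compl_compl]; exact hF.op
  have hFc : ContinuousOn F Uᶜᶜ := by rw [compl_compl]; exact hF.hol.continuousOn
  have hm : MeasurableSet (GG Uᶜ F q R) := (isOpen_GG hUo hFc).measurableSet
  have hsub : GG Uᶜ F q R ⊆ U := fun z hz => not_not.1 hz.1
  have himg : F '' GG Uᶜ F q R ⊆ {w : ℂ | nm (w - q) < R} := by
    rintro _ ⟨z, hz, rfl⟩
    exact hz.2
  calc ∫⁻ z in GG Uᶜ F q R, ENNReal.ofReal (en (fun z => (F z).re) z + en (fun z => (F z).im) z)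
      ≤ ∫⁻ z in GG Uᶜ F q R, (ENNReal.ofReal (en (fun z => (F z).re) z) +
        ENNReal.ofReal (en (fun z => (F z).im) z)) := lintegral_mono fun z => ENNReal.ofReal_add_le
    _ = (∫⁻ z in GG Uᶜ F q R, ENNReal.ofReal (en (fun z => (F z).re) z)) +
        ∫⁻ z in GG Uᶜ F q R, ENNReal.ofReal (en (fun z => (F z).im) z) :=
        lintegral_add_left (Vs_439.measurable_en' _).ennreal_ofReal _
    _ = volume (F '' GG Uᶜ F q R) + volume (F '' GG Uᶜ F q R) := by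
        have e1 : ∫⁻ z in GG Uᶜ F q R, ENNReal.ofReal (en (fun z => (F z).re) z) =
            volume (F '' GG Uᶜ F q R) := hF.lintegral_en_re hm hsub
        have e2 : ∫⁻ z in GG Uᶜ F q R, ENNReal.ofReal (en (fun z => (F z).im) z) =
            volume (F '' GG Uᶜ F q R) := hF.lintegral_en_im hm hsub
        rw [e1, e2]
    _ ≤ ENNReal.ofReal (4 * R ^ 2) + ENNReal.ofReal (4 * R ^ 2) := by
        have := (measure_mono himg).trans (volume_nm_ball q hR).le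
        exact add_le_add this this
    _ = ENNReal.ofReal (8 * R ^ 2) := by
        rw [← ENNReal.ofReal_add (by positivity) (by positivity)]
        congr 1
        ring

section
variable (hU : IsExteriorDomain U) (h : Pk Uᶜ x0 a φ F) (hi : InjOn F U) (hP : PicT (F '' U)ᶜ)
include hU h hi hP

/-- the square of a solid -/
theorem exists_sqK (K : Cmp Uᶜ) (hK : K ∈ JP Uᶜ φ) :
    ∃ Q ∈ sqs (F '' U)ᶜ, SqK (corE (endMap h hU hi) K).1 Q.x Q.y Q.s := by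
  have h1 : 0 < wd (corE (endMap h hU hi) K).1 := by
    rw [← osc_wd hU h hi hP K]
    exact lt_of_le_of_ne (osc_nonneg _ _ _) (Ne.symm hK)
  obtain ⟨Q, hQ, hQK, -⟩ := Ta_937.exists_sqr hP h1
  exact ⟨Q, hQ, hQK⟩

/-- **no node**, package form -/
theorem no_node_pk (i : ℕ) (hL : LYi U x0 φ (a i) F) (hA : ATNi U x0 (a i) F) {q : ℂ}
    (hqU : q ∉ F '' U) (hq : ∀ Q ∈ sqs (F '' U)ᶜ, (q.re, q.im) ∉ Q.car) :
    ∀ᵐ t : ℝ, ∃ δ > 0, ∀ z ∈ U, x0 z + a i z = t → δ ≤ ‖F z - q‖ := by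
  classical
  have hF := uni_of hU h hi hP
  have hE := endMap h hU hi
  have hYo : IsOpen (Uᶜᶜ : Set ℂ) := by rw [compl_compl]; exact hF.op
  set sq : Cmp Uᶜ → Sqr := fun K => if hK : K ∈ JP Uᶜ φ then (exists_sqK hU h hi hP K hK).choose
    else ⟨0, 0, 1, one_pos⟩ with hsq
  have hsq1 : ∀ K ∈ JP Uᶜ φ, sq K ∈ sqs (F '' U)ᶜ ∧ SqK (corE hE K).1 (sq K).x (sq K).y (sq K).s := by
    intro K hK
    have h1 := (exists_sqK hU h hi hP K hK).choose_spec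
    simp only [hsq, dif_pos hK]
    exact h1
  have hder : ∀ z ∉ Uᶜ, DifferentiableAt ℂ F z := fun z hz =>
    hF.hol.differentiableAt (hF.op.mem_nhds (not_not.1 hz))
  have hFl : LocallyLipschitzOn Uᶜᶜ F := by
    rw [compl_compl]
    have h1 : ContDiffOn ℂ 1 F U := hF.hol.contDiffOn hF.op
    intro z hz
    have h2 : ContDiffAt ℝ 1 F z := ((h1.contDiffAt (hF.op.mem_nhds hz))).restrict_scalars ℝ
    obtain ⟨C, s, hs, hC⟩ := h2.exists_lipschitzOnWith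
    exact ⟨C, s, mem_nhdsWithin_of_mem_nhds hs, hC⟩
  have hfar : Tendsto (fun z => ‖F z‖) (cocompact ℂ) atTop :=
    tendsto_norm_cocompact_atTop.comp hE.inf
  have hr : ∀ K ∈ JP Uᶜ φ, 0 < (sq K).s / 2 := fun K _ => half_pos (sq K).hs
  have hsub : ∀ K ∈ JP Uᶜ φ, ∀ w ∈ CSq (ctr (sq K)) ((sq K).s / 2), (w.re, w.im) ∈ setR (corE hE K).1 :=
    fun K hK w hw => Ta_937.sqK_car (hsq1 K hK).2 (mem_CSq_ctr.1 hw)
  have hd : (JP Uᶜ φ).PairwiseDisjoint fun K => OSq (ctr (sq K)) ((sq K).s / 2) := by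
    intro K hK K' hK' hne
    refine Set.disjoint_left.2 fun w hw hw' => hne ?_
    have h1 := hsub K hK w (OSq_subset_CSq _ _ hw)
    have h2 := hsub K' hK' w (OSq_subset_CSq _ _ hw')
    exact (corE hE).injective (Ta_937.cmp_unique h1 h2)
  have hlv : ∀ t : ℝ, ∀ z ∈ Lv Uᶜ (fun z => x0 z + a i z) t, z ∉ Uᶜ → x0 z + a i z = t := by
    intro t z hz hzY
    have hAl : LocallyLipschitzOn Uᶜᶜ (fun z => x0 z + a i z) := Nip_31.ll_x0 h.hx (h.tta i)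
    have hAb := Nip_31.lb_x0 h.hx (h.tta i)
    have hc := Nip_31.contAt h.hY hAl hzY
    have h1 := Ni_459.up_of_notMem h.hY hAb hzY hc
    have h2 := Ni_459.lo_of_notMem h.hY hAb hzY hc
    exact le_antisymm (h2 ▸ hz.1) (h1 ▸ hz.2)
  have hlv' : ∀ t : ℝ, ∀ z ∈ U, x0 z + a i z = t → z ∈ Lv Uᶜ (fun z => x0 z + a i z) t := by
    intro t z hz hzt
    have hzY : z ∉ Uᶜ := not_not.2 hz
    have hAl : LocallyLipschitzOn Uᶜᶜ (fun z => x0 z + a i z) := Nip_31.ll_x0 h.hx (h.tta i)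
    have hAb := Nip_31.lb_x0 h.hx (h.tta i)
    have hc := Nip_31.contAt h.hY hAl hzY
    have h1 := Ni_459.up_of_notMem h.hY hAb hzY hc
    have h2 := Ni_459.lo_of_notMem h.hY hAb hzY hc
    exact ⟨h2.le.trans hzt.le, hzt.ge.trans h1.ge⟩
  have hat : ∀ᵐ t : ℝ, ∀ K ∈ JP Uᶜ φ, K.1 ⊆ Lv Uᶜ (fun z => x0 z + a i z) t → ∀ δ > 0,
      ∃ O, IsOpen O ∧ K.1 ⊆ O ∧ ∀ z ∈ (O ∩ Lv Uᶜ (fun z => x0 z + a i z) t) \ Uᶜ,
        ∃ w ∈ CSq (ctr (sq K)) ((sq K).s / 2), ‖F z - w‖ < δ := by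
    filter_upwards [hA] with t ht K hK _ δ hδ
    have h1 := hsq1 K hK
    obtain ⟨O, hO, hPO, hO2⟩ := ht (sq K) h1.1 (setR (corE hE K).1)
      (Ta_937.mem_comps.2 ⟨corE hE K, rfl⟩) (Ta_937.sqK_car h1.2) (δ / 2) (half_pos hδ)
    have hOc : IsOpen {w : ℂ | (w.re, w.im) ∈ O} :=
      hO.preimage (Complex.continuous_re.prodMk Complex.continuous_im)
    have hLO : (corE hE K).1 ⊆ {w : ℂ | (w.re, w.im) ∈ O} := by
      intro w hw
      exact hPO (show (⟨w.re, w.im⟩ : ℂ) ∈ (corE hE K).1 from hw)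
    obtain ⟨O', hO', hKO', hpull⟩ := Ta_937.exists_nhd_pull hE K hOc hLO
    refine ⟨O', hO', hKO', ?_⟩
    rintro z ⟨⟨hzO, hzL⟩, hzY⟩
    have hzU : z ∈ U := not_not.1 hzY
    have h2 := hO2 z hzU (hpull z hzO hzU) (hlv t z hzL hzY)
    obtain ⟨p, hp, hpd⟩ := (infDist_lt_iff (sq K).nonempty).1 h2
    refine ⟨⟨p.1, p.2⟩, mem_CSq_ctr.2 hp, ?_⟩
    rw [Prod.dist_eq, max_lt_iff, Real.dist_eq, Real.dist_eq] at hpd
    have h3 := Complex.norm_le_abs_re_add_abs_im (F z - ⟨p.1, p.2⟩)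
    simp only [Complex.sub_re, Complex.sub_im] at h3
    linarith [hpd.1, hpd.2]
  have hmain := no_node (q := q) (C := 8) h.hY h.hx (h.tta i) (h.swd i) (P := JP Uᶜ φ)
    h.tt.countable (fun z hz => (hder z hz).restrictScalars ℝ) hFl hfar (smv_re hU h hi hP i) hL
    (c := fun K => ctr (sq K)) (r := fun K => (sq K).s / 2) hr hd hat
    (fun R hR _ => area_GG hF hR)
    (fun z hz hzq => hqU ⟨z, not_not.1 hz, hzq⟩)
    (fun K hK hqK => hq (sq K) (hsq1 K hK).1 (mem_CSq_ctr.1 hqK))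
  filter_upwards [hmain] with t ht
  obtain ⟨δ, hδ, h1⟩ := ht
  exact ⟨δ, hδ, fun z hz hzt => h1 z ⟨hlv' t z hz hzt, not_not.2 hz⟩⟩

/-- points of a flat component are off `F '' U` and off the squares -/
theorem off_of_flat (K : Cmp Uᶜ) (hK : osc Uᶜ φ K.1 = 0) {q : ℂ}
    (hq : q ∈ (corE (endMap h hU hi) K).1) :
    q ∉ F '' U ∧ ∀ Q ∈ sqs (F '' U)ᶜ, (q.re, q.im) ∉ Q.car := by
  refine ⟨(corE (endMap h hU hi) K).subset hq, ?_⟩
  rintro Q ⟨L, hQL⟩ hqQ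
  have h1 : (q.re, q.im) ∈ setR L.1 := Ta_937.sqK_car hQL hqQ
  have h2 : (q.re, q.im) ∈ setR (corE (endMap h hU hi) K).1 := hq
  have h3 := Ta_937.cmp_unique h1 h2
  have h4 := Ta_937.sqK_wd hP.cpt hQL
  rw [h3, ← osc_wd hU h hi hP K, hK] at h4
  exact absurd h4 Q.hs.ne

/-- **(3)(b): the anchor does not jump at a flat component** -/
theorem hc_of (i : ℕ) (hL : LYi U x0 φ (a i) F) (hA : ATNi U x0 (a i) F) (K : Cmp Uᶜ)
    (hK : osc Uᶜ φ K.1 = 0) {k : ℂ} (hk : k ∈ K.1) {q : ℂ}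
    (hq : q ∈ (corE (endMap h hU hi) K).1)
    (hend : ∀ᵐ t : ℝ, t ∈ Ioo (Ni_459.lo Uᶜ (fun z => x0 z + a i z) k)
      (Ni_459.up Uᶜ (fun z => x0 z + a i z) k) →
      ∀ ε > 0, ∃ z ∈ U, x0 z + a i z = t ∧ ‖F z - q‖ < ε) :
    osc Uᶜ (a i) K.1 = 0 := by
  obtain ⟨h1, h2⟩ := off_of_flat hU h hi hP K hK hq
  have h3 := no_node_pk hU h hi hP i hL hA h1 h2
  have hkY : k ∈ Uᶜ := K.subset hk
  have hcc : K.1 = connectedComponentIn Uᶜ k := congrArg Subtype.val (K.eq_of_mem hk)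
  have hAb := Nip_31.lb_x0 h.hx (h.tta i)
  have h4 : osc Uᶜ (a i) K.1 = Ni_459.up Uᶜ (fun z => x0 z + a i z) k -
      Ni_459.lo Uᶜ (fun z => x0 z + a i z) k := by
    rw [hcc, Ni_459.osc_eq h.hY (h.tta i).q.bdd hkY, Nip_31.lo_x0 h.hx hkY, Nip_31.up_x0 h.hx hkY]
  rw [h4]
  by_contra hne
  have h5 : Ni_459.lo Uᶜ (fun z => x0 z + a i z) k < Ni_459.up Uᶜ (fun z => x0 z + a i z) k := by
    have := Ni_459.lo_le_up h.hY hAb k
    exact lt_of_le_of_ne this fun h => hne (by rw [h, sub_self])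
  have h6 : volume (Ioo (Ni_459.lo Uᶜ (fun z => x0 z + a i z) k)
      (Ni_459.up Uᶜ (fun z => x0 z + a i z) k)) ≠ 0 := by
    rw [Real.volume_Ioo, Ne, ENNReal.ofReal_eq_zero, not_le]
    linarith
  have h9 : ∃ᶠ t in ae (volume : Measure ℝ), t ∈ Ioo (Ni_459.lo Uᶜ (fun z => x0 z + a i z) k)
      (Ni_459.up Uᶜ (fun z => x0 z + a i z) k) := by
    rw [frequently_ae_iff]
    exact h6
  obtain ⟨t, ht, ⟨δ, hδ, h7⟩, h8⟩ := (h9.and_eventually (h3.and hend)).exists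
  obtain ⟨z, hz, hzt, hlt⟩ := h8 ht δ hδ
  exact absurd (h7 z hz hzt) (not_le.2 hlt)

/-- `HCi` from "all ends coincide" -/
theorem hci_of (i : ℕ) (hL : LYi U x0 φ (a i) F) (hA : ATNi U x0 (a i) F)
    (H : ∀ K : Cmp Uᶜ, osc Uᶜ φ K.1 = 0 → osc Uᶜ (a i) K.1 ≠ 0 →
      ∃ k ∈ K.1, ∃ q ∈ (corE (endMap h hU hi) K).1,
        ∀ᵐ t : ℝ, t ∈ Ioo (Ni_459.lo Uᶜ (fun z => x0 z + a i z) k)
          (Ni_459.up Uᶜ (fun z => x0 z + a i z) k) →
          ∀ ε > 0, ∃ z ∈ U, x0 z + a i z = t ∧ ‖F z - q‖ < ε) : HCi U φ (a i) := by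
  intro K hK
  by_contra hne
  obtain ⟨k, hk, q, hq, hend⟩ := H K hK hne
  exact hne (hc_of hU h hi hP i hL hA K hK hk hq hend)

end

end

end Crest.Agent.R105.Nod_281
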