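import Crest.Agent.R105.Eta4_179
import Crest.Agent.R105.Yv6_319
import Crest.Agent.R105.Pct5_185
import Crest.Agent.R105.Nod4_281

/-!
# R105 (S0138, HCi): ends of levels at a free hair, part 5 (helper179): the adapter

* `tt_test` : a smooth function with germs `c G(x)` off one component is in `TT`
* `elz_yP`  : `ELZ` in the picture of the anchor from minimality against `f ∘ P`
* `min_testZ` : the final minimiser is minimal against `f ∘ P` (`P` = picture of an extremal anchor)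
* `exists_eta_all` : one limit from above along a.e. line of the whole solid
-/

set_option autoImplicit false

open Set Filter MeasureTheory Metric
open scoped Topology NNReal ContDiff ENNReal

namespace Crest.Agent.R105.Eta_179

open Crest.AnalysisR Tc_808 Bd_775 Sqr_185 Ends_897 Yv_319
open Sct_636 (LCE continuous_mk)
open Pct_185 (Sol pt pt_mem PicT)
open IfB_641 (X0)
open Tra_937 (Uni)
open Ta_937 (corE osc_comp int_wdg ae_of_loc tt_comp compact_comp exists_nhd_pull)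
open Ni_459 (NI)
open SkA_8 (Pk)

noncomputable section

variable {E : Set ℂ} {L0 : Cmp E}

/-! ### the class of the tests -/

theorem tt_test (hE : IsCompact E) (hsum : Summable fun L : Cmp E => wd L.1 ^ 2) {f : ℂ → ℝ}
    {G : ℝ → ℝ} {c : Cmp E → ℝ} (hf : ContDiff ℝ ∞ f) (hfc : HasCompactSupport f)
    (hG : ContDiff ℝ ∞ G) (hGc : HasCompactSupport G) (hc : (range c).Finite)
    (hn : ∀ L, L ≠ L0 → ∀ p ∈ L.1, ∀ᶠ w in 𝓝 p, f w = c L * G w.re) : TT E f := by
  refine ⟨⟨?_, ?_, ?_⟩, ?_⟩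
  · obtain ⟨C, hC⟩ := hfc.exists_bound_of_continuous hf.continuous
    exact ⟨C, hC⟩
  · exact ((hf.of_le (by simp : (1 : WithTop ℕ∞) ≤
      ((⊤ : ℕ∞) : WithTop ℕ∞))).locallyLipschitz).locallyLipschitzOn
  · have hd : Continuous (fderiv ℝ f) := hf.continuous_fderiv (by simp)
    have h1 : Continuous (Bd_775.en f) :=
      ((hd.clm_apply continuous_const).pow 2).add ((hd.clm_apply continuous_const).pow 2)
    refine (h1.integrable_of_hasCompactSupport ?_).integrableOn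
    refine (hfc.fderiv (𝕜 := ℝ)).mono ?_
    intro z hz hz0
    apply hz
    have h2 : fderiv ℝ f z = 0 := hz0
    simp [Bd_775.en, Bd_775.gx, Bd_775.gy, h2]
  · classical
    obtain ⟨C, hC⟩ := Pct_185.lip_of_deriv hG hGc.deriv
    obtain ⟨M, hM⟩ := hc.isBounded.exists_norm_le
    have hM0 : 0 ≤ M := (norm_nonneg _).trans (hM _ (mem_range_self L0))
    obtain ⟨M', hM'⟩ : ∃ M' : ℝ≥0, (M' : ℝ) = M := ⟨⟨M, hM0⟩, rfl⟩
    have h1 : Summable fun L : Cmp E => (if L = L0 then osc E f L0.1 ^ 2 else 0) +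
        (((M' * C : ℝ≥0) : ℝ) * (((M' * C : ℝ≥0) : ℝ) * wd L.1 ^ 2)) := by
      refine Summable.add (summable_of_ne_finset_zero (s := {L0}) fun L hL => ?_)
        ((hsum.mul_left _).mul_left _)
      rw [if_neg (by simpa using hL)]
    refine Summable.of_nonneg_of_le (fun _ => sq_nonneg _) (fun L => ?_) h1
    by_cases hL : L = L0
    · subst hL
      rw [if_pos rfl]
      have : 0 ≤ ((M' * C : ℝ≥0) : ℝ) * (((M' * C : ℝ≥0) : ℝ) * wd L.1 ^ 2) := by positivity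
      linarith
    · rw [if_neg hL, zero_add]
      have hlip : LipschitzWith (M' * C) fun t => c L * G t := by
        refine LipschitzWith.of_dist_le_mul fun a b => ?_
        rw [Real.dist_eq, ← mul_sub, abs_mul]
        have h1 := hC.dist_le_mul a b
        rw [Real.dist_eq (G a)] at h1
        calc |c L| * |G a - G b| ≤ M * (C * dist a b) :=
              mul_le_mul (hM _ (mem_range_self L)) h1 (abs_nonneg _) hM0
          _ = ((M' * C : ℝ≥0) : ℝ) * dist a b := by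
              rw [NNReal.coe_mul, hM']; ring
      have h2 := Pct_185.osc_lip_re hE L (g := f) hlip (hn L hL)
      calc osc E f L.1 ^ 2
          ≤ (((M' * C : ℝ≥0) : ℝ) * wd L.1) ^ 2 :=
            pow_le_pow_left₀ (osc_nonneg _ _ _) h2 2
        _ = _ := by ring

/-! ### Euler-Lagrange in the picture -/

variable {U : Set ℂ} {P F : ℂ → ℂ} {x0 φ : ℂ → ℝ} {a : ℕ → ℂ → ℝ}

theorem elz_yP (h : EndMap U (P '' U) P) (hP : Uni U P) (hx : X0 Uᶜ x0) (hφ : TT Uᶜ φ)
    (hF : DifferentiableOn ℂ F U) (hFre : ∀ z ∈ U, (F z).re = x0 z + φ z)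
    (hsum : Summable fun L : Cmp (P '' U)ᶜ => wd L.1 ^ 2) (L0 : Cmp (P '' U)ᶜ)
    (hmin : ∀ (f : ℂ → ℝ) (G : ℝ → ℝ) (c : Cmp (P '' U)ᶜ → ℝ), ContDiff ℝ ∞ f →
      HasCompactSupport f → ContDiff ℝ ∞ G → HasCompactSupport G → (range c).Finite →
      (∀ L, L ≠ L0 → ∀ p ∈ L.1, ∀ᶠ w in 𝓝 p, f w = c L * G w.re) → ∀ t : ℝ,
        SelT_871.JT Uᶜ x0 φ ≤ SelT_871.JT Uᶜ x0 (fun z => φ z + t * f (P z))) :
    ELZ (P '' U)ᶜ L0 (sP h φ) (yP h F) := by
  intro f G c hf hfc hG hGc hc hn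
  have hUc : IsCompact Uᶜ := isCompact_compl h.hU
  have hEc : IsCompact (P '' U)ᶜ := isCompact_compl h.hV
  have hY : IsExteriorDomain (Uᶜ)ᶜ := by rw [compl_compl]; exact h.hU
  have t0 := tt_test hEc hsum hf hfc hG hGc hc hn
  have t1 : TT Uᶜ (f ∘ P) := tt_comp h hP t0
  have t2 : HasCompactSupport (f ∘ P) := compact_comp h hfc
  have h4 := Elf_600.el_crude_x hY hx hφ t1 t2 (hmin f G c hf hfc hG hGc hc hn)
  rw [compl_compl] at h4 ⊢
  have hfl : LocallyLipschitzOn (P '' U) f := by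
    have := t0.q.loc; rwa [compl_compl] at this
  have e1 : ∫ z in U, dot (fun w => x0 w + φ w) (f ∘ P) z
      = ∫ z in U, wdg (f ∘ P) (yP h F ∘ P) z := by
    refine setIntegral_congr_fun hP.op.measurableSet fun z hz => ?_
    have hF' : DifferentiableOn ℂ F (Uᶜ)ᶜ := by rw [compl_compl]; exact hF
    have e2 := Elf_600.wdg_eq_dot (x := fun w => x0 w + φ w) hF' hUc.isClosed
      (fun z hz => hFre z (not_not.1 hz)) (f ∘ P) (z := z) (not_not.2 hz)
    rw [← e2]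
    refine Tra_937.wdg_congr hP.op (fun w _ => rfl) (fun w hw => ?_) hz
    exact (yP_apply h hw).symm
  have e3 : ∫ z in U, wdg (f ∘ P) (yP h F ∘ P) z = ∫ w in P '' U, wdg f (yP h F) w :=
    int_wdg h hP hfl (loc_yP h hP hF)
  rw [e1, e3] at h4
  refine h4.trans (le_of_eq ?_)
  rw [← (corE h).tsum_eq]
  refine tsum_congr fun K => ?_
  unfold sP
  rw [Equiv.symm_apply_apply, ← osc_comp h]

/-- the final minimiser is minimal against `f ∘ P` -/
theorem min_testZ {b : ℕ → ℂ → ℝ} (hU : IsExteriorDomain U) (h : Pk Uᶜ x0 a φ F) {i : ℕ}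
    (hi : Pk Uᶜ x0 b (a i) P) (hE : EndMap U (P '' U) P) (hP : Uni U P)
    (hsum : Summable fun L : Cmp (P '' U)ᶜ => wd L.1 ^ 2) (L0 : Cmp (P '' U)ᶜ)
    (f : ℂ → ℝ) (G : ℝ → ℝ) (c : Cmp (P '' U)ᶜ → ℝ) (hf : ContDiff ℝ ∞ f)
    (hfc : HasCompactSupport f) (hG : ContDiff ℝ ∞ G) (hGc : HasCompactSupport G)
    (hc : (range c).Finite)
    (hn : ∀ L, L ≠ L0 → ∀ p ∈ L.1, ∀ᶠ w in 𝓝 p, f w = c L * G w.re) (t : ℝ) :
    SelT_871.JT Uᶜ x0 φ ≤ SelT_871.JT Uᶜ x0 (fun z => φ z + t * f (P z)) := by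
  have hUc : IsCompact Uᶜ := isCompact_compl hU
  have hEc : IsCompact (P '' U)ᶜ := isCompact_compl hE.hV
  have t0 := tt_test hEc hsum hf hfc hG hGc hc hn
  have t1 : TT Uᶜ (f ∘ P) := tt_comp hE hP t0
  have h2 : TT Uᶜ (fun z => φ z + t * f (P z)) :=
    h.tt.add hUc.isClosed ((TT.const t).mul hUc.isClosed t1)
  obtain ⟨Λ, hΛ⟩ := Pct_185.lip_of_deriv hG hGc.deriv
  refine h.min _ h2 fun j => ?_
  have h3 : NI Uᶜ (a j) (f ∘ P) := by
    have hcnt : Countable (range c) := hc.countable.to_subtype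
    refine Pct_185.NI_germ h.hY (h.tta i) t1.q.bdd (ι := range c)
      (k := fun c s => c.1 * G s) (Λ := fun c => ‖c.1‖₊ * Λ) ?_
      (S := {(corE hE).symm L0}) (countable_singleton _) ?_ (h.ni j i)
    · intro c
      refine LipschitzWith.of_dist_le_mul fun p q => ?_
      rw [Real.dist_eq, ← mul_sub, abs_mul, NNReal.coe_mul, coe_nnnorm, Real.norm_eq_abs, mul_assoc]
      have := hΛ.dist_le_mul p q
      rw [Real.dist_eq (G p)] at this
      exact mul_le_mul_of_nonneg_left this (abs_nonneg _)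
    · intro K hK
      have hK' : corE hE K ≠ L0 := fun hh => hK (by
        rw [mem_singleton_iff, ← hh, Equiv.symm_apply_apply])
      have h5 : (corE hE K).1 ⊆ interior {w | f w = c (corE hE K) * G w.re} := fun p hp =>
        mem_interior_iff_mem_nhds.2 (hn _ hK' p hp)
      obtain ⟨O, hO, hKO, hpull⟩ := exists_nhd_pull hE K isOpen_interior h5
      refine ⟨⟨c (corE hE K), mem_range_self _⟩, O ∩ (tsupport x0)ᶜ,
        hO.inter (isClosed_tsupport x0).isOpen_compl,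
        subset_inter hKO (fun z hz hz' => h.hx.zero hz' (K.subset hz)), fun w hw hwY => ?_⟩
      have hwU : w ∈ U := not_not.1 hwY
      have h6' : P w ∈ {w | f w = c (corE hE K) * G w.re} := interior_subset (hpull w hw.1 hwU)
      have h6 : f (P w) = c (corE hE K) * G (P w).re := h6'
      have h7 : (P w).re = x0 w + a i w := hi.re w hwY
      have h8 : x0 w = 0 := image_eq_zero_of_notMem_tsupport hw.2
      simp only [Function.comp_apply]
      rw [h6, h7, h8, zero_add]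
  have h4 := Nip_31.linG h.hY h.hx (h.tta j) (h.swd j) h.tt t1 (h.com j) h3 1 t
  simpa only [one_mul, Function.comp_apply] using h4

/-! ### the whole solid -/

/-- one limit from above -/
def LimA (E : Set ℂ) (K : Set ℂ) (y : ℂ → ℝ) (η t : ℝ) : Prop :=
  ∀ ε > 0, ∃ δ > 0, ∀ v ∈ Ioo (tp K t) (tp K t + δ), (⟨t, v⟩ : ℂ) ∉ E → |y ⟨t, v⟩ - η| ≤ ε

theorem Bxx.limA_unique {c1 c2 b1 b2 : ℝ} (H : Bxx E L0 c1 c2 b1 b2) {y : ℂ → ℝ} {t η η' : ℝ}
    (ht : t ∈ Icc c1 c2) (h : LimA E L0.1 y η t) (h' : LimA E L0.1 y η' t) : η = η' := by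
  refine eq_of_abs_sub_le_all fun ε hε => ?_
  obtain ⟨δ, hδ, h1⟩ := h (ε / 2) (half_pos hε)
  obtain ⟨δ', hδ', h2⟩ := h' (ε / 2) (half_pos hε)
  obtain ⟨v, hv, hvE⟩ := H.exists_free ht (lt_min hδ hδ')
  have k1 := h1 v ⟨hv.1, hv.2.trans_le (by linarith [min_le_left δ δ'])⟩ hvE
  have k2 := h2 v ⟨hv.1, hv.2.trans_le (by linarith [min_le_right δ δ'])⟩ hvE
  rw [abs_le] at k1 k2 ⊢
  constructor <;> linarith [k1.1, k1.2, k2.1, k2.2]

theorem exists_eta_all {c1 c2 b1 b2 : ℝ} (H : Bxx E L0 c1 c2 b1 b2) (hcc : c1 < c2)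
    (hsum : Summable fun L : Cmp E => wd L.1 ^ 2) {s : Cmp E → ℝ} (hs0 : ∀ L, 0 ≤ s L)
    (hs : Summable fun L => s L ^ 2) (hsL : s L0 = 0) {y : ℂ → ℝ} (hy : YD E y)
    (hel : ELZ E L0 s y) :
    ∃ η : ℝ, ∀ᵐ t, t ∈ Ioo c1 c2 → LimA E L0.1 y η t := by
  have hstep : ∀ n : ℕ, ∃ η : ℝ, ∀ᵐ t,
      t ∈ Ioo (c1 + (c2 - c1) / ((n : ℝ) + 3)) (c2 - (c2 - c1) / ((n : ℝ) + 3)) →
      LimA E L0.1 y η t := by
    intro n
    have hn : 0 < (n : ℝ) + 3 := by positivity
    have h1 : 0 < (c2 - c1) / ((n : ℝ) + 3) := div_pos (sub_pos.2 hcc) hn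
    have h2 : (c2 - c1) / ((n : ℝ) + 3) ≤ (c2 - c1) / 3 :=
      div_le_div_of_nonneg_left (sub_pos.2 hcc).le (by norm_num) (by linarith [Nat.cast_nonneg (α := ℝ) n])
    obtain ⟨θ, hθ⟩ := exists_win (c1 := c1) (c2 := c2) (d1 := c1 + (c2 - c1) / ((n : ℝ) + 3))
      (d2 := c2 - (c2 - c1) / ((n : ℝ) + 3)) (by linarith) (by linarith)
    have hH : Hy E L0 c1 c2 b1 b2 (c1 + (c2 - c1) / ((n : ℝ) + 3))
        (c2 - (c2 - c1) / ((n : ℝ) + 3)) θ s y := ⟨H, hsum, hs0, hs, hsL, hy, hel, hθ⟩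
    exact hH.exists_eta (by linarith)
  choose η hη using hstep
  have heq : ∀ n, η n = η 0 := by
    intro n
    have h0 : volume (Ioo (c1 + (c2 - c1) / 3) (c2 - (c2 - c1) / 3)) ≠ 0 := by
      rw [Real.volume_Ioo, Ne, ENNReal.ofReal_eq_zero, not_le]
      linarith
    have h9 : ∃ᶠ t in ae (volume : Measure ℝ),
        t ∈ Ioo (c1 + (c2 - c1) / 3) (c2 - (c2 - c1) / 3) := by
      rw [frequently_ae_iff]; exact h0
    obtain ⟨t, ht, h1, h2⟩ := (h9.and_eventually ((hη n).and (hη 0))).exists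
    have hn : (c2 - c1) / ((n : ℝ) + 3) ≤ (c2 - c1) / 3 :=
      div_le_div_of_nonneg_left (sub_pos.2 hcc).le (by norm_num)
        (by linarith [Nat.cast_nonneg (α := ℝ) n])
    refine H.limA_unique ⟨by linarith [ht.1], by linarith [ht.2]⟩
      (h1 ⟨by linarith [ht.1], by linarith [ht.2]⟩) (h2 ?_)
    simp only [Nat.cast_zero, zero_add]
    exact ht
  refine ⟨η 0, ?_⟩
  filter_upwards [ae_all_iff.2 hη] with t ht htc
  obtain ⟨n, hn⟩ := exists_nat_gt ((c2 - c1) / min (t - c1) (c2 - t))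
  have hm : 0 < min (t - c1) (c2 - t) := lt_min (by linarith [htc.1]) (by linarith [htc.2])
  have h1 : (c2 - c1) / ((n : ℝ) + 3) < min (t - c1) (c2 - t) := by
    rw [div_lt_iff₀ (by positivity)]
    rw [div_lt_iff₀ hm] at hn
    nlinarith
  have h2 := min_le_left (t - c1) (c2 - t)
  have h3 := min_le_right (t - c1) (c2 - t)
  rw [← heq n]
  exact ht n ⟨by linarith, by linarith⟩

end

end Crest.Agent.R105.Eta_179
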