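import Mathlib
import Crest.Agent.R105.Slt1_107
import Crest.Agent.R105.Slt2_107
import Crest.Agent.R105.FKd_644
import Crest.Agent.R132.Exterior
import Crest.Agent.R165.GeoP3_67

/-!
Row 105 (helper107), slit maps, part 3: Riemann map of the exterior of a continuum, and the step lemma:
if `K` is a nondegenerate continuum with connected complement, there is `h` in `Sigma(Kᶜ)` with first
coefficient `b`, `0 ≤ Re b`, and `Re b = 0` only if `K` lies on a horizontal line.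
-/

set_option autoImplicit false

open Set Filter Metric Topology
open scoped ComplexConjugate

namespace Crest.Agent.R105.Slt_107

open Crest.Agent.R132 Crest.Agent.Lib.RiemannMap Crest.Agent.R165.GeoPx67
open Crest.Agent.R105.FK_644 (Sig)

theorem isPreconnected_invDom {K : Set ℂ} (hK : IsCompact K) (hKc : IsPreconnected Kᶜ) {z₀ : ℂ}
    (hz₀ : z₀ ∈ K) : IsPreconnected (invDom K z₀) := by
  have hg : ContinuousOn (fun z : ℂ => (z - z₀)⁻¹) Kᶜ := by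
    refine ContinuousOn.inv₀ (by fun_prop) (fun z hz h0 => hz ?_)
    rw [sub_eq_zero.1 h0]; exact hz₀
  have h1 : IsPreconnected ((fun z : ℂ => (z - z₀)⁻¹) '' Kᶜ) := hKc.image _ hg
  refine h1.subset_closure ?_ ?_
  · rintro _ ⟨z, hz, rfl⟩
    right
    rw [inv_inv, add_sub_cancel]
    exact hz
  · have hne : ∀ w ∈ invDom K z₀, w ≠ 0 → w ∈ (fun z : ℂ => (z - z₀)⁻¹) '' Kᶜ := by
      intro w hw hw0
      refine ⟨z₀ + w⁻¹, hw.resolve_left hw0, ?_⟩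
      simp only [add_sub_cancel_left, inv_inv]
    intro w hw
    by_cases hw0 : w = 0
    · subst hw0
      rw [mem_closure_iff_nhds]
      intro t ht
      have h2 : t ∩ invDom K z₀ ∈ 𝓝 (0:ℂ) := inter_mem ht ((isOpen_invDom hK).mem_nhds hw)
      have h3 : (t ∩ invDom K z₀) ∩ {0}ᶜ ∈ 𝓝[≠] (0:ℂ) :=
        inter_mem (mem_nhdsWithin_of_mem_nhds h2) self_mem_nhdsWithin
      obtain ⟨y, hy⟩ := Filter.nonempty_of_mem h3
      exact ⟨y, hy.1.1, hne y hy.1.2 hy.2⟩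
    · exact subset_closure (hne w hw hw0)

theorem nc_invDom {K : Set ℂ} (hKp : IsPreconnected K) {z₀ : ℂ} (hz₀ : z₀ ∈ K) :
    NC (invDom K z₀) := by
  intro A O hA hO hAO
  by_contra hne
  obtain ⟨a, ha⟩ := nonempty_iff_ne_empty.2 hne
  have hmem : ∀ w : ℂ, w ∈ (invDom K z₀)ᶜ ↔ w ≠ 0 ∧ z₀ + w⁻¹ ∈ K := by
    intro w
    simp only [invDom, mem_compl_iff, mem_ofPred_eq, not_or, not_not, ne_eq]
  have hA0 : ∀ w ∈ A, w ≠ 0 ∧ z₀ + w⁻¹ ∈ K ∧ w ∈ O := by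
    intro w hw
    rw [hAO] at hw
    exact ⟨((hmem w).1 hw.2).1, ((hmem w).1 hw.2).2, hw.1⟩
  have hcont : ContinuousOn (fun w : ℂ => z₀ + w⁻¹) A :=
    continuousOn_const.add (continuousOn_id.inv₀ (fun w hw => (hA0 w hw).1))
  have hIc : IsClosed ((fun w : ℂ => z₀ + w⁻¹) '' A) := (hA.image_of_continuousOn hcont).isClosed
  set u : Set ℂ := {z | z ≠ z₀ ∧ (z - z₀)⁻¹ ∈ O} with hu
  have huo : IsOpen u := by
    rw [isOpen_iff_mem_nhds]
    rintro z ⟨hz1, hz2⟩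
    have hc : ContinuousAt (fun z : ℂ => (z - z₀)⁻¹) z :=
      ContinuousAt.inv₀ (by fun_prop) (sub_ne_zero.2 hz1)
    filter_upwards [isOpen_ne.mem_nhds hz1, hc.eventually (hO.mem_nhds hz2)] with y h1 h2
    exact ⟨h1, h2⟩
  have hcov : K ⊆ u ∪ ((fun w : ℂ => z₀ + w⁻¹) '' A)ᶜ := by
    intro z hz
    by_cases h : z ∈ (fun w : ℂ => z₀ + w⁻¹) '' A
    · left
      obtain ⟨w, hw, rfl⟩ := h
      obtain ⟨h1, h2, h3⟩ := hA0 w hw
      refine ⟨?_, ?_⟩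
      · intro h4
        simp only [add_eq_left, inv_eq_zero] at h4
        exact h1 h4
      · simp only [add_sub_cancel_left, inv_inv]
        exact h3
    · right; exact h
  have hz₀v : z₀ ∈ ((fun w : ℂ => z₀ + w⁻¹) '' A)ᶜ := by
    rintro ⟨w, hw, h4⟩
    simp only [add_eq_left, inv_eq_zero] at h4
    exact (hA0 w hw).1 h4
  have hau : z₀ + a⁻¹ ∈ u := by
    obtain ⟨h1, h2, h3⟩ := hA0 a ha
    refine ⟨?_, ?_⟩
    · intro h4
      simp only [add_eq_left, inv_eq_zero] at h4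
      exact h1 h4
    · simp only [add_sub_cancel_left, inv_inv]
      exact h3
  obtain ⟨z, hzK, ⟨hz1, hz2⟩, hz3⟩ := hKp u _ huo hIc.isOpen_compl hcov
    ⟨z₀ + a⁻¹, (hA0 a ha).2.1, hau⟩ ⟨z₀, hz₀, hz₀v⟩
  apply hz3
  have hne0 : (z - z₀)⁻¹ ≠ 0 := inv_ne_zero (sub_ne_zero.2 hz1)
  have he : z₀ + ((z - z₀)⁻¹)⁻¹ = z := by rw [inv_inv]; ring
  refine ⟨(z - z₀)⁻¹, ?_, he⟩
  rw [hAO]
  refine ⟨hz2, (hmem _).2 ⟨hne0, ?_⟩⟩
  rw [he]; exact hzK

/-- starting map for the Riemann mapping theorem -/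
theorem exists_start {D : Set ℂ} (hDo : IsOpen D) (h0 : (0:ℂ) ∈ D)
    (hsq : ∀ h : ℂ → ℂ, DifferentiableOn ℂ h D → (∀ z ∈ D, h z ≠ 0) →
      ∃ s : ℂ → ℂ, DifferentiableOn ℂ s D ∧ ∀ z ∈ D, s z ^ 2 = h z) {a : ℂ} (ha : a ∉ D) :
    ∃ f₀, Fam D 0 f₀ ∧ deriv f₀ 0 ≠ 0 := by
  obtain ⟨s, hs, hs2⟩ := hsq (fun w => w - a) (by fun_prop)
    (fun z hz h => ha (by rw [← sub_eq_zero.1 h]; exact hz))
  have hsne : ∀ z ∈ D, s z ≠ 0 := by
    intro z hz h
    have := hs2 z hz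
    rw [h] at this
    apply ha
    have h2 : z - a = 0 := by rw [← this]; simp
    rw [← sub_eq_zero.1 h2]; exact hz
  have hsinj : InjOn s D := by
    intro x hx y hy hxy
    have h1 := hs2 x hx
    rw [hxy, hs2 y hy] at h1
    linear_combination -h1
  have hopen : IsOpen (s '' D) := Crest.Agent.Lib.isOpen_image_of_injOn hDo hs hsinj
  obtain ⟨r, hr, hrD⟩ := Metric.isOpen_iff.1 hopen (s 0) ⟨0, h0, rfl⟩
  have hfar : ∀ z ∈ D, r ≤ ‖s z + s 0‖ := by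
    intro z hz
    by_contra hcon
    push Not at hcon
    have h1 : -s z ∈ ball (s 0) r := by
      rw [mem_ball, dist_eq_norm, ← norm_neg]
      have : -(-s z - s 0) = s z + s 0 := by ring
      rw [this]; exact hcon
    obtain ⟨y, hy, hyz⟩ := hrD h1
    have h2 := hs2 y hy
    rw [hyz] at h2
    have h3 := hs2 z hz
    have h4 : y = z := by linear_combination h3 - h2
    rw [h4] at hyz
    apply hsne z hz
    have h5 : s z + s z = 0 := by linear_combination hyz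
    exact add_self_eq_zero.1 h5
  have hfne : ∀ z ∈ D, s z + s 0 ≠ 0 := fun z hz => by
    rw [← norm_pos_iff]; exact hr.trans_le (hfar z hz)
  set f : ℂ → ℂ := fun w => (r / 3 : ℝ) * ((s w + s 0)⁻¹ - (s 0 + s 0)⁻¹) with hf
  have hfd : DifferentiableOn ℂ f D := by
    apply DifferentiableOn.const_mul
    apply DifferentiableOn.sub_const
    exact (hs.add_const _).inv hfne
  have hr3 : ((r / 3 : ℝ) : ℂ) ≠ 0 := by
    rw [Ne, Complex.ofReal_eq_zero]; positivity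
  have hfinj : InjOn f D := by
    intro x hx y hy hxy
    have h1 := mul_left_cancel₀ hr3 hxy
    have h2 : (s x + s 0)⁻¹ = (s y + s 0)⁻¹ := by linear_combination h1
    have h3 := inv_injective h2
    exact hsinj hx hy (by linear_combination h3)
  refine ⟨f, ⟨hfd, hfinj, ?_, by simp [hf]⟩, Crest.Agent.Lib.deriv_ne_zero_of_injOn hDo hfd hfinj h0⟩
  intro z hz
  rw [mem_ball_zero_iff, hf]
  simp only
  rw [norm_mul, Complex.norm_real, Real.norm_eq_abs, abs_of_pos (by positivity)]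
  have h1 : ‖(s z + s 0)⁻¹‖ ≤ r⁻¹ := by
    rw [norm_inv]; exact inv_anti₀ hr (hfar z hz)
  have h2 : ‖(s 0 + s 0)⁻¹‖ ≤ r⁻¹ := by
    rw [norm_inv]; exact inv_anti₀ hr (hfar 0 h0)
  have h3 := norm_sub_le ((s z + s 0)⁻¹) ((s 0 + s 0)⁻¹)
  have h4 : ‖(s z + s 0)⁻¹ - (s 0 + s 0)⁻¹‖ ≤ 2 * r⁻¹ := by linarith
  calc r / 3 * ‖(s z + s 0)⁻¹ - (s 0 + s 0)⁻¹‖ ≤ r / 3 * (2 * r⁻¹) := by gcongr
    _ = 2 / 3 := by field_simp
    _ < 1 := by norm_num

/-- Riemann map of the exterior of a nondegenerate continuum `K` with connected complement: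
`τ : Kᶜ → punctured disc` with inverse `t ↦ z₀ + κ⁻¹ (1/t + H t)`. -/
theorem exists_ext {K : Set ℂ} (hK : IsCompact K) (hKp : IsPreconnected K)
    (hKc : IsPreconnected Kᶜ) (hKn : K.Nontrivial) :
    ∃ (τ H : ℂ → ℂ) (κ z₀ : ℂ), κ ≠ 0 ∧ DifferentiableOn ℂ τ Kᶜ ∧
      DifferentiableOn ℂ H (ball 0 1) ∧
      (∀ z ∉ K, τ z ∈ ball (0:ℂ) 1 \ {0} ∧ z₀ + κ⁻¹ * ((τ z)⁻¹ + H (τ z)) = z) ∧
      (∀ t ∈ ball (0:ℂ) 1 \ {0}, z₀ + κ⁻¹ * (t⁻¹ + H t) ∉ K ∧
        τ (z₀ + κ⁻¹ * (t⁻¹ + H t)) = t) ∧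
      Tendsto τ (cocompact ℂ) (𝓝 0) := by
  obtain ⟨z₀, hz₀, z₁, hz₁, hne⟩ := hKn
  have hDo : IsOpen (invDom K z₀) := isOpen_invDom hK
  have h0D : (0:ℂ) ∈ invDom K z₀ := zero_mem_invDom K z₀
  have hDp := isPreconnected_invDom hK hKc hz₀
  have hNC := nc_invDom hKp hz₀
  have ha : (z₁ - z₀)⁻¹ ∉ invDom K z₀ := by
    rintro (h | h)
    · exact inv_ne_zero (sub_ne_zero.2 hne.symm) h
    · apply h
      rw [inv_inv, add_sub_cancel]; exact hz₁
  have hsq : ∀ h : ℂ → ℂ, DifferentiableOn ℂ h (invDom K z₀) → (∀ z ∈ invDom K z₀, h z ≠ 0) →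
      ∃ s : ℂ → ℂ, DifferentiableOn ℂ s (invDom K z₀) ∧ ∀ z ∈ invDom K z₀, s z ^ 2 = h z :=
    fun h hd hn => exists_sqrt' hDo hDp hNC ha hd hn
  obtain ⟨f₀, hf₀, hd₀⟩ := exists_start hDo h0D hsq ha
  obtain ⟨f, hf, hinj, himg, hf0⟩ := riemann_mapping_sqrt hDo hDp hsq h0D hf₀ hd₀
  obtain ⟨ψ, hψ, hψinj, hψimg, hψf, hfψ⟩ :=
    Crest.Agent.Lib.exists_holomorphic_inverse hDo hf hinj
  rw [himg] at hψ hψinj hψimg hfψ
  have hψ0 : ψ 0 = 0 := by
    have := hψf 0 h0D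
    rwa [hf0] at this
  have h0b : (0 : ℂ) ∈ ball (0 : ℂ) 1 := mem_ball_self one_pos
  have hnh : ball (0:ℂ) 1 ∈ 𝓝 (0:ℂ) := ball_mem_nhds 0 one_pos
  have hψne : ∀ w ∈ ball (0 : ℂ) 1, w ≠ 0 → ψ w ≠ 0 := by
    intro w hw hw0 h
    exact hw0 (hψinj hw h0b (h.trans hψ0.symm))
  have hds : ∀ w ∈ ball (0 : ℂ) 1, dslope ψ 0 w ≠ 0 := by
    intro w hw
    by_cases hw0 : w = 0
    · subst hw0
      rw [dslope_same]
      exact Crest.Agent.Lib.deriv_ne_zero_of_injOn isOpen_ball hψ hψinj h0b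
    · rw [dslope_of_ne _ hw0, slope_def_field, hψ0, sub_zero, sub_zero]
      exact div_ne_zero (hψne w hw hw0) hw0
  have hdsd : DifferentiableOn ℂ (dslope ψ 0) (ball 0 1) :=
    (Complex.differentiableOn_dslope hnh).2 hψ
  set κ : ℂ := dslope ψ 0 0 with hκ
  have hκ0 : κ ≠ 0 := hds 0 h0b
  set q : ℂ → ℂ := fun t => κ * (dslope ψ 0 t)⁻¹ with hq
  have hqd : DifferentiableOn ℂ q (ball 0 1) := (hdsd.inv hds).const_mul κ
  have hq0 : q 0 = 1 := by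
    rw [hq]; simp only; rw [← hκ, mul_inv_cancel₀ hκ0]
  set H : ℂ → ℂ := dslope q 0 with hH
  have hHd : DifferentiableOn ℂ H (ball 0 1) := (Complex.differentiableOn_dslope hnh).2 hqd
  have hkey : ∀ t ∈ ball (0:ℂ) 1 \ {0}, κ⁻¹ * (t⁻¹ + H t) = (ψ t)⁻¹ := by
    rintro t ⟨ht, ht0⟩
    have ht0' : t ≠ 0 := ht0
    have h1 := hψne t ht ht0'
    have h2 := hds t ht
    have h3 : dslope ψ 0 t = ψ t / t := by
      rw [dslope_of_ne _ ht0', slope_def_field, hψ0, sub_zero, sub_zero]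
    have h4 : H t = (κ * (ψ t / t)⁻¹ - 1) / t := by
      rw [hH, dslope_of_ne _ ht0', slope_def_field, hq0, sub_zero, hq]
      simp only
      rw [h3]
    rw [h4]
    field_simp
    ring
  have hzD : ∀ z ∉ K, (z - z₀)⁻¹ ∈ invDom K z₀ ∧ (z - z₀)⁻¹ ≠ 0 := by
    intro z hz
    refine ⟨Or.inr ?_, ?_⟩
    · rw [inv_inv, add_sub_cancel]; exact hz
    · apply inv_ne_zero
      intro h
      apply hz
      rw [sub_eq_zero.1 h]; exact hz₀
  refine ⟨fun z => f ((z - z₀)⁻¹), H, κ, z₀, hκ0, ?_, hHd, ?_, ?_, ?_⟩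
  · refine hf.comp ?_ (fun z hz => (hzD z hz).1)
    refine DifferentiableOn.inv (by fun_prop) (fun z hz => ?_)
    have := (hzD z hz).2
    intro h
    rw [h, inv_zero] at this
    exact this rfl
  · intro z hz
    obtain ⟨h1, h2⟩ := hzD z hz
    have h3 : f ((z - z₀)⁻¹) ∈ ball (0:ℂ) 1 := by
      rw [← himg]; exact ⟨_, h1, rfl⟩
    have h4 : f ((z - z₀)⁻¹) ≠ 0 := by
      intro h
      rw [← hf0] at h
      exact h2 (hinj h1 h0D h)
    refine ⟨⟨h3, h4⟩, ?_⟩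
    rw [hkey _ ⟨h3, h4⟩, hψf _ h1, inv_inv]
    ring
  · intro t ht
    have h1 : ψ t ∈ invDom K z₀ := by
      rw [← hψimg]; exact ⟨t, ht.1, rfl⟩
    have h2 : ψ t ≠ 0 := hψne t ht.1 ht.2
    rw [hkey t ht]
    refine ⟨h1.resolve_left h2, ?_⟩
    simp only
    rw [add_sub_cancel_left, inv_inv]
    exact hfψ t ht.1
  · have h1 : Tendsto (fun z : ℂ => (z - z₀)⁻¹) (cocompact ℂ) (𝓝 0) := by
      rw [← cobounded_eq_cocompact]
      have h2 : Tendsto (fun z : ℂ => z - z₀) (Bornology.cobounded ℂ) (Bornology.cobounded ℂ) := by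
        simp [sub_eq_add_neg]
      exact tendsto_inv₀_cobounded.comp h2
    have h2 : ContinuousAt f 0 := (hf.differentiableAt (hDo.mem_nhds h0D)).continuousAt
    have h3 := h2.tendsto.comp h1
    rw [hf0] at h3
    exact h3

theorem eventually_notMem {K : Set ℂ} (hK : IsCompact K) : ∀ᶠ z in cocompact ℂ, z ∉ K :=
  hK.compl_mem_cocompact

theorem eq_ofReal_of_re_eq_norm {z : ℂ} (h : z.re = ‖z‖) : z = ((‖z‖ : ℝ) : ℂ) := by
  have h1 : z.im = 0 := by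
    have h2 := Complex.sq_norm z
    rw [Complex.normSq_apply, ← h] at h2
    nlinarith
  apply Complex.ext
  · rw [Complex.ofReal_re]; exact h
  · rw [Complex.ofReal_im]; exact h1

/-- the Joukowski map reaches every nonreal point -/
theorem jouk_surj {ρ : ℝ} (hρ : 0 < ρ) {u : ℂ} (hu : u.im ≠ 0) :
    ∃ ω : ℂ, ρ < ‖ω‖ ∧ ω + (ρ:ℂ) ^ 2 * ω⁻¹ = u := by
  obtain ⟨s, hs⟩ := IsAlgClosed.exists_pow_nat_eq (u ^ 2 - 4 * (ρ:ℂ) ^ 2) (n := 2) (by norm_num)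
  have hρc : (ρ:ℂ) ≠ 0 := by exact_mod_cast hρ.ne'
  have key : ∀ ω₁ ω₂ : ℂ, ω₁ * ω₂ = (ρ:ℂ) ^ 2 → ω₁ + ω₂ = u → ρ < ‖ω₁‖ →
      ∃ ω : ℂ, ρ < ‖ω‖ ∧ ω + (ρ:ℂ) ^ 2 * ω⁻¹ = u := by
    intro ω₁ ω₂ h1 h2 h3
    have h0 : ω₁ ≠ 0 := by rw [← norm_pos_iff]; exact hρ.trans h3
    refine ⟨ω₁, h3, ?_⟩
    rw [← h1, ← h2]
    field_simp
  have hprod : ((u + s) / 2) * ((u - s) / 2) = (ρ:ℂ) ^ 2 := by
    linear_combination (-1/4 : ℂ) * hs
  have hnorm : ‖(u + s) / 2‖ * ‖(u - s) / 2‖ = ρ ^ 2 := by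
    rw [← norm_mul, hprod, norm_pow, Complex.norm_real, Real.norm_eq_abs, abs_of_pos hρ]
  rcases lt_trichotomy ρ ‖(u + s) / 2‖ with h | h | h
  · exact key _ _ hprod (by ring) h
  · exfalso
    apply hu
    have h1 : (u + s) / 2 * conj ((u + s) / 2) = (ρ:ℂ) ^ 2 := by
      rw [Complex.mul_conj, Complex.normSq_eq_norm_sq, ← h]; push_cast; ring
    have h0 : (u + s) / 2 ≠ 0 := by rw [← norm_pos_iff, ← h]; exact hρ
    have h2 : (u - s) / 2 = conj ((u + s) / 2) := by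
      apply mul_left_cancel₀ h0
      rw [h1, hprod]
    have h3 : u = (u + s) / 2 + conj ((u + s) / 2) := by
      rw [← h2]; ring
    rw [h3, Complex.add_conj]
    exact Complex.ofReal_im _
  · have h4 : ρ < ‖(u - s) / 2‖ := by
      by_contra hcon
      push Not at hcon
      have h5 := norm_nonneg ((u + s) / 2)
      nlinarith
    exact key ((u - s) / 2) ((u + s) / 2) (by rw [mul_comm]; exact hprod) (by ring) h4

/-- **Step lemma.** -/
theorem step {K : Set ℂ} (hK : IsCompact K) (hKp : IsPreconnected K)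
    (hKc : IsPreconnected Kᶜ) (hKn : K.Nontrivial) :
    ∃ (h : ℂ → ℂ) (b : ℂ), Sig Kᶜ h ∧ Tendsto (fun z => z * (h z - z)) (cocompact ℂ) (𝓝 b) ∧
      0 ≤ b.re ∧ (b.re = 0 → ∃ c : ℝ, K ⊆ {z | z.im = c}) := by
  obtain ⟨τ, H, κ, z₀, hκ, hτ, hH, h1, h2, hlim⟩ := exists_ext hK hKp hKc hKn
  have hinj : InjOn (fun t : ℂ => t⁻¹ + H t) (ball 0 1 \ {0}) := by
    intro s hs t ht hst
    simp only at hst
    have e1 := (h2 s hs).2
    rw [hst, (h2 t ht).2] at e1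
    exact e1.symm
  obtain ⟨hb1, hbe⟩ := area_eq hH hinj
  set β : ℂ := deriv H 0 with hβ
  have hnh : ball (0:ℂ) 1 ∈ 𝓝 (0:ℂ) := ball_mem_nhds 0 one_pos
  have hcκ : conj κ ≠ 0 := by
    intro h; apply hκ; simpa using h
  set l : ℂ := κ / conj κ with hl
  have hl1 : ‖l‖ = 1 := by
    rw [hl, norm_div, RCLike.norm_conj, div_self (norm_pos_iff.2 hκ).ne']
  have hτne : ∀ z ∉ K, τ z ≠ 0 := fun z hz => (h1 z hz).1.2
  set h : ℂ → ℂ := fun z => κ⁻¹ * ((τ z)⁻¹ + l * τ z) + (z₀ + κ⁻¹ * H 0) with hh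
  have hform : ∀ z ∉ K, h z - z = κ⁻¹ * (l * τ z - (H (τ z) - H 0)) := by
    intro z hz
    have e := (h1 z hz).2
    rw [hh]
    simp only
    linear_combination e
  have hds : ∀ t : ℂ, H t - H 0 = t * dslope H 0 t := by
    intro t
    have := sub_smul_dslope H 0 t
    rw [sub_zero, smul_eq_mul] at this
    exact this.symm
  have hdsc : ContinuousAt (dslope H 0) 0 :=
    (((Complex.differentiableOn_dslope hnh).2 hH).differentiableAt hnh).continuousAt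
  have hHc : ContinuousAt H 0 := (hH.differentiableAt hnh).continuousAt
  have hκn : 0 < ‖κ‖ := norm_pos_iff.2 hκ
  have hA : κ⁻¹ * κ⁻¹ * l = (((‖κ‖ ^ 2)⁻¹ : ℝ) : ℂ) := by
    have e1 : ((‖κ‖ ^ 2 : ℝ) : ℂ) = κ * conj κ := by
      rw [Complex.mul_conj, Complex.normSq_eq_norm_sq]
    rw [Complex.ofReal_inv, e1, hl]
    field_simp
  have hB : ‖κ⁻¹ * κ⁻¹ * β‖ = (‖κ‖ ^ 2)⁻¹ * ‖β‖ := by
    rw [norm_mul, norm_mul, norm_inv, ← mul_inv, ← sq]
  have hre : (κ⁻¹ * κ⁻¹ * (l - β)).re = (‖κ‖ ^ 2)⁻¹ - (κ⁻¹ * κ⁻¹ * β).re := by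
    rw [mul_sub, hA, Complex.sub_re, Complex.ofReal_re]
  have hBle : (‖κ‖ ^ 2)⁻¹ * ‖β‖ ≤ (‖κ‖ ^ 2)⁻¹ := by
    have : 0 < (‖κ‖ ^ 2)⁻¹ := by positivity
    nlinarith
  refine ⟨h, κ⁻¹ * κ⁻¹ * (l - β), ⟨?_, ?_, ?_⟩, ?_, ?_, ?_⟩
  · -- holomorphic
    apply DifferentiableOn.add_const
    apply DifferentiableOn.const_mul
    exact (hτ.inv (fun z hz => hτne z hz)).add (hτ.const_mul l)
  · -- injective
    intro x hx y hy hxy
    obtain ⟨⟨hx1, hx0⟩, hx2⟩ := h1 x hx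
    obtain ⟨⟨hy1, hy0⟩, hy2⟩ := h1 y hy
    rw [mem_singleton_iff] at hx0 hy0
    rw [mem_ball_zero_iff] at hx1 hy1
    have e1 : κ⁻¹ * ((τ x)⁻¹ + l * τ x) = κ⁻¹ * ((τ y)⁻¹ + l * τ y) := by
      have := hxy
      simp only [hh] at this
      linear_combination this
    have e2 := mul_left_cancel₀ (inv_ne_zero hκ) e1
    have e3 : (τ x - τ y) * (l * (τ x * τ y) - 1) = 0 := by
      field_simp at e2
      linear_combination e2
    have e4 : τ x = τ y := by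
      rcases mul_eq_zero.1 e3 with h3 | h3
      · exact sub_eq_zero.1 h3
      · exfalso
        have h4 : ‖l * (τ x * τ y)‖ = 1 := by
          rw [sub_eq_zero.1 h3, norm_one]
        rw [norm_mul, hl1, one_mul, norm_mul] at h4
        have := norm_nonneg (τ x)
        have := norm_nonneg (τ y)
        nlinarith
    rw [← hx2, ← hy2, e4]
  · -- normalisation
    have hG : ContinuousAt (fun t : ℂ => κ⁻¹ * (l * t - (H t - H 0))) 0 := by
      apply ContinuousAt.mul continuousAt_const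
      exact (continuousAt_const.mul continuousAt_id).sub (hHc.sub continuousAt_const)
    have h3 := hG.tendsto.comp hlim
    simp only [mul_zero, sub_self] at h3
    refine h3.congr' ?_
    filter_upwards [eventually_notMem hK] with z hz
    exact (hform z hz).symm
  · -- the coefficient
    have hG : ContinuousAt (fun t : ℂ => (z₀ * t + κ⁻¹ * (1 + t * H t)) *
        (κ⁻¹ * (l - dslope H 0 t))) 0 := by
      apply ContinuousAt.mul
      · apply ContinuousAt.add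
        · exact continuousAt_const.mul continuousAt_id
        · exact continuousAt_const.mul (continuousAt_const.add (continuousAt_id.mul hHc))
      · exact continuousAt_const.mul (continuousAt_const.sub hdsc)
    have h3 := hG.tendsto.comp hlim
    simp only [mul_zero, zero_mul, add_zero, zero_add, mul_one, dslope_same] at h3
    rw [← hβ] at h3
    have h4 : κ⁻¹ * (κ⁻¹ * (l - β)) = κ⁻¹ * κ⁻¹ * (l - β) := by ring
    rw [h4] at h3
    refine h3.congr' ?_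
    filter_upwards [eventually_notMem hK] with z hz
    simp only [Function.comp]
    rw [hform z hz, hds (τ z)]
    have e := (h1 z hz).2
    have hne := hτne z hz
    have e2 : z * τ z = z₀ * τ z + κ⁻¹ * (1 + τ z * H (τ z)) := by
      linear_combination (-τ z) * e + κ⁻¹ * (mul_inv_cancel₀ hne)
    rw [← e2]
    ring
  · -- real part
    rw [hre]
    have := Complex.re_le_norm (κ⁻¹ * κ⁻¹ * β)
    linarith
  · -- equality case
    intro h0
    rw [hre] at h0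
    have h3 := Complex.re_le_norm (κ⁻¹ * κ⁻¹ * β)
    have hpos : 0 < (‖κ‖ ^ 2)⁻¹ := by positivity
    have hβ1 : ‖β‖ = 1 := by
      apply le_antisymm hb1
      rw [hB] at h3
      have h4 : (‖κ‖ ^ 2)⁻¹ * 1 ≤ (‖κ‖ ^ 2)⁻¹ * ‖β‖ := by linarith
      exact le_of_mul_le_mul_left h4 hpos
    have hlβ : β = l := by
      have h4 : (κ⁻¹ * κ⁻¹ * β).re = ‖κ⁻¹ * κ⁻¹ * β‖ := by
        rw [hB, hβ1, mul_one]; linarith
      have h5 : κ⁻¹ * κ⁻¹ * β = ((‖κ⁻¹ * κ⁻¹ * β‖ : ℝ) : ℂ) := eq_ofReal_of_re_eq_norm h4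
      rw [hB, hβ1, mul_one, ← hA] at h5
      exact mul_left_cancel₀ (mul_ne_zero (inv_ne_zero hκ) (inv_ne_zero hκ)) h5
    have hH1 := hbe hβ1
    refine ⟨(z₀ + κ⁻¹ * H 0).im, fun z hzK => ?_⟩
    by_contra hcon
    have hcon' : z.im ≠ (z₀ + κ⁻¹ * H 0).im := hcon
    have hu : (z - (z₀ + κ⁻¹ * H 0)).im ≠ 0 := by
      rw [Complex.sub_im]
      exact sub_ne_zero.2 hcon'
    obtain ⟨ω, hω, hωu⟩ := jouk_surj (inv_pos.2 hκn) hu
    have hω0 : ω ≠ 0 := by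
      rw [← norm_pos_iff]; exact (inv_pos.2 hκn).trans hω
    set t : ℂ := κ⁻¹ * ω⁻¹ with ht
    have ht0 : t ≠ 0 := mul_ne_zero (inv_ne_zero hκ) (inv_ne_zero hω0)
    have ht1 : t ∈ ball (0:ℂ) 1 := by
      rw [mem_ball_zero_iff, ht, norm_mul, norm_inv, norm_inv, ← mul_inv]
      apply inv_lt_one_of_one_lt₀
      rw [inv_lt_iff_one_lt_mul₀ hκn] at hω
      linarith
    have h4 := (h2 t ⟨ht1, ht0⟩).1
    apply h4
    have h5 : z₀ + κ⁻¹ * (t⁻¹ + H t) = z := by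
      rw [hH1 t ht1, hlβ]
      have h6 : t⁻¹ = κ * ω := by rw [ht]; field_simp
      have h7 : κ⁻¹ * (l * t) = ((‖κ‖⁻¹ : ℝ) : ℂ) ^ 2 * ω⁻¹ := by
        rw [ht]
        have h8 : ((‖κ‖⁻¹ : ℝ) : ℂ) ^ 2 = κ⁻¹ * κ⁻¹ * l := by
          rw [hA]; push_cast; rw [inv_pow]
        rw [h8]; ring
      rw [h6]
      have h9 : κ⁻¹ * (κ * ω) = ω := by field_simp
      have h10 : z₀ + κ⁻¹ * (κ * ω + (H 0 + l * t)) =
          (κ⁻¹ * (κ * ω) + κ⁻¹ * (l * t)) + (z₀ + κ⁻¹ * H 0) := by ring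
      rw [h10, h9, h7, hωu]; ring
    rw [h5]; exact hzK

end Crest.Agent.R105.Slt_107
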