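import Mathlib
import Crest.Agent.R105.Slt3_107
import Crest.Agent.R105.FK1_644
import Crest.Agent.R105.Red2_828

/-!
Row 105 (helper107), slit maps, part 4: a maximiser `f` of `Re b₁` over `Sigma(U)` has all components of
`(f '' U)ᶜ` on horizontal lines (so they are horizontal segments or points).
-/

set_option autoImplicit false

open Set Filter Metric Topology
open Crest.AnalysisR

namespace Crest.Agent.R105.Slt_107

open Crest.Agent.R105.FK_644 (Sig dom)

theorem tendsto_ratio {f : ℂ → ℂ} (h : Tendsto (fun z => f z - z) (cocompact ℂ) (𝓝 0)) :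
    Tendsto (fun z => z / f z) (cocompact ℂ) (𝓝 1) := by
  have h1 : Tendsto (fun z : ℂ => z⁻¹) (cocompact ℂ) (𝓝 0) := by
    rw [← cobounded_eq_cocompact]; exact tendsto_inv₀_cobounded
  have h2 : Tendsto (fun z => 1 + (f z - z) * z⁻¹) (cocompact ℂ) (𝓝 (1 + 0 * 0)) :=
    (h.mul h1).const_add 1
  rw [mul_zero, add_zero] at h2
  have h3 := h2.inv₀ one_ne_zero
  rw [inv_one] at h3
  refine h3.congr' ?_
  have h4 : ∀ᶠ z : ℂ in cocompact ℂ, z ∉ ({0} : Set ℂ) := eventually_notMem isCompact_singleton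
  filter_upwards [h4] with z hz
  have hz0 : z ≠ 0 := hz
  have : 1 + (f z - z) * z⁻¹ = f z / z := by field_simp; ring
  rw [this, inv_div]

theorem Sig.comp' {U K : Set ℂ} {f h : ℂ → ℂ} (hf : Sig U f) (hh : Sig Kᶜ h)
    (hK : f '' U ⊆ Kᶜ) : Sig U (h ∘ f) := by
  have hinf : Tendsto f (cocompact ℂ) (cocompact ℂ) :=
    Crest.Agent.R105.Red_828.tendsto_cocompact_of_tendsto_sub hf.inf
  refine ⟨hh.hol.comp hf.hol (fun z hz => hK ⟨z, hz, rfl⟩), ?_, ?_⟩
  · intro x hx y hy hxy
    exact hf.inj hx hy (hh.inj (hK ⟨x, hx, rfl⟩) (hK ⟨y, hy, rfl⟩) hxy)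
  · have h1 := (hh.inf.comp hinf).add hf.inf
    rw [add_zero] at h1
    refine h1.congr (fun z => ?_)
    simp only [Function.comp]
    ring

theorem coeff_comp {f h : ℂ → ℂ} {a b : ℂ}
    (hf : Tendsto (fun z => f z - z) (cocompact ℂ) (𝓝 0))
    (ha : Tendsto (fun z => z * (f z - z)) (cocompact ℂ) (𝓝 a))
    (hb : Tendsto (fun z => z * (h z - z)) (cocompact ℂ) (𝓝 b)) :
    Tendsto (fun z => z * ((h ∘ f) z - z)) (cocompact ℂ) (𝓝 (b + a)) := by
  have hinf : Tendsto f (cocompact ℂ) (cocompact ℂ) :=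
    Crest.Agent.R105.Red_828.tendsto_cocompact_of_tendsto_sub hf
  have h1 := ((tendsto_ratio hf).mul (hb.comp hinf)).add ha
  rw [one_mul] at h1
  refine h1.congr' ?_
  have h4 : ∀ᶠ z : ℂ in cocompact ℂ, f z ∉ ({0} : Set ℂ) :=
    hinf.eventually (eventually_notMem isCompact_singleton)
  filter_upwards [h4] with z hz
  have hz0 : f z ≠ 0 := hz
  simp only [Function.comp]
  field_simp
  ring

theorem isPreconnected_compl_cc {V : Set ℂ} (hV : IsExteriorDomain V) (z : ℂ) :
    IsPreconnected (connectedComponentIn Vᶜ z)ᶜ := by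
  have h := Crest.Agent.R105.FK_644.preconn_comps hV (ι := Unit) (z := fun _ => z)
    (fun i j hij => absurd (Subsingleton.elim i j) hij)
  have e : dom (fun _ : Unit => connectedComponentIn Vᶜ z) = (connectedComponentIn Vᶜ z)ᶜ := by
    unfold dom
    rw [iUnion_const]
  rwa [e] at h

/-- **Slit theorem**: a maximiser of `Re b₁` over `Sigma(U)` maps `U` onto a domain all of whose
complementary components lie on horizontal lines. -/
theorem slit_of_max {U : Set ℂ} (hU : IsExteriorDomain U) {f : ℂ → ℂ} (hf : Sig U f) {b : ℂ}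
    (hb : Tendsto (fun z => z * (f z - z)) (cocompact ℂ) (𝓝 b))
    (hmax : ∀ (g : ℂ → ℂ) (b' : ℂ), Sig U g →
      Tendsto (fun z => z * (g z - z)) (cocompact ℂ) (𝓝 b') → b'.re ≤ b.re) :
    ∀ z, z ∉ f '' U → ∃ c : ℝ, connectedComponentIn (f '' U)ᶜ z ⊆ {w | w.im = c} := by
  intro z hz
  have hinf : Tendsto f (cocompact ℂ) (cocompact ℂ) :=
    Crest.Agent.R105.Red_828.tendsto_cocompact_of_tendsto_sub hf.inf
  have hV : IsExteriorDomain (f '' U) :=
    Crest.Agent.R105.Red_828.exteriorDomain_image hU hf.hol hf.inj hinf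
  set K : Set ℂ := connectedComponentIn (f '' U)ᶜ z with hK
  have hKc : IsCompact K :=
    Crest.Agent.R105.Ends_897.isCompact_cc (Crest.Agent.R105.Ends_897.isCompact_compl hV) z
  have hKp : IsPreconnected K := isPreconnected_connectedComponentIn
  have hKo : IsPreconnected Kᶜ := isPreconnected_compl_cc hV z
  have hsub : K ⊆ (f '' U)ᶜ := connectedComponentIn_subset _ _
  by_cases hn : K.Nontrivial
  · obtain ⟨h, b', hh, hb', hb0, hbe⟩ := step hKc hKp hKo hn
    have h1 : f '' U ⊆ Kᶜ := fun w hw hwK => hsub hwK hw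
    have h2 := hmax (h ∘ f) (b' + b) (Sig.comp' hf hh h1) (coeff_comp hf.inf hb hb')
    rw [Complex.add_re] at h2
    exact hbe (by linarith)
  · rw [Set.not_nontrivial_iff] at hn
    have hzK : z ∈ K := mem_connectedComponentIn hz
    exact ⟨z.im, fun w hw => by rw [hn hw hzK]; rfl⟩

/-- a nondegenerate continuum on a horizontal line is a horizontal segment -/
theorem eq_segment {K : Set ℂ} (hK : IsCompact K) (hp : IsPreconnected K) (hn : K.Nontrivial)
    {c : ℝ} (hc : K ⊆ {w | w.im = c}) :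
    ∃ (a : ℂ) (l : ℝ), 0 < l ∧ K = segment ℝ a (a + (l : ℂ)) := by
  have hI : IsCompact (Complex.re '' K) := hK.image Complex.continuous_re
  have hIp : IsPreconnected (Complex.re '' K) := hp.image _ Complex.continuous_re.continuousOn
  have hne : (Complex.re '' K).Nonempty := hn.nonempty.image _
  have h1 : Complex.re '' K = Icc (sInf (Complex.re '' K)) (sSup (Complex.re '' K)) :=
    eq_Icc_of_connected_compact ⟨hne, hIp⟩ hI
  set α := sInf (Complex.re '' K) with hα
  set β := sSup (Complex.re '' K) with hβ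
  have hmem : ∀ w : ℂ, w ∈ K ↔ w.im = c ∧ α ≤ w.re ∧ w.re ≤ β := by
    intro w
    constructor
    · intro hw
      refine ⟨hc hw, ?_⟩
      have : w.re ∈ Complex.re '' K := ⟨w, hw, rfl⟩
      rw [h1] at this
      exact this
    · rintro ⟨h2, h3⟩
      have : w.re ∈ Complex.re '' K := by rw [h1]; exact h3
      obtain ⟨v, hv, hvw⟩ := this
      have : v = w := Complex.ext hvw ((hc hv).trans h2.symm)
      rw [← this]; exact hv
  have hlt : α < β := by
    obtain ⟨x, hx, y, hy, hxy⟩ := hn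
    have hx' := (hmem x).1 hx
    have hy' := (hmem y).1 hy
    have hre : x.re ≠ y.re := fun h => hxy (Complex.ext h (hx'.1.trans hy'.1.symm))
    rcases lt_or_gt_of_ne hre with h | h
    · linarith [hx'.2.1, hy'.2.2]
    · linarith [hy'.2.1, hx'.2.2]
  refine ⟨⟨α, c⟩, β - α, sub_pos.2 hlt, ?_⟩
  ext w
  rw [hmem, segment_eq_image']
  simp only [add_sub_cancel_left, mem_image, mem_Icc]
  constructor
  · rintro ⟨h2, h3, h4⟩
    refine ⟨(w.re - α) / (β - α), ⟨div_nonneg (by linarith) (by linarith),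
      (div_le_one (by linarith)).2 (by linarith)⟩, ?_⟩
    have h5 : β - α ≠ 0 := (sub_pos.2 hlt).ne'
    apply Complex.ext
    · simp only [Complex.real_smul, Complex.add_re, Complex.mul_re, Complex.ofReal_re,
        Complex.ofReal_im]
      field_simp
      ring
    · simp only [Complex.real_smul, Complex.add_im, Complex.mul_im, Complex.ofReal_re,
        Complex.ofReal_im, h2]
      ring
  · rintro ⟨θ, ⟨h2, h3⟩, rfl⟩
    have h5 := sub_pos.2 hlt
    simp only [Complex.real_smul, Complex.add_re, Complex.mul_re, Complex.ofReal_re,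
        Complex.ofReal_im, Complex.add_im, Complex.mul_im]
    refine ⟨by ring, ?_, ?_⟩
    · nlinarith
    · nlinarith

end Crest.Agent.R105.Slt_107
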