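import Crest.Agent.R105.FK3_644
import Crest.Agent.R105.Uni3_231
import Crest.Agent.R105.Slt4_107

/-!
# Row 105, finite Koebe (helper644), part 4

* `tendsto_b1`   : the coefficient `b₁` is continuous under locally uniform convergence in `Sig U`
* `exists_max`   : attainment of the maximum of `Re b₁` over `Sig U`
* `slit`         : the labelled parallel slit theorem `Slit`
-/

set_option autoImplicit false

open Set Filter Topology Metric Complex

namespace Crest.Agent.R105.FK_644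

open Crest.AnalysisR Uni231

theorem norm_b1_sub_le {U : Set ℂ} {f g : ℂ → ℂ} (hf : Uni231.Sig U f) (hg : Uni231.Sig U g)
    {R : ℝ} (hR : 0 < R) (hRU : Ext R ⊆ U) {e : ℝ}
    (he : ∀ z ∈ sphere (0:ℂ) (2 * R), ‖f z - g z‖ ≤ e) :
    ‖b1 f - b1 g‖ ≤ R * (e / (1 / 2)) := by
  rw [hf.b1_eq hR hRU, hg.b1_eq hR hRU, ← mul_sub, norm_mul, Complex.norm_real,
    Real.norm_eq_abs, abs_of_pos hR]
  have h1 := reg_differentiableOn hR (hf.diff.mono hRU) hf.lim
  have h2 := reg_differentiableOn hR (hg.diff.mono hRU) hg.lim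
  have h0 : ball (0:ℂ) 1 ∈ 𝓝 (0:ℂ) := ball_mem_nhds 0 one_pos
  have h3 : deriv (reg f R) 0 - deriv (reg g R) 0 = deriv (fun ζ => reg f R ζ - reg g R ζ) 0 := by
    rw [deriv_fun_sub (h1.differentiableAt h0) (h2.differentiableAt h0)]
  rw [h3]
  have h4 : closedBall (0:ℂ) (1 / 2) ⊆ ball (0:ℂ) 1 := closedBall_subset_ball (by norm_num)
  refine mul_le_mul_of_nonneg_left ?_ hR.le
  apply Complex.norm_deriv_le_of_forall_mem_sphere_norm_le (by norm_num)
  · apply DifferentiableOn.diffContOnCl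
    rw [closure_ball _ (by norm_num)]
    exact (h1.sub h2).mono h4
  · intro ζ hζ
    rw [mem_sphere_zero_iff_norm] at hζ
    have hne : ζ ≠ 0 := by
      rintro rfl
      norm_num at hζ
    rw [reg_of_ne hne, reg_of_ne hne]
    have h5 : ((R : ℂ) / ζ) ∈ sphere (0:ℂ) (2 * R) := by
      rw [mem_sphere_zero_iff_norm, norm_div, Complex.norm_real, Real.norm_eq_abs,
        abs_of_pos hR, hζ]
      ring
    have h6 := he _ h5
    have h7 : f ((R : ℂ) / ζ) - (R : ℂ) / ζ - (g ((R : ℂ) / ζ) - (R : ℂ) / ζ) =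
        f ((R : ℂ) / ζ) - g ((R : ℂ) / ζ) := by ring
    rw [h7]
    exact h6

theorem tendsto_b1 {U : Set ℂ} {f : ℕ → ℂ → ℂ} {g : ℂ → ℂ} (hf : ∀ n, Uni231.Sig U (f n))
    (hg : Uni231.Sig U g) {R : ℝ} (hR : 0 < R) (hRU : Ext R ⊆ U)
    (h : TendstoLocallyUniformlyOn f g atTop U) :
    Tendsto (fun n => b1 (f n)) atTop (𝓝 (b1 g)) := by
  rw [Metric.tendsto_nhds]
  intro ε hε
  have hS : sphere (0:ℂ) (2 * R) ⊆ U := by
    intro z hz
    apply hRU
    rw [mem_sphere_zero_iff_norm] at hz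
    rw [mem_Ext, hz]
    linarith
  have h1 : TendstoUniformlyOn f g atTop (sphere (0:ℂ) (2 * R)) :=
    (tendstoLocallyUniformlyOn_iff_tendstoUniformlyOn_of_compact (isCompact_sphere _ _)).1
      (h.mono hS)
  rw [Metric.tendstoUniformlyOn_iff] at h1
  filter_upwards [h1 (ε / (4 * R)) (by positivity)] with n hn
  rw [dist_eq_norm]
  have h2 := norm_b1_sub_le (hf n) hg hR hRU (e := ε / (4 * R)) (fun z hz => by
    have := (hn z hz).le
    rwa [dist_comm, dist_eq_norm] at this)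
  refine lt_of_le_of_lt h2 ?_
  have h3 : R * (ε / (4 * R) / (1 / 2)) = ε / 2 := by
    field_simp
    ring
  rw [h3]
  linarith

/-- attainment of the maximum of `Re b₁` -/
theorem exists_max {U : Set ℂ} (hU : IsExteriorDomain U) :
    ∃ f, Sig U f ∧ ∀ g, Sig U g → (b1 g).re ≤ (b1 f).re := by
  obtain ⟨R, hR, hRU⟩ := exists_Ext_subset hU
  set A : Set ℝ := {t | ∃ f, Uni231.Sig U f ∧ t = (b1 f).re} with hA
  have hne : A.Nonempty := ⟨_, id, sig_id U, rfl⟩
  have hbd : BddAbove A := by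
    refine ⟨7 * R ^ 2, ?_⟩
    rintro t ⟨f, hf, rfl⟩
    exact (Complex.re_le_norm _).trans (hf.norm_b1_le hR hRU)
  obtain ⟨t, -, ht, htA⟩ := exists_seq_tendsto_sSup hne hbd
  choose f hf hft using htA
  obtain ⟨φ, g, hφ, hg, hlim⟩ := exists_subseq (Uk := fun _ => U) (f := f) hU.1
    hU.2.1.isPreconnected hR hRU (Eventually.of_forall hf) (Eventually.of_forall fun _ => hRU)
    (fun K hK _ => Eventually.of_forall fun _ => hK)
  have h1 := tendsto_b1 (fun n => hf (φ n)) hg hR hRU hlim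
  have h2 : Tendsto (fun n => (b1 (f (φ n))).re) atTop (𝓝 (b1 g).re) :=
    (Complex.continuous_re.tendsto _).comp h1
  have h3 : Tendsto (fun n => (b1 (f (φ n))).re) atTop (𝓝 (sSup A)) := by
    have := ht.comp hφ.tendsto_atTop
    refine this.congr fun n => ?_
    simp only [Function.comp]
    exact hft _
  have h4 := tendsto_nhds_unique h2 h3
  refine ⟨g, Sig.ofU hg, fun h hh => ?_⟩
  rw [h4]
  exact le_csSup hbd ⟨h, hh.toU, rfl⟩

/-- **parallel slit theorem**, labelled -/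
theorem slit : Slit := by
  classical
  intro n K hK
  have hU := hK.exterior
  obtain ⟨R, hR, hRU⟩ := exists_Ext_subset hU
  obtain ⟨f, hf, hmax⟩ := exists_max hU
  obtain ⟨K', hK', hL⟩ := lab hK hf
  have h1 := Slt_107.slit_of_max hU hf (hf.toU.tendsto_b1 hR hRU) (fun g b' hg hb' => by
    have h2 := hmax g hg
    rwa [tendsto_nhds_unique (hg.toU.tendsto_b1 hR hRU) hb'] at h2)
  have h2 : ∀ i, ∃ (a : ℂ) (l : ℝ), 0 < l ∧ K' i = segment ℝ a (a + (l : ℂ)) := by
    intro i
    obtain ⟨z, hz⟩ := (hK'.conn i).nonempty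
    have hz' : z ∉ f '' dom K := by
      rw [hL.img]
      exact not_mem_dom' hz
    obtain ⟨c, hc⟩ := h1 z hz'
    rw [hL.img, hK'.cc_eq hz] at hc
    exact Slt_107.eq_segment (hK'.cpt i) (hK'.conn i).isPreconnected (hK'.nt i) hc
  choose a l hl hKs using h2
  have hs : slits (fun i => (a i, l i)) = K' := by
    funext i
    exact (hKs i).symm
  refine ⟨fun i => (a i, l i), ⟨hl, fun i j hij => ?_⟩, f, ?_⟩
  · rw [hs]
    exact hK'.disj i j hij
  · rw [hs]
    exact hL

end Crest.Agent.R105.FK_644
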