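import Crest.Agent.R105.Top1_8
import Crest.Agent.R105.Cof6_430

/-!
# Row 105, S0138: final assembly; the only remaining hypothesis is `Top1_8.SqPic`
-/

set_option autoImplicit false

open Set Filter Metric Topology

namespace Crest.Agent.R105.Fin138_641

/-- **S0138 from `SqPic`** (finite Koebe + cofat uniformisation are proved) -/
theorem s0138_of (h : Top1_8.SqPic) (U : Set ℂ) (hU : Crest.AnalysisR.IsExteriorDomain U) :
    ∃ f : ℂ → ℂ, DifferentiableOn ℂ f U ∧ Set.InjOn f U ∧
      Filter.Tendsto f (Filter.cocompact ℂ) (Filter.cocompact ℂ) ∧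
      Crest.AnalysisR.IsCircleDomainFinitePart (f '' U) :=
  Top1_8.s0138 (Top1_8.fatPic_of_sqPic h) Cof_430.cofat U hU

end Crest.Agent.R105.Fin138_641
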