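import Crest.Agent.R105.SkJ2_987
import Crest.Agent.R105.Psq0_425
import Crest.Agent.R105.Exs7_992
import Crest.Agent.R105.Spq7_722

/-!
# Row 105, S0138: the top from the three remaining leaves (helper895)

`LEMAQ StrQ` (425), `STRP StrQ`, `LIMP` (987's join); `STEPQ` (722) and `LIMQ` (992) are plugged.
-/

set_option autoImplicit false

open Crest.AnalysisR

namespace Crest.Agent.R105.Fin138_895

/-- **SqPic from the three remaining leaves** -/
theorem sqPic_of (hA : SkT1_137.LEMAQ Psq_425.StrQ) (h1 : SkJ_987.STRP Psq_425.StrQ)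
    (h2 : SkJ_987.LIMP) : Top1_8.SqPic :=
  SkJ_987.sqPic_of (C0 := 20) (θ := 1 / 10) (by norm_num) (by norm_num) hA Spq_722.stepQ
    Exs7_992.limq h1 h2

/-- **S0138 from the three remaining leaves** -/
theorem s0138_of (hA : SkT1_137.LEMAQ Psq_425.StrQ) (h1 : SkJ_987.STRP Psq_425.StrQ)
    (h2 : SkJ_987.LIMP) (U : Set ℂ) (hU : IsExteriorDomain U) :
    ∃ f : ℂ → ℂ, DifferentiableOn ℂ f U ∧ Set.InjOn f U ∧
      Filter.Tendsto f (Filter.cocompact ℂ) (Filter.cocompact ℂ) ∧
      IsCircleDomainFinitePart (f '' U) :=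
  Top2_8.s0138_of_sqPic (sqPic_of hA h1 h2) U hU

end Crest.Agent.R105.Fin138_895
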