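import Crest.Agent.R105.E13_499
import Crest.Agent.R105.Pj2_403

/-!
# Row 105, S0138, node E13: 403's `SolEnds` from 499's `ENDS`, `BVN`, `BVY`, `ATNE` (helper987)
-/

set_option autoImplicit false

open MeasureTheory Set Filter Topology Metric
open scoped NNReal ENNReal ContDiff

namespace Crest.Agent.R105.Gl_987

open Crest.AnalysisR Ni_459 Tc_808 Ends_897 Ta_937
open Cq_463 (Sqr)
open Pct_185 (PicT)
open Sqr_185 (sec SqK wd)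
open SkA_8 (Pk)
open E13_499
open Pj_403 (EndTop EndBot SolEnds endTop_of_lim endBot_of_lim isCompact_sec')

noncomputable section

theorem bvl_congr {E : Set ℂ} {w w' : ℂ → ℝ} (h : ∀ z, z ∉ E → w z = w' z) (hw : BVL E w) :
    BVL E w' := by
  intro R
  obtain ⟨M, hm, hM, h1⟩ := hw R
  refine ⟨M, hm, hM, ?_⟩
  filter_upwards [h1] with t ht htR
  refine le_trans (le_of_eq (eVariationOn.eq_of_eqOn fun v hv => ?_)) (ht htR)
  exact (h _ hv.1).symm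

variable {Y : Set ℂ} {x0 φ A : ℂ → ℝ} {a b : ℕ → ℂ → ℝ} {F P : ℂ → ℂ} {i : ℕ}

theorem pu_apply (h : Pk Y x0 a φ F) (w : ℂ → ℝ) {z : ℂ} (hz : z ∈ Yᶜ) : pu h w (F z) = w z :=
  push_comp (Uw6_913.endMap h) w hz

theorem pu_congr (h : Pk Y x0 a φ F) {w w' : ℂ → ℝ} (hw : ∀ z ∈ Yᶜ, w z = w' z) {ζ : ℂ}
    (hζ : ζ ∉ (F '' Yᶜ)ᶜ) : pu h w ζ = pu h w' ζ := by
  obtain ⟨z, hz, rfl⟩ := not_not.1 hζ
  rw [pu_apply h w hz, pu_apply h w' hz, hw z hz]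

/-- points of the line close to the section of the component are close to the component -/
theorem near_line (hE : EndMap Yᶜ (F '' Yᶜ) F) (hE' : EndMap Yᶜ (P '' Yᶜ) P) (K : Cmp Yᶜᶜ)
    {O : Set ℂ} (hO : IsOpen O) (hK : (corE hE K).1 ⊆ O) {t v₀ : ℝ}
    (hv : (⟨t, v₀⟩ : ℂ) ∈ (corE hE' K).1) :
    ∀ᶠ v in 𝓝 v₀, ∀ z ∈ Yᶜ, P z = ⟨t, v⟩ → F z ∈ O := by
  obtain ⟨O1, hO1, hK1, h1⟩ := exists_nhd_pull hE K hO hK
  obtain ⟨O2, hO2, hK2, h2⟩ := exists_nhd_push hE' K hO1 hK1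
  have hc : Continuous fun y : ℝ => (⟨t, y⟩ : ℂ) :=
    Sqr_185.continuous_mk.comp (continuous_const.prodMk continuous_id)
  have h3 : ∀ᶠ v in 𝓝 v₀, (⟨t, v⟩ : ℂ) ∈ O2 :=
    hc.continuousAt.eventually_mem (hO2.mem_nhds (hK2 hv))
  filter_upwards [h3] with v hv z hz hzv
  exact h1 z (h2 z hz (by rw [hzv]; exact hv)) hz

theorem inv_eq (hE' : EndMap Yᶜ (P '' Yᶜ) P) {ζ : ℂ} (hζ : ζ ∉ (P '' Yᶜ)ᶜ) :
    hE'.inv ζ ∈ Yᶜ ∧ P (hE'.inv ζ) = ζ := by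
  obtain ⟨z, hz, rfl⟩ := not_not.1 hζ
  rw [hE'.inv_left hz]
  exact ⟨hz, rfl⟩

/-- end limits of `Re F` lie in the range of the square -/
theorem x_range (h : Pk Y x0 a φ F) (hb : Pk Y x0 b (a i) P) (K : Cmp Yᶜᶜ) {Q : Sqr}
    (hS : SqK (cF h K).1 Q.x Q.y Q.s) {t v₀ x : ℝ} {S : Set ℝ}
    (hv : (⟨t, v₀⟩ : ℂ) ∈ (cF hb K).1) (hSE : ∀ v ∈ S, (⟨t, v⟩ : ℂ) ∉ (P '' Yᶜ)ᶜ)
    (hne : (𝓝[S] v₀).NeBot)
    (hx : Tendsto (fun v : ℝ => pu hb (fun z => (F z).re) ⟨t, v⟩) (𝓝[S] v₀) (𝓝 x)) :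
    x ∈ Icc Q.x (Q.x + Q.s) := by
  have key : ∀ ε > 0, Q.x - ε ≤ x ∧ x ≤ Q.x + Q.s + ε := by
    intro ε hε
    have hO : IsOpen {w : ℂ | Q.x - ε < w.re ∧ w.re < Q.x + Q.s + ε} :=
      (isOpen_lt continuous_const Complex.continuous_re).inter
        (isOpen_lt Complex.continuous_re continuous_const)
    have hK : (corE (Uw6_913.endMap h) K).1 ⊆ {w : ℂ | Q.x - ε < w.re ∧ w.re < Q.x + Q.s + ε} := by
      intro w hw
      have := hS.re_mem w hw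
      exact ⟨by linarith [this.1], by linarith [this.2]⟩
    have h1 := near_line (Uw6_913.endMap h) (Uw6_913.endMap hb) K hO hK hv
    have h2 : ∀ᶠ v in 𝓝[S] v₀, pu hb (fun z => (F z).re) ⟨t, v⟩ ∈
        Icc (Q.x - ε) (Q.x + Q.s + ε) := by
      filter_upwards [h1.filter_mono nhdsWithin_le_nhds, self_mem_nhdsWithin] with v hv1 hvS
      obtain ⟨h3, h4⟩ := inv_eq (Uw6_913.endMap hb) (hSE v hvS)
      have h5 := hv1 _ h3 h4
      show (F ((Uw6_913.endMap hb).inv ⟨t, v⟩)).re ∈ _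
      exact ⟨h5.1.le, h5.2.le⟩
    have h3 := isClosed_Icc.mem_of_tendsto hx h2
    exact h3
  constructor
  · exact le_of_forall_pos_le_add fun ε hε => by linarith [(key ε hε).1]
  · exact le_of_forall_pos_le_add fun ε hε => (key ε hε).2

/-- **`SolEnds`** -/
theorem solEnds_of (hEN : ENDS) (hN : BVN) (hY : BVY) (hA : ATNE) : SolEnds := by
  intro U x0 a φ F h i b P hb hE hE' hPF hPP K Q hQ hS hw
  obtain ⟨Y, rfl⟩ : ∃ Y, U = Yᶜ := ⟨Uᶜ, (compl_compl U).symm⟩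
  have h' : Pk Y x0 a φ F := by have := h; rwa [compl_compl] at this
  have hb' : Pk Y x0 b (a i) P := by have := hb; rwa [compl_compl] at this
  have hcF : IsCompact (F '' Yᶜ)ᶜ := hPF.cpt
  have hcP : IsCompact (P '' Yᶜ)ᶜ := hPP.cpt
  -- variation along the lines
  have b1 : BVL (P '' Yᶜ)ᶜ (pu hb' fun z => (F z).re) :=
    bvl_congr (fun z hz => pu_congr hb' (fun z hz => (h'.re z hz).symm) hz)
      (hN Y x0 (a i) φ b P hb' h'.tt (h'.com i)).2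
  have b2 : BVL (P '' Yᶜ)ᶜ (pu hb' fun z => (F z).im) := hY Y x0 φ a b F P i h' hb'
  have b3 : BVL (F '' Yᶜ)ᶜ (pu h' fun z => (P z).re) :=
    bvl_congr (fun z hz => pu_congr h' (fun z hz => (hb'.re z hz).symm) hz)
      (hN Y x0 φ (a i) a F h' (h'.tta i) (h'.com i).symm).2
  obtain ⟨n1, e1⟩ := hEN _ (cF hb' K) hPP
  obtain ⟨n2, e2⟩ := hEN _ (cF h' K) hPF
  obtain ⟨xT, xB, hx⟩ := e1 _ b1
  obtain ⟨yT, yB, hy⟩ := e1 _ b2
  obtain ⟨vT, vB, hv⟩ := e2 _ b3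
  -- the square
  have hs : 0 < Q.s := Q.hs
  have g1 : Q.x = Sqr_185.lo (cF h' K).1 := (sqK_lo hcF hS).symm
  have g2 : Q.s = wd (cF h' K).1 := (sqK_wd hcF hS).symm
  have hS' : SqK (cF h' K).1 (Sqr_185.lo (cF h' K).1) Q.y Q.s := by rw [← g1]; exact hS
  have hat := hA Y x0 φ a b F P i K h' hb' Q.y Q.s xT xB yT yB vT vB hs hS' g2 ⟨hx, hy, hv⟩
  filter_upwards [hx, hy, hat] with t tx ty ta ht
  have ht2 : t ∈ Icc (Sqr_185.lo (cF hb' K).1) (Sqr_185.hi (cF hb' K).1) := ⟨ht.1.le, ht.2.le⟩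
  obtain ⟨ne1, ne2⟩ := n1 t ht2
  have hLc : IsCompact (cF hb' K).1 := (cF hb' K).isCompact hcP
  have hsc := isCompact_sec' hLc t
  have hsne : (sec (cF hb' K).1 t).Nonempty :=
    Sqr_185.sec_nonempty hLc (cF hb' K).preconn (cF hb' K).nonempty ht2
  have htop : (⟨t, sSup (sec (cF hb' K).1 t)⟩ : ℂ) ∈ (cF hb' K).1 := hsc.sSup_mem hsne
  have hbot : (⟨t, sInf (sec (cF hb' K).1 t)⟩ : ℂ) ∈ (cF hb' K).1 := hsc.sInf_mem hsne
  obtain ⟨tx1, tx2⟩ := tx ht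
  obtain ⟨ty1, ty2⟩ := ty ht
  obtain ⟨ta1, ta2⟩ := ta ht
  have x1 := x_range h' hb' K hS (S := {v | (⟨t, v⟩ : ℂ) ∉ (P '' Yᶜ)ᶜ ∧
    sSup (sec (cF hb' K).1 t) < v}) htop (fun v hv => hv.1) ne1 tx1
  have x2 := x_range h' hb' K hS (S := {v | (⟨t, v⟩ : ℂ) ∉ (P '' Yᶜ)ᶜ ∧
    v < sInf (sec (cF hb' K).1 t)}) hbot (fun v hv => hv.1) ne2 tx2
  constructor
  · refine endTop_of_lim (E := (P '' Yᶜ)ᶜ) (X := pu hb' fun z => (F z).re)
      (Y := pu hb' fun z => (F z).im) (fun z hz hc => hc (mem_image_of_mem P hz))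
      (fun z hz => pu_apply hb' _ hz) (fun z hz => pu_apply hb' _ hz) tx1 ty1 ⟨x1, ta1⟩
  · refine endBot_of_lim (E := (P '' Yᶜ)ᶜ) (X := pu hb' fun z => (F z).re)
      (Y := pu hb' fun z => (F z).im) (fun z hz hc => hc (mem_image_of_mem P hz))
      (fun z hz => pu_apply hb' _ hz) (fun z hz => pu_apply hb' _ hz) tx2 ty2 ⟨x2, ta2⟩

end

end Crest.Agent.R105.Gl_987
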