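import Crest.Agent.R105.Gl7_987
import Crest.Agent.R105.Bvl4_31
import Crest.Agent.R105.Lin2_642

/-!
# Row 105, S0138, node E13: 403's `SolEnds` from `ATNE` only (helper987)

The end limits exist by 642's `ends` over 31's `bvl_x`, `bvl_u` and 253's `bvl_y`.
-/

set_option autoImplicit false

open MeasureTheory Set Filter Topology Metric
open scoped NNReal ENNReal ContDiff

namespace Crest.Agent.R105.Gl_987

open Crest.AnalysisR Ni_459 Tc_808 Ends_897 Ta_937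
open Cq_463 (Sqr)
open Pct_185 (PicT)
open Sqr_185 (sec SqK wd)
open SkA_8 (Pk)
open E13_499
open Pj_403 (EndTop EndBot SolEnds endTop_of_lim endBot_of_lim isCompact_sec')

noncomputable section

variable {Y : Set ℂ} {x0 φ A : ℂ → ℝ} {a b : ℕ → ℂ → ℝ} {F P : ℂ → ℂ} {i : ℕ}

theorem topF_eq' {E : Set ℂ} {L : Set ℂ} {t : ℝ} (hL : IsCompact L) (hne : (sec L t).Nonempty) :
    Lin_642.topF E L t = TopF E L t := Lin_642.topF_eq hL hne

theorem botF_eq' {E : Set ℂ} {L : Set ℂ} {t : ℝ} (hL : IsCompact L) (hne : (sec L t).Nonempty) :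
    Lin_642.botF E L t = BotF E L t := Lin_642.botF_eq hL hne

theorem neBots {E : Set ℂ} (hE : IsCompact E) (L : Cmp E) {t : ℝ}
    (ht : t ∈ Icc (Sqr_185.lo L.1) (Sqr_185.hi L.1)) :
    (TopF E L.1 t).NeBot ∧ (BotF E L.1 t).NeBot := by
  have hL := L.isCompact hE
  have hne := Sqr_185.sec_nonempty hL L.preconn L.nonempty ht
  rw [← topF_eq' hL hne, ← botF_eq' hL hne]
  exact ⟨Lin_642.topF_neBot hE L ht, Lin_642.botF_neBot hE L ht⟩

theorem endsOf {E : Set ℂ} (hE : IsCompact E) {w : ℂ → ℝ} (hw : Bvl_31.BVL E w) (L : Cmp E) :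
    EndsOf E L w (Lin_642.tp E L.1 w) (Lin_642.bt E L.1 w) := by
  have hL := L.isCompact hE
  filter_upwards [Lin_642.ends hE hw L] with t ht hto
  have ht2 : t ∈ Icc (Sqr_185.lo L.1) (Sqr_185.hi L.1) := ⟨hto.1.le, hto.2.le⟩
  have hne := Sqr_185.sec_nonempty hL L.preconn L.nonempty ht2
  rw [← topF_eq' hL hne, ← botF_eq' hL hne]
  exact ht ht2

theorem exists_ed (h : Pk Y x0 a φ F) (hb : Pk Y x0 b (a i) P) (K : Cmp Yᶜᶜ) :
    ∃ xT xB yT yB vT vB : ℝ → ℝ, Ed h hb K xT xB yT yB vT vB := by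
  have hcF : IsCompact (F '' Yᶜ)ᶜ := (Uw6_913.picT h).2.cpt
  have hcP : IsCompact (P '' Yᶜ)ᶜ := (Uw6_913.picT hb).2.cpt
  have b1 : Bvl_31.BVL (P '' Yᶜ)ᶜ (pu hb fun z => (F z).re) :=
    Bvl_31.bvl_x h hb fun z hz => pu_apply hb _ hz
  have b2 : Bvl_31.BVL (P '' Yᶜ)ᶜ (pu hb fun z => (F z).im) := by
    refine (Bvy_253.bvl_y h hb).congr fun ζ hζ => ?_
    obtain ⟨z, hz, rfl⟩ := not_not.1 hζ
    rw [Yv_319.yP_apply _ hz]
    exact (pu_apply hb (fun z => (F z).im) hz).symm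
  have b3 : Bvl_31.BVL (F '' Yᶜ)ᶜ (pu h fun z => (P z).re) :=
    Bvl_31.bvl_u h hb fun z hz => pu_apply h _ hz
  exact ⟨_, _, _, _, _, _, endsOf hcP b1 _, endsOf hcP b2 _, endsOf hcF b3 _⟩

/-- **`SolEnds`** -/
theorem solEnds_of_atne (hA : ATNE) : SolEnds := by
  intro U x0 a φ F h i b P hb hE hE' hPF hPP K Q hQ hS hw
  obtain ⟨Y, rfl⟩ : ∃ Y, U = Yᶜ := ⟨Uᶜ, (compl_compl U).symm⟩
  have h' : Pk Y x0 a φ F := by have := h; rwa [compl_compl] at this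
  have hb' : Pk Y x0 b (a i) P := by have := hb; rwa [compl_compl] at this
  have hcF : IsCompact (F '' Yᶜ)ᶜ := hPF.cpt
  have hcP : IsCompact (P '' Yᶜ)ᶜ := hPP.cpt
  have n1 := fun t ht => neBots hcP (cF hb' K) (t := t) ht
  obtain ⟨xT, xB, yT, yB, vT, vB, hEd⟩ := exists_ed h' hb' K
  obtain ⟨hx, hy, hv⟩ := hEd
  -- the square
  have hs : 0 < Q.s := Q.hs
  have g1 : Q.x = Sqr_185.lo (cF h' K).1 := (sqK_lo hcF hS).symm
  have g2 : Q.s = wd (cF h' K).1 := (sqK_wd hcF hS).symm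
  have hS' : SqK (cF h' K).1 (Sqr_185.lo (cF h' K).1) Q.y Q.s := by rw [← g1]; exact hS
  have hat := hA Y x0 φ a b F P i K h' hb' Q.y Q.s xT xB yT yB vT vB hs hS' g2 ⟨hx, hy, hv⟩
  filter_upwards [hx, hy, hat] with t tx ty ta ht
  have ht2 : t ∈ Icc (Sqr_185.lo (cF hb' K).1) (Sqr_185.hi (cF hb' K).1) := ⟨ht.1.le, ht.2.le⟩
  obtain ⟨ne1, ne2⟩ := n1 t ht2
  have hLc : IsCompact (cF hb' K).1 := (cF hb' K).isCompact hcP
  have hsc := isCompact_sec' hLc t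
  have hsne : (sec (cF hb' K).1 t).Nonempty :=
    Sqr_185.sec_nonempty hLc (cF hb' K).preconn (cF hb' K).nonempty ht2
  have htop : (⟨t, sSup (sec (cF hb' K).1 t)⟩ : ℂ) ∈ (cF hb' K).1 := hsc.sSup_mem hsne
  have hbot : (⟨t, sInf (sec (cF hb' K).1 t)⟩ : ℂ) ∈ (cF hb' K).1 := hsc.sInf_mem hsne
  obtain ⟨tx1, tx2⟩ := tx ht
  obtain ⟨ty1, ty2⟩ := ty ht
  obtain ⟨ta1, ta2⟩ := ta ht
  have x1 := x_range h' hb' K hS (S := {v | (⟨t, v⟩ : ℂ) ∉ (P '' Yᶜ)ᶜ ∧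
    sSup (sec (cF hb' K).1 t) < v}) htop (fun v hv => hv.1) ne1 tx1
  have x2 := x_range h' hb' K hS (S := {v | (⟨t, v⟩ : ℂ) ∉ (P '' Yᶜ)ᶜ ∧
    v < sInf (sec (cF hb' K).1 t)}) hbot (fun v hv => hv.1) ne2 tx2
  constructor
  · refine endTop_of_lim (E := (P '' Yᶜ)ᶜ) (X := pu hb' fun z => (F z).re)
      (Y := pu hb' fun z => (F z).im) (fun z hz hc => hc (mem_image_of_mem P hz))
      (fun z hz => pu_apply hb' _ hz) (fun z hz => pu_apply hb' _ hz) tx1 ty1 ⟨x1, ta1⟩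
  · refine endBot_of_lim (E := (P '' Yᶜ)ᶜ) (X := pu hb' fun z => (F z).re)
      (Y := pu hb' fun z => (F z).im) (fun z hz hc => hc (mem_image_of_mem P hz))
      (fun z hz => pu_apply hb' _ hz) (fun z hz => pu_apply hb' _ hz) tx2 ty2 ⟨x2, ta2⟩

end

end Crest.Agent.R105.Gl_987
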