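import Crest.Agent.R105.Jcs1_895
import Crest.Agent.R105.SkJ3_987
import Crest.Agent.R105.Exs7_992
import Crest.Agent.R105.Spq7_722

/-!
# Row 105, S0138: the join with compactly supported anchors (helper895)

`LIMPc`, `STRPc`, `PLAPc` = 987's `LIMP`, `STRP`, `PLAP` with the additional hypothesis
`∀ i, HasCompactSupport (a i)` (338's Lemma Y needs it, `attainp_cs` gives it);
`limpc_of`, `strpc_of`, `plapc_of` : the old leaves give the new ones;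
`strpc_of_plapc : PLAPc → STRPc StrQ` (987's `strq_adm`);
`s0138_of_cs : LEMAQ StrQ → PLAPc → LIMPc → S0138`.
-/

set_option autoImplicit false

open MeasureTheory Set Filter Topology Metric
open scoped NNReal ENNReal ContDiff

namespace Crest.Agent.R105.Jcs_895

open Crest.AnalysisR Tc_808 Ni_459 Ends_897
open IfB_641 (X0)
open Cq_463 (Sqr)
open Skp2_257 (Comps)
open Tra_937 (setR toC)
open Pct_185 (PicT)
open Exs_992 (LimOf)
open Ta_937 (sqs hrs)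
open SkT1_137 (TFin Carr StrT LEMAQ STEPQ)
open Nal_649 (FamQ)
open SkA_8 (Pk)
open Psq_425 (LimAt PlaLim StrQ StrQs)
open Cdf_377 (NPon)
open SkJ_987

noncomputable section

/-- `STRP` with compactly supported anchors -/
def STRPc (Str : StrT) : Prop :=
  ∀ (U : Set ℂ) (x0 : ℂ → ℝ) (a : ℕ → ℂ → ℝ) (φ : ℂ → ℝ) (F : ℂ → ℂ), Pk Uᶜ x0 a φ F →
    (∀ i, HasCompactSupport (a i)) →
    InjOn F U → PicT (F '' U)ᶜ → ∀ g Bm Bp, FamQ (PE U F) g Bm Bp → ∀ ψ,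
    Str (PE U F) (sqs (F '' U)ᶜ) (hrs (F '' U)ᶜ) g Bm Bp ψ → AdmP U a F ψ

/-- `LIMP` with compactly supported anchors -/
def LIMPc : Prop :=
  ∀ (U : Set ℂ) (x0 : ℂ → ℝ) (a : ℕ → ℂ → ℝ) (φ : ℂ → ℝ) (F : ℂ → ℂ), Pk Uᶜ x0 a φ F →
    (∀ i, HasCompactSupport (a i)) →
    InjOn F U → PicT (F '' U)ᶜ →
    ∀ (S : ℕ → ℝ × ℝ → ℝ) (ψ : ℝ × ℝ → ℝ) (c : Sqr → ℝ) (o : Set (ℝ × ℝ) → ℝ),
    LimOf (PE U F) (hrs (F '' U)ᶜ) S ψ → (∀ Q, 0 ≤ c Q) →
    (Summable fun Q : sqs (F '' U)ᶜ => c Q.1 ^ 2) →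
    (∀ m, ∀ Q ∈ sqs (F '' U)ᶜ, Cq_463.ch (PE U F) univ (S m) Q ≤ c Q) → TFin (PE U F) ψ o →
    (∀ P ∈ Comps (PE U F), (∀ Q ∈ sqs (F '' U)ᶜ, ¬ Q.car ⊆ P) → o P = 0) → AdmP U a F ψ

/-- `PLAP` with compactly supported anchors -/
def PLAPc : Prop :=
  ∀ (U : Set ℂ) (x0 : ℂ → ℝ) (a : ℕ → ℂ → ℝ) (φ : ℂ → ℝ) (F : ℂ → ℂ), Pk Uᶜ x0 a φ F →
    (∀ i, HasCompactSupport (a i)) →
    InjOn F U → PicT (F '' U)ᶜ → ∀ (f : ℝ × ℝ → ℝ) (o : Set (ℝ × ℝ) → ℝ),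
    PlaLim (PE U F) (sqs (F '' U)ᶜ) f → TCont (PE U F) f o → AdmP U a F f

theorem strpc_of {Str : StrT} (h : STRP Str) : STRPc Str :=
  fun U x0 a φ F h1 _ => h U x0 a φ F h1

theorem limpc_of (h : LIMP) : LIMPc := fun U x0 a φ F h1 _ => h U x0 a φ F h1

theorem plapc_of (h : PLAP) : PLAPc := fun U x0 a φ F h1 _ => h U x0 a φ F h1

variable {U : Set ℂ} {F : ℂ → ℂ} {x0 φ : ℂ → ℝ} {a : ℕ → ℂ → ℝ} {ψ : ℝ × ℝ → ℝ}
  {g : Set (Set (ℝ × ℝ))}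

/-- **stream functions are admissible** (987's `strq_adm`, one picture) -/
theorem strq_adm_c (hU : IsExteriorDomain U) (h : Pk Uᶜ x0 a φ F) (hi : InjOn F U)
    (hPL : ∀ (f : ℝ × ℝ → ℝ) (o : Set (ℝ × ℝ) → ℝ),
      PlaLim (PE U F) (sqs (F '' U)ᶜ) f → TCont (PE U F) f o → AdmP U a F f)
    {Bm Bp : ℝ} (hg : FamQ (PE U F) g Bm Bp) {o : Set (ℝ × ℝ) → ℝ}
    (hT : TFin (PE U F) ψ o) (hS : StrQs (PE U F) (sqs (F '' U)ᶜ) g ψ) : AdmP U a F ψ := by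
  intro i
  have hE := endMap h hU hi
  have hY : IsExteriorDomain ((F '' U)ᶜ)ᶜ := by rw [compl_compl]; exact hE.hV
  have hup : LB (Ta_937.push hE (a i)) := by
    obtain ⟨M, hM⟩ := (h.tta i).q.bdd
    exact LB.of_bdd ⟨M, fun z => hM _⟩
  have hψb : LB (toC ψ) := by
    obtain ⟨M, hM⟩ := hT.reg.bdd
    exact LB.of_bdd ⟨M, fun z => hM _⟩
  obtain ⟨f, hfc, -, hlim, hpla⟩ := hS.off
  have h1 := strip_null hY hup hψb hg hS.strip
  have h2 := off_null hY hψb hT.nn hT.osc hT.sum hg.sub hg.cpt hfc hlim hpla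
    (u := Ta_937.push hE (a i)) fun f o hf ho =>
      (Ta_937.ni_mixed hE (a i) (toC f)).2 (hPL f o hf ho i)
  have h3 : NI (F '' U)ᶜ (Ta_937.push hE (a i)) (toC ψ) := by
    refine measure_mono_null ?_ (measure_union_null h1 h2)
    rintro p ⟨z, hz, h'⟩
    by_cases hzg : pc (F '' U)ᶜ z ∈ g
    · exact Or.inl ⟨z, ⟨hz, hzg⟩, h'⟩
    · exact Or.inr ⟨z, ⟨hz, hzg⟩, h'⟩
  exact (Ta_937.ni_mixed hE (a i) (toC ψ)).1 h3

/-- `STRPc StrQ` from `PLAPc` -/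
theorem strpc_of_plapc (hPL : PLAPc) : STRPc StrQ := by
  intro U x0 a φ F h hcs hi hP g Bm Bp hg ψ hS
  have hU : IsExteriorDomain U := by have := h.hY; rwa [compl_compl] at this
  obtain ⟨o, hT⟩ := StrQs.fin hS
  exact strq_adm_c hU h hi (hPL U x0 a φ F h hcs hi hP) hg hT hS

/-- the interface of the second half -/
theorem carr_cs {Str : StrT} (h1 : STRPc Str) (h2 : LIMPc) (hU : IsExteriorDomain U)
    (h : Pk Uᶜ x0 a φ F) (hcs : ∀ i, HasCompactSupport (a i)) (hi : InjOn F U)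
    (hP : PicT (F '' U)ᶜ) :
    Carr Str (PE U F) (sqs (F '' U)ᶜ) (hrs (F '' U)ᶜ) (AdmP U a F) where
  el := fun _ _ hT had => el_adm hU h hi hP hT had
  str := fun g Bm Bp hg ψ hψ => h1 U x0 a φ F h hcs hi hP g Bm Bp hg ψ hψ
  lim := fun S ψ c o a1 a2 a3 a4 a5 a6 => h2 U x0 a φ F h hcs hi hP S ψ c o a1 a2 a3 a4 a5 a6

/-- **SQPIC from the leaves, compactly supported anchors** -/
theorem sqPic_of_gen {Str : StrT} {C0 θ : ℝ} (hC0 : 0 ≤ C0) (hθ : 0 < θ) (hA : LEMAQ Str)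
    (hST : STEPQ C0 θ) (hL : Exs_992.LIMQ) (h1 : STRPc Str) (h2 : LIMPc) : Top1_8.SqPic := by
  intro U hU
  have hUc : IsCompact Uᶜ := Ends_897.isCompact_compl hU
  obtain ⟨x0, hx0⟩ := X0.exists hUc
  obtain ⟨a, φ, F, h, hcs⟩ := attainp_cs Uᶜ x0 (by rw [compl_compl]; exact hU) hx0
  have hiP := Uw6_913.picT h
  rw [compl_compl] at hiP
  obtain ⟨hi, hP⟩ := hiP
  have hd := h.hol
  rw [compl_compl] at hd
  obtain ⟨c, hc⟩ := h.inf
  have hC := carr_cs h1 h2 hU h hcs hi hP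
  have h0 : hrs (F '' U)ᶜ = ∅ :=
    SkT1_137.hairless hC0 hθ hA hST hL (Ta_937.picS hP) hC.els (hC.elq (Ta_937.picS hP).q)
  refine ⟨fun z => F z - c, ⟨hd.sub_const c, fun z hz w hw hzw => hi hz hw (by simpa using hzw), ?_⟩,
    fun z hz => ?_⟩
  · have := hc.sub_const c
    rw [sub_self] at this
    refine this.congr fun z => ?_
    ring
  · have e1 : (fun z => F z - c) '' U = (fun w => w - c) '' (F '' U) := by
      rw [image_image]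
    have e2 : ((fun z => F z - c) '' U)ᶜ = (fun w => w - c) '' (F '' U)ᶜ := by
      rw [e1]
      exact (image_compl_eq (Homeomorph.subRight c).bijective).symm
    rw [e2] at hz ⊢
    obtain ⟨w, hw, rfl⟩ := hz
    obtain ⟨d, s, hs, hd⟩ := Ta_937.sq_of_no_hairs hP h0 hw
    refine ⟨d - c, s, hs, ?_⟩
    rw [cc_translate _ _ ⟨w, hw, rfl⟩]
    have e : (fun w => w - c) w + c = w := by simp
    rw [e, hd, sq_translate]

/-- **SQPIC from the three leaves** -/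
theorem sqPic_of (hA : LEMAQ StrQ) (h1 : PLAPc) (h2 : LIMPc) : Top1_8.SqPic :=
  sqPic_of_gen (C0 := 20) (θ := 1 / 10) (by norm_num) (by norm_num) hA Spq_722.stepQ
    Exs7_992.limq (strpc_of_plapc h1) h2

/-- **S0138 from the three leaves** -/
theorem s0138_of_cs (hA : LEMAQ StrQ) (h1 : PLAPc) (h2 : LIMPc) (U : Set ℂ)
    (hU : IsExteriorDomain U) :
    ∃ f : ℂ → ℂ, DifferentiableOn ℂ f U ∧ Set.InjOn f U ∧
      Filter.Tendsto f (Filter.cocompact ℂ) (Filter.cocompact ℂ) ∧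
      IsCircleDomainFinitePart (f '' U) :=
  Top2_8.s0138_of_sqPic (sqPic_of hA h1 h2) U hU

end

end Crest.Agent.R105.Jcs_895
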