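import Crest.Agent.R105.Jcs2_895
import Crest.Agent.R105.Gl3_395

/-!
# Row 105, S0138: the join for any property of the anchors (helper895)

`LIMPx X`, `PLAPx X`, `STRPx X Str` : 987's leaves with `∀ i, X Uᶜ x0 (a i)` after `Pk ..`;
`s0138_of_x X` : from a package with `X` and the leaves over `X`.
Instances: `ExtA` (395's `attain_ext`): `PLAPe`, `LIMPe`, `s0138_of_ext`;
compact support: `PLAPc`, `LIMPc` (Jcs2).
-/

set_option autoImplicit false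

open MeasureTheory Set Filter Topology Metric
open scoped NNReal ENNReal ContDiff

namespace Crest.Agent.R105.Jcs_895

open Crest.AnalysisR Tc_808 Ni_459 Ends_897
open IfB_641 (X0)
open Cq_463 (Sqr)
open Skp2_257 (Comps)
open Tra_937 (setR toC)
open Pct_185 (PicT)
open Exs_992 (LimOf)
open Ta_937 (sqs hrs)
open SkT1_137 (TFin Carr StrT LEMAQ STEPQ)
open Nal_649 (FamQ)
open SkA_8 (Pk)
open Psq_425 (LimAt PlaLim StrQ StrQs)
open Yv_319 (ExtA)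
open SkJ_987

noncomputable section

/-- a property of anchors -/
abbrev AncT : Type := Set ℂ → (ℂ → ℝ) → (ℂ → ℝ) → Prop

/-- `STRP` for anchors with the property `X` -/
def STRPx (X : AncT) (Str : StrT) : Prop :=
  ∀ (U : Set ℂ) (x0 : ℂ → ℝ) (a : ℕ → ℂ → ℝ) (φ : ℂ → ℝ) (F : ℂ → ℂ), Pk Uᶜ x0 a φ F →
    (∀ i, X Uᶜ x0 (a i)) →
    InjOn F U → PicT (F '' U)ᶜ → ∀ g Bm Bp, FamQ (PE U F) g Bm Bp → ∀ ψ,
    Str (PE U F) (sqs (F '' U)ᶜ) (hrs (F '' U)ᶜ) g Bm Bp ψ → AdmP U a F ψ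

/-- `LIMP` for anchors with the property `X` -/
def LIMPx (X : AncT) : Prop :=
  ∀ (U : Set ℂ) (x0 : ℂ → ℝ) (a : ℕ → ℂ → ℝ) (φ : ℂ → ℝ) (F : ℂ → ℂ), Pk Uᶜ x0 a φ F →
    (∀ i, X Uᶜ x0 (a i)) →
    InjOn F U → PicT (F '' U)ᶜ →
    ∀ (S : ℕ → ℝ × ℝ → ℝ) (ψ : ℝ × ℝ → ℝ) (c : Sqr → ℝ) (o : Set (ℝ × ℝ) → ℝ),
    LimOf (PE U F) (hrs (F '' U)ᶜ) S ψ → (∀ Q, 0 ≤ c Q) →
    (Summable fun Q : sqs (F '' U)ᶜ => c Q.1 ^ 2) →
    (∀ m, ∀ Q ∈ sqs (F '' U)ᶜ, Cq_463.ch (PE U F) univ (S m) Q ≤ c Q) → TFin (PE U F) ψ o →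
    (∀ P ∈ Comps (PE U F), (∀ Q ∈ sqs (F '' U)ᶜ, ¬ Q.car ⊆ P) → o P = 0) → AdmP U a F ψ

/-- `PLAP` for anchors with the property `X` -/
def PLAPx (X : AncT) : Prop :=
  ∀ (U : Set ℂ) (x0 : ℂ → ℝ) (a : ℕ → ℂ → ℝ) (φ : ℂ → ℝ) (F : ℂ → ℂ), Pk Uᶜ x0 a φ F →
    (∀ i, X Uᶜ x0 (a i)) →
    InjOn F U → PicT (F '' U)ᶜ → ∀ (f : ℝ × ℝ → ℝ) (o : Set (ℝ × ℝ) → ℝ),
    PlaLim (PE U F) (sqs (F '' U)ᶜ) f → TCont (PE U F) f o → AdmP U a F f

/-- `STRPx StrQ` from `PLAPx` -/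
theorem strpx_of_plapx {X : AncT} (hPL : PLAPx X) : STRPx X StrQ := by
  intro U x0 a φ F h hX hi hP g Bm Bp hg ψ hS
  have hU : IsExteriorDomain U := by have := h.hY; rwa [compl_compl] at this
  obtain ⟨o, hT⟩ := StrQs.fin hS
  exact strq_adm_c hU h hi (hPL U x0 a φ F h hX hi hP) hg hT hS

variable {U : Set ℂ} {F : ℂ → ℂ} {x0 φ : ℂ → ℝ} {a : ℕ → ℂ → ℝ}

/-- the interface of the second half -/
theorem carr_x {X : AncT} {Str : StrT} (h1 : STRPx X Str) (h2 : LIMPx X) (hU : IsExteriorDomain U)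
    (h : Pk Uᶜ x0 a φ F) (hX : ∀ i, X Uᶜ x0 (a i)) (hi : InjOn F U)
    (hP : PicT (F '' U)ᶜ) :
    Carr Str (PE U F) (sqs (F '' U)ᶜ) (hrs (F '' U)ᶜ) (AdmP U a F) where
  el := fun _ _ hT had => el_adm hU h hi hP hT had
  str := fun g Bm Bp hg ψ hψ => h1 U x0 a φ F h hX hi hP g Bm Bp hg ψ hψ
  lim := fun S ψ c o a1 a2 a3 a4 a5 a6 => h2 U x0 a φ F h hX hi hP S ψ c o a1 a2 a3 a4 a5 a6

/-- squares, for one package which carries an interface -/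
theorem sq_of_carr {Str : StrT} {C0 θ : ℝ} (hC0 : 0 ≤ C0) (hθ : 0 < θ) (hA : LEMAQ Str)
    (hST : STEPQ C0 θ) (hL : Exs_992.LIMQ) (h : Pk Uᶜ x0 a φ F)
    (hC : InjOn F U → PicT (F '' U)ᶜ →
      Carr Str (PE U F) (sqs (F '' U)ᶜ) (hrs (F '' U)ᶜ) (AdmP U a F)) :
    ∃ f : ℂ → ℂ, FK_644.Sig U f ∧ ∀ z ∈ (f '' U)ᶜ, ∃ (c : ℂ) (s : ℝ), 0 ≤ s ∧
      connectedComponentIn (f '' U)ᶜ z = Top1_8.Sq c s := by
  have hiP := Uw6_913.picT h
  rw [compl_compl] at hiP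
  obtain ⟨hi, hP⟩ := hiP
  have hd := h.hol
  rw [compl_compl] at hd
  obtain ⟨c, hc⟩ := h.inf
  have hC := hC hi hP
  have h0 : hrs (F '' U)ᶜ = ∅ :=
    SkT1_137.hairless hC0 hθ hA hST hL (Ta_937.picS hP) hC.els (hC.elq (Ta_937.picS hP).q)
  refine ⟨fun z => F z - c, ⟨hd.sub_const c, fun z hz w hw hzw => hi hz hw (by simpa using hzw), ?_⟩,
    fun z hz => ?_⟩
  · have := hc.sub_const c
    rw [sub_self] at this
    refine this.congr fun z => ?_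
    ring
  · have e1 : (fun z => F z - c) '' U = (fun w => w - c) '' (F '' U) := by
      rw [image_image]
    have e2 : ((fun z => F z - c) '' U)ᶜ = (fun w => w - c) '' (F '' U)ᶜ := by
      rw [e1]
      exact (image_compl_eq (Homeomorph.subRight c).bijective).symm
    rw [e2] at hz ⊢
    obtain ⟨w, hw, rfl⟩ := hz
    obtain ⟨d, s, hs, hd⟩ := Ta_937.sq_of_no_hairs hP h0 hw
    refine ⟨d - c, s, hs, ?_⟩
    rw [cc_translate _ _ ⟨w, hw, rfl⟩]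
    have e : (fun w => w - c) w + c = w := by simp
    rw [e, hd, sq_translate]

/-- **SQPIC for anchors with the property `X`** -/
theorem sqPic_of_x {X : AncT} {Str : StrT} {C0 θ : ℝ} (hC0 : 0 ≤ C0) (hθ : 0 < θ)
    (hX : ∀ (Y : Set ℂ) (x0 : ℂ → ℝ), IsExteriorDomain Yᶜ → X0 Y x0 →
      ∃ (a : ℕ → ℂ → ℝ) (φ : ℂ → ℝ) (F : ℂ → ℂ), Pk Y x0 a φ F ∧ ∀ i, X Y x0 (a i))
    (hA : LEMAQ Str) (hST : STEPQ C0 θ) (hL : Exs_992.LIMQ) (h1 : STRPx X Str) (h2 : LIMPx X) :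
    Top1_8.SqPic := by
  intro U hU
  have hUc : IsCompact Uᶜ := Ends_897.isCompact_compl hU
  obtain ⟨x0, hx0⟩ := X0.exists hUc
  obtain ⟨a, φ, F, h, ha⟩ := hX Uᶜ x0 (by rw [compl_compl]; exact hU) hx0
  exact sq_of_carr hC0 hθ hA hST hL h fun hi hP => carr_x h1 h2 hU h ha hi hP

/-! ### extremal anchors (395) -/

/-- `PLAP` for extremal anchors -/
def PLAPe : Prop := PLAPx ExtA

/-- `LIMP` for extremal anchors -/
def LIMPe : Prop := LIMPx ExtA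

/-- `STRP` for extremal anchors -/
def STRPe (Str : StrT) : Prop := STRPx ExtA Str

theorem plape_of (h : PLAP) : PLAPe := fun U x0 a φ F h1 _ => h U x0 a φ F h1

theorem limpe_of (h : LIMP) : LIMPe := fun U x0 a φ F h1 _ => h U x0 a φ F h1

theorem strpe_of_plape (h : PLAPe) : STRPe StrQ := strpx_of_plapx h

/-- **SQPIC from the three leaves, extremal anchors** -/
theorem sqPic_of_ext (hA : LEMAQ StrQ) (h1 : PLAPe) (h2 : LIMPe) : Top1_8.SqPic :=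
  sqPic_of_x (X := ExtA) (C0 := 20) (θ := 1 / 10) (by norm_num) (by norm_num)
    (fun _ _ hY hx => Gl_395.attain_ext hY hx) hA Spq_722.stepQ Exs7_992.limq
    (strpe_of_plape h1) h2

/-- **S0138 from the three leaves, extremal anchors** -/
theorem s0138_of_ext (hA : LEMAQ StrQ) (h1 : PLAPe) (h2 : LIMPe) (U : Set ℂ)
    (hU : IsExteriorDomain U) :
    ∃ f : ℂ → ℂ, DifferentiableOn ℂ f U ∧ Set.InjOn f U ∧
      Filter.Tendsto f (Filter.cocompact ℂ) (Filter.cocompact ℂ) ∧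
      IsCircleDomainFinitePart (f '' U) :=
  Top2_8.s0138_of_sqPic (sqPic_of_ext hA h1 h2) U hU

end

end Crest.Agent.R105.Jcs_895
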