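import Crest.Agent.R105.Nie8_909

/-!
# Row 105, S0138 (NI frame), node NIEP, part 9 (helper909): the top

* `Good U x0 a φ F` : all anchors have `LYi`, `HCi`, `ATNi`;
* `adm_lim`, `adm_pla`, `adm_str`, `carr_good` : the join for ONE good package;
* leaves `HCP`, `ATNP` (compactly supported anchors) give `LIMPc`, `PLAPc` (895) and S0138;
* leaf `PKG` (there is a good package) gives S0138.
-/

set_option autoImplicit false

open MeasureTheory Set Filter Topology Metric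
open scoped NNReal ENNReal

namespace Crest.Agent.R105.Nie_909

open Crest.AnalysisR Tc_808 Ni_459 Sqr_185 Ends_897 Plv_626
open Bd_775 (Q en)
open IfB_641 (X0)
open Cq_463 (Sqr QPic Ch TQ)
open CF_363 (Hair g2 SL CFJ CF cut)
open Skp2_257 (Comps Reg)
open Tra_937 (setR setC toC Uni)
open Pct_185 (PicT Sol)
open Stp_722 (OscLe)
open Ta_937 (sqs hrs corE)
open SkA_8 (Pk)
open SkJ_987 (PE AdmP endMap TCont)
open Psq_425 (PlaLim StrQ StrQs)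
open Exs_992 (LimOf)
open SkT1_137 (TFin Carr LEMAQ)
open Nal_649 (FamQ)
open Jcs_895 (LIMPc PLAPc)

noncomputable section

variable {U : Set ℂ} {F : ℂ → ℂ} {x0 φ : ℂ → ℝ} {a : ℕ → ℂ → ℝ} {ψ f : ℝ × ℝ → ℝ}
  {g : Set (Set (ℝ × ℝ))}

/-- the three properties of the anchors -/
def Good (U : Set ℂ) (x0 : ℂ → ℝ) (a : ℕ → ℂ → ℝ) (φ : ℂ → ℝ) (F : ℂ → ℂ) : Prop :=
  ∀ i, LYi U x0 φ (a i) F ∧ HCi U φ (a i) ∧ ATNi U x0 (a i) F

theorem adm_lim (hU : IsExteriorDomain U) (h : Pk Uᶜ x0 a φ F) (hi : InjOn F U)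
    (hP : PicT (F '' U)ᶜ) (hG : Good U x0 a φ F)
    {S : ℕ → ℝ × ℝ → ℝ} {c : Sqr → ℝ} {o : Set (ℝ × ℝ) → ℝ}
    (hL : LimOf (PE U F) (hrs (F '' U)ᶜ) S ψ) (hc0 : ∀ Q, 0 ≤ c Q)
    (hcs : Summable fun Q : sqs (F '' U)ᶜ => c Q.1 ^ 2)
    (hch : ∀ m, ∀ Q ∈ sqs (F '' U)ᶜ, Cq_463.ch (PE U F) univ (S m) Q ≤ c Q)
    (hT : TFin (PE U F) ψ o) : AdmP U a F ψ := fun i =>
  limp_i hU h hi hP i (hG i).1 (hG i).2.1 (hG i).2.2 hL hc0 hcs hch hT

theorem adm_pla (hU : IsExteriorDomain U) (h : Pk Uᶜ x0 a φ F) (hi : InjOn F U)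
    (hP : PicT (F '' U)ᶜ) (hG : Good U x0 a φ F) {o : Set (ℝ × ℝ) → ℝ}
    (hL : PlaLim (PE U F) (sqs (F '' U)ᶜ) f) (hT : TCont (PE U F) f o) : AdmP U a F f := fun i =>
  plap_i hU h hi hP i (hG i).1 (hG i).2.1 (hG i).2.2 hL hT

theorem adm_str (hU : IsExteriorDomain U) (h : Pk Uᶜ x0 a φ F) (hi : InjOn F U)
    (hP : PicT (F '' U)ᶜ) (hG : Good U x0 a φ F) {Bm Bp : ℝ} (hg : FamQ (PE U F) g Bm Bp)
    (hS : StrQs (PE U F) (sqs (F '' U)ᶜ) g ψ) : AdmP U a F ψ := by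
  obtain ⟨o, hT⟩ := StrQs.fin hS
  exact Jcs_895.strq_adm_c hU h hi (fun f o hf ho => adm_pla hU h hi hP hG hf ho) hg hT hS

/-- **the interface of the second half for one good package** -/
theorem carr_good (hU : IsExteriorDomain U) (h : Pk Uᶜ x0 a φ F) (hi : InjOn F U)
    (hP : PicT (F '' U)ᶜ) (hG : Good U x0 a φ F) :
    Carr StrQ (PE U F) (sqs (F '' U)ᶜ) (hrs (F '' U)ᶜ) (AdmP U a F) where
  el := fun _ _ hT had => SkJ_987.el_adm hU h hi hP hT had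
  str := fun _ _ _ hg _ hψ => adm_str hU h hi hP hG hg hψ
  lim := fun _ _ _ _ a1 a2 a3 a4 a5 _ => adm_lim hU h hi hP hG a1 a2 a3 a4 a5

/-- LEAF: there is a good package -/
def PKG : Prop :=
  ∀ (U : Set ℂ) (x0 : ℂ → ℝ), IsExteriorDomain U → X0 Uᶜ x0 →
    ∃ (a : ℕ → ℂ → ℝ) (φ : ℂ → ℝ) (F : ℂ → ℂ), Pk Uᶜ x0 a φ F ∧ Good U x0 a φ F

/-- **SQPIC from Lemma A and a good package** -/
theorem sqPic_pkg (hA : LEMAQ StrQ) (hK : PKG) : Top1_8.SqPic := by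
  intro U hU
  have hUc : IsCompact Uᶜ := Ends_897.isCompact_compl hU
  obtain ⟨x0, hx0⟩ := X0.exists hUc
  obtain ⟨a, φ, F, h, hG⟩ := hK U x0 hU hx0
  have hiP := Uw6_913.picT h
  rw [compl_compl] at hiP
  obtain ⟨hi, hP⟩ := hiP
  have hd := h.hol
  rw [compl_compl] at hd
  obtain ⟨c, hc⟩ := h.inf
  have hC := carr_good hU h hi hP hG
  have h0 : hrs (F '' U)ᶜ = ∅ :=
    SkT1_137.hairless (C0 := 20) (θ := 1 / 10) (by norm_num) (by norm_num) hA Spq_722.stepQ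
      Exs7_992.limq (Ta_937.picS hP) hC.els (hC.elq (Ta_937.picS hP).q)
  refine ⟨fun z => F z - c, ⟨hd.sub_const c, fun z hz w hw hzw => hi hz hw (by simpa using hzw), ?_⟩,
    fun z hz => ?_⟩
  · have := hc.sub_const c
    rw [sub_self] at this
    refine this.congr fun z => ?_
    ring
  · have e1 : (fun z => F z - c) '' U = (fun w => w - c) '' (F '' U) := by
      rw [image_image]
    have e2 : ((fun z => F z - c) '' U)ᶜ = (fun w => w - c) '' (F '' U)ᶜ := by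
      rw [e1]
      exact (image_compl_eq (Homeomorph.subRight c).bijective).symm
    rw [e2] at hz ⊢
    obtain ⟨w, hw, rfl⟩ := hz
    obtain ⟨d, s, hs, hd⟩ := Ta_937.sq_of_no_hairs hP h0 hw
    refine ⟨d - c, s, hs, ?_⟩
    rw [SkJ_987.cc_translate _ _ ⟨w, hw, rfl⟩]
    have e : (fun w => w - c) w + c = w := by simp
    rw [e, hd, SkJ_987.sq_translate]

/-- **S0138 from Lemma A and a good package** -/
theorem s0138_pkg (hA : LEMAQ StrQ) (hK : PKG) (U : Set ℂ) (hU : IsExteriorDomain U) :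
    ∃ f : ℂ → ℂ, DifferentiableOn ℂ f U ∧ Set.InjOn f U ∧
      Filter.Tendsto f (Filter.cocompact ℂ) (Filter.cocompact ℂ) ∧
      IsCircleDomainFinitePart (f '' U) :=
  Top2_8.s0138_of_sqPic (sqPic_pkg hA hK) U hU

/-! ### compactly supported anchors -/

/-- LEAF: anchors jump at solids only -/
def HCP : Prop :=
  ∀ (U : Set ℂ) (x0 : ℂ → ℝ) (a : ℕ → ℂ → ℝ) (φ : ℂ → ℝ) (F : ℂ → ℂ), Pk Uᶜ x0 a φ F →
    (∀ i, HasCompactSupport (a i)) → InjOn F U → PicT (F '' U)ᶜ → ∀ i, HCi U φ (a i)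

/-- LEAF: a.e. level of an anchor meets a solid at its square only -/
def ATNP : Prop :=
  ∀ (U : Set ℂ) (x0 : ℂ → ℝ) (a : ℕ → ℂ → ℝ) (φ : ℂ → ℝ) (F : ℂ → ℂ), Pk Uᶜ x0 a φ F →
    (∀ i, HasCompactSupport (a i)) → InjOn F U → PicT (F '' U)ᶜ → ∀ i, ATNi U x0 (a i) F

theorem good_cs (hH : HCP) (hN : ATNP) (h : Pk Uᶜ x0 a φ F)
    (hcs : ∀ i, HasCompactSupport (a i)) (hi : InjOn F U) (hP : PicT (F '' U)ᶜ) :
    Good U x0 a φ F := fun i =>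
  ⟨lyi_cs h i (hcs i), hH U x0 a φ F h hcs hi hP i, hN U x0 a φ F h hcs hi hP i⟩

theorem ext_of (h : Pk Uᶜ x0 a φ F) : IsExteriorDomain U := by
  have := h.hY; rwa [compl_compl] at this

/-- **LIMPc from HCP, ATNP** -/
theorem limpc (hH : HCP) (hN : ATNP) : LIMPc :=
  fun _ _ _ _ _ h hcs hi hP _ _ _ _ a1 a2 a3 a4 a5 _ =>
    adm_lim (ext_of h) h hi hP (good_cs hH hN h hcs hi hP) a1 a2 a3 a4 a5

/-- **PLAPc from HCP, ATNP** -/
theorem plapc (hH : HCP) (hN : ATNP) : PLAPc :=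
  fun _ _ _ _ _ h hcs hi hP _ _ hf hT =>
    adm_pla (ext_of h) h hi hP (good_cs hH hN h hcs hi hP) hf hT

/-- **S0138 from Lemma A, HCP, ATNP** -/
theorem s0138_cs (hA : LEMAQ StrQ) (hH : HCP) (hN : ATNP) (U : Set ℂ)
    (hU : IsExteriorDomain U) :
    ∃ f : ℂ → ℂ, DifferentiableOn ℂ f U ∧ Set.InjOn f U ∧
      Filter.Tendsto f (Filter.cocompact ℂ) (Filter.cocompact ℂ) ∧
      IsCircleDomainFinitePart (f '' U) :=
  Jcs_895.s0138_of_cs hA (plapc hH hN) (limpc hH hN) U hU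

end

end Crest.Agent.R105.Nie_909
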