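import Crest.Agent.R105.Jex2_987
import Crest.Agent.R105.Nie9_909

/-!
# Row 105, S0138: the top over extremal anchors (helper987)

Open: `LEMAQ StrQ` (425) and node E13 for extremal anchors = `HCo Ext`, `ATNo Ext`.
-/

set_option autoImplicit false

open MeasureTheory Set Filter Topology Metric
open scoped NNReal ENNReal

namespace Crest.Agent.R105.Jex_987

open Crest.AnalysisR
open SkT1_137 (LEMAQ)
open SkA_8 (Pk)
open Psq_425 (StrQ)
open Nie_909 (HCi ATNi Good PKG)

noncomputable section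

/-- `PLAP` from the facts about one anchor (909's `plap_i`) -/
theorem plapo_of {Om : Kind} (hL : LYo Om) (hH : HCo Om) (hA : ATNo Om) : PLAPo Om := by
  intro U x0 a φ F h hO hi hP f o hf hT i
  have hU : IsExteriorDomain U := by have := h.hY; rwa [compl_compl] at this
  exact Nie_909.plap_i hU h hi hP i (hL U x0 a φ F h hO hi hP i) (hH U x0 a φ F h hO hi hP i)
    (hA U x0 a φ F h hO hi hP i) hf hT

theorem limpe (hH : HCo Ext) (hA : ATNo Ext) : LIMPo Ext := limpo_of lyo_ext hH hA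

theorem plape (hH : HCo Ext) (hA : ATNo Ext) : PLAPo Ext := plapo_of lyo_ext hH hA

/-- **S0138 from `LEMAQ StrQ` and node E13 for extremal anchors** -/
theorem s0138_e13 (hA : LEMAQ StrQ) (hH : HCo Ext) (hN : ATNo Ext)
    (U : Set ℂ) (hU : IsExteriorDomain U) :
    ∃ f : ℂ → ℂ, DifferentiableOn ℂ f U ∧ Set.InjOn f U ∧
      Filter.Tendsto f (Filter.cocompact ℂ) (Filter.cocompact ℂ) ∧
      IsCircleDomainFinitePart (f '' U) :=
  s0138_of_ext hA (plape hH hN) (limpe hH hN) U hU

/-- 909's `PKG` over extremal anchors -/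
theorem pkg_ext (hH : HCo Ext) (hN : ATNo Ext) : PKG := by
  intro U x0 hU hx
  have hU' : IsExteriorDomain (Uᶜ)ᶜ := by rwa [compl_compl]
  obtain ⟨a, φ, F, h, hO⟩ := Gl_395.attain_ext hU' hx
  have hiP := Uw6_913.picT h
  rw [compl_compl] at hiP
  obtain ⟨hi, hP⟩ := hiP
  exact ⟨a, φ, F, h, fun i => ⟨lyi_ext h i (hO i), hH U x0 a φ F h hO hi hP i,
    hN U x0 a φ F h hO hi hP i⟩⟩

end

end Crest.Agent.R105.Jex_987
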