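import Crest.Agent.R105.Jex3_987
import Crest.Agent.R105.Nod6_281

/-!
# Row 105, S0138: the top with 281's `hco_of` (helper987)

Open: `LEMAQ StrQ` (425), `ATNo Ext` (ends at solids lie in the square) and `ENDo Ext` (all ends at a
flat component coincide).
-/

set_option autoImplicit false

open MeasureTheory Set Filter Topology Metric
open scoped NNReal ENNReal

namespace Crest.Agent.R105.Jex_987

open Crest.AnalysisR
open SkT1_137 (LEMAQ)
open Psq_425 (StrQ)
open Nod_281 (ENDo ENDLo)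

/-- **S0138 from `LEMAQ StrQ`, `ATNo Ext`, `ENDo Ext`** -/
theorem s0138_end (hA : LEMAQ StrQ) (hN : ATNo Ext) (hE : ENDo Ext)
    (U : Set ℂ) (hU : IsExteriorDomain U) :
    ∃ f : ℂ → ℂ, DifferentiableOn ℂ f U ∧ Set.InjOn f U ∧
      Filter.Tendsto f (Filter.cocompact ℂ) (Filter.cocompact ℂ) ∧
      IsCircleDomainFinitePart (f '' U) :=
  s0138_e13 hA (Nod_281.hco_of lyo_ext hN hE) hN U hU

/-- the same with limits of `Im F` -/
theorem s0138_endl (hA : LEMAQ StrQ) (hN : ATNo Ext) (hE : ENDLo Ext)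
    (U : Set ℂ) (hU : IsExteriorDomain U) :
    ∃ f : ℂ → ℂ, DifferentiableOn ℂ f U ∧ Set.InjOn f U ∧
      Filter.Tendsto f (Filter.cocompact ℂ) (Filter.cocompact ℂ) ∧
      IsCircleDomainFinitePart (f '' U) :=
  s0138_e13 hA (Nod_281.hco_of_lim lyo_ext hN hE) hN U hU

end Crest.Agent.R105.Jex_987
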