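import Crest.Agent.R105.Jex4_987
import Crest.Agent.R105.Gl8_987
import Crest.Agent.R105.Eta6_179
import Crest.Agent.R105.Kna8_421

/-!
# Row 105, S0138: the top, only `SolEnds` open (helper987)

`s0138_sol : SolEnds → S0138`, `s0138_atne : ATNE → S0138` (499's literal).
-/

set_option autoImplicit false

open MeasureTheory Set Filter Topology Metric
open scoped NNReal ENNReal

namespace Crest.Agent.R105.Jex_987

open Crest.AnalysisR

/-- **S0138 from `SolEnds`** -/
theorem s0138_sol (H : Pj_403.SolEnds) (U : Set ℂ) (hU : IsExteriorDomain U) :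
    ∃ f : ℂ → ℂ, DifferentiableOn ℂ f U ∧ Set.InjOn f U ∧
      Filter.Tendsto f (Filter.cocompact ℂ) (Filter.cocompact ℂ) ∧
      IsCircleDomainFinitePart (f '' U) :=
  s0138_end Kna_421.lemaq (Pj_403.atno_ext H) Eta_179.endo_ext U hU

/-- **S0138 from `ATNE`** -/
theorem s0138_atne (hA : E13_499.ATNE) (U : Set ℂ)
    (hU : IsExteriorDomain U) :
    ∃ f : ℂ → ℂ, DifferentiableOn ℂ f U ∧ Set.InjOn f U ∧
      Filter.Tendsto f (Filter.cocompact ℂ) (Filter.cocompact ℂ) ∧
      IsCircleDomainFinitePart (f '' U) :=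
  s0138_sol (Gl_987.solEnds_of_atne hA) U hU

end Crest.Agent.R105.Jex_987
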