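import Crest.Agent.R105.Jex5_987
import Crest.Agent.R105.Atl3_948

/-!
# Row 105, S0138: the top, only `PTW` open (helper987)
-/

set_option autoImplicit false

namespace Crest.Agent.R105.Jex_987

open Crest.AnalysisR

/-- **S0138 from `PTW`** -/
theorem s0138_ptw (H : E13_499.PTW) (U : Set ℂ) (hU : IsExteriorDomain U) :
    ∃ f : ℂ → ℂ, DifferentiableOn ℂ f U ∧ Set.InjOn f U ∧
      Filter.Tendsto f (Filter.cocompact ℂ) (Filter.cocompact ℂ) ∧
      IsCircleDomainFinitePart (f '' U) :=
  s0138_atne (Atl_948.atne H) U hU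

end Crest.Agent.R105.Jex_987
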