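import Crest.Agent.R105.Lin5_642
import Crest.Agent.R105.Fml1_61
import Crest.Agent.R105.Bp1_338

/-!
# R105 (S0138, NI frame), E13, BAL: (B1) the limit in one picture, in the z-plane (helper642)
-/

set_option autoImplicit false

open Set Filter MeasureTheory Metric
open scoped Topology NNReal ENNReal

namespace Crest.Agent.R105.Lin_642

open Tc_808 Bd_775 Sqr_185
open E13_499 (EndsOf pu cF)
open Fml_61 (ChnE)

noncomputable section

variable {Y : Set ℂ} {x0 A W : ℂ → ℝ} {b : ℕ → ℂ → ℝ} {P : ℂ → ℂ}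

theorem lim1 (h : SkA_8.Pk Y x0 b A P) (K : Cmp Yᶜᶜ) (hW : Bp_338.Wt h W) {G : ℝ → ℝ} {C : ℝ}
    (hG : Measurable G) (hC : ∀ t, |G t| ≤ C) {χ : ℕ → ℂ → ℝ} (hχ : ChnE Yᶜᶜ K.1 χ)
    {WT WB : ℝ → ℝ} (he : EndsOf (P '' Yᶜ)ᶜ (cF h K) (pu h W) WT WB) :
    Tendsto (fun n => ∫ z in Yᶜ, G (x0 z + A z) * W z * wdg (fun z => x0 z + A z) (χ n) z) atTop
      (𝓝 (∫ t in Icc (lo (cF h K).1) (hi (cF h K).1), G t * (WB t - WT t))) := by
  have hu := Yv_319.uni_of_pk h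
  have hPT := (Uw6_913.picT h).2
  obtain ⟨χ', hχ', he'⟩ := Fml_61.chn_push (Uw6_913.endMap h) hu K hχ
  have hw : ContinuousOn (pu h W) ((P '' Yᶜ)ᶜ)ᶜ := by
    rw [compl_compl]
    exact (Ta_937.loc_push (Uw6_913.endMap h) hu hW.ll).continuousOn
  have h1 := line_chn (w := pu h W) hPT (cF h K) hw (fun R => (hW.bd R).imp fun M hM z hz hR =>
    hM z hz hR) hW.bv hG hC hχ' he
  refine h1.congr fun n => ?_
  have e1 := Fml_61.to_pic hu G (u := fun z => x0 z + A z) W (fun z hz => (h.re z hz).symm)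
    (χ := χ n) ((hχ.lce n).smooth.of_le (by simp) : ContDiff ℝ 1 (χ n)).locallyLipschitz.locallyLipschitzOn
  rw [e1, compl_compl]
  refine setIntegral_congr_fun hu.isOpen_image.measurableSet fun z hz => ?_
  have hi : ∀ z ∈ P '' Yᶜ, (Uw6_913.endMap h).inv z = Tra_937.inv Yᶜ P z := by
    rintro _ ⟨z, hz, rfl⟩
    rw [(Uw6_913.endMap h).inv_left hz, hu.inv_apply hz]
  have e2 : gy (χ n ∘ Tra_937.inv Yᶜ P) z = gy (χ' n) z := by
    refine gy_eq_of_eventuallyEq ?_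
    filter_upwards [hu.isOpen_image.mem_nhds hz] with v hv
    obtain ⟨x, hx, rfl⟩ := hv
    rw [Function.comp_apply, hu.inv_apply hx, he' n x hx]
  simp only [pu, Ta_937.push, Function.comp_apply]
  rw [hi z hz, e2]

end

end Crest.Agent.R105.Lin_642
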