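import Crest.Agent.R105.Exs0_992

/-!
# Row 105 (S0138, solids): `LIMQ`, second proof by finite operations. Part 1: the analytic limit.

Port of 363's `SkLim2` to an arbitrary family `𝓗` of hairs contained in `E`; the limit is defined
by eventual constancy only (no uniform convergence is used).
-/

namespace Crest.Agent.R105.Lmq_305

open Set Filter MeasureTheory Topology
open CF_363 Stp_722 Exs_992
open Skp2_257 (Comps Reg)
open scoped ENNReal NNReal

variable {E : Set (ℝ × ℝ)} {𝓗 : Set Hair}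

theorem exists_seq_of {α : Type*} (Inv : ℕ → α → Prop) (R : ℕ → α → α → Prop) (x0 : α)
    (h0 : Inv 0 x0) (hs : ∀ n x, Inv n x → ∃ y, Inv (n + 1) y ∧ R n x y) :
    ∃ u : ℕ → α, u 0 = x0 ∧ ∀ n, Inv n (u n) ∧ R n (u n) (u (n + 1)) := by
  classical
  let v : ∀ n, {x // Inv n x} := fun n => Nat.rec (motive := fun n => {x // Inv n x})
    ⟨x0, h0⟩ (fun n x => ⟨(hs n x.1 x.2).choose, (hs n x.1 x.2).choose_spec.1⟩) n
  refine ⟨fun n => (v n).1, rfl, fun n => ⟨(v n).2, ?_⟩⟩
  exact (hs n (v n).1 (v n).2).choose_spec.2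

theorem cut_sub (h𝓗 : ∀ K ∈ 𝓗, K.car ⊆ E) {J : Finset Hair} (h : ∀ K ∈ J, K ∈ 𝓗) : cut J ⊆ E := by
  rintro p ⟨K, hK, hp⟩
  exact h𝓗 K (h K hK) hp

/-- near every point off `E`, a `CFJ` function is Lipschitz. -/
theorem cfj_lip (hE : IsCompact E) (h𝓗 : ∀ K ∈ 𝓗, K.car ⊆ E) {f : ℝ × ℝ → ℝ}
    (hf : CFJ 𝓗 univ f) : ∃ L : ℝ≥0, ∀ p ∉ E, ∃ r > 0, LipschitzOnWith L f (Metric.ball p r) := by
  obtain ⟨J, hJ, L, C, hL, h1, -⟩ := hf
  refine ⟨L.toNNReal, fun p hp => ?_⟩
  obtain ⟨r, hr, hrE⟩ := Metric.isOpen_iff.mp hE.isClosed.isOpen_compl p hp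
  refine ⟨r, hr, h1.lipschitzOnWith (convex_ball p r) fun q hq => ⟨mem_univ q, fun hc => ?_⟩⟩
  exact hrE hq (cut_sub h𝓗 hJ hc)

theorem cfj_ae_diff {f : ℝ × ℝ → ℝ}
    (hf : CFJ 𝓗 univ f) : ∀ᵐ p : ℝ × ℝ, DifferentiableAt ℝ f p := by
  obtain ⟨J, hJ, L, C, hL, h1, -⟩ := hf
  have h2 := h1.ae_differentiableAt (μ := volume) (isOpen_diff_cut isOpen_univ J)
  have h3 : ∀ᵐ p : ℝ × ℝ, p ∉ cut J := measure_eq_zero_iff_ae_notMem.mp (volume_cut J)
  filter_upwards [h2, h3] with p hp hp' using hp ⟨mem_univ p, hp'⟩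

theorem g2_eq_zero_of_notMem {f : ℝ × ℝ → ℝ} {p : ℝ × ℝ} {S : Set (ℝ × ℝ)} (hS : IsClosed S)
    (h0 : ∀ q ∉ S, f q = 0) (hp : p ∉ S) : gx f p = 0 ∧ gy f p = 0 := by
  have : f =ᶠ[𝓝 p] fun _ => 0 := by
    filter_upwards [hS.isOpen_compl.mem_nhds hp] with q hq using h0 q hq
  rw [gx_congr this, gy_congr this]
  simp

theorem cfj_integrable {f : ℝ × ℝ → ℝ}
    (hf : CFJ 𝓗 univ f) {S : Set (ℝ × ℝ)} (hS : IsCompact S) (h0 : ∀ q ∉ S, f q = 0) :
    Integrable (g2 f) := by
  obtain ⟨J, hJ, L, C, hL, h1, -⟩ := hf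
  have h3 : ∀ᵐ p : ℝ × ℝ, p ∉ cut J := measure_eq_zero_iff_ae_notMem.mp (volume_cut J)
  have hon : IntegrableOn (g2 f) S := by
    refine Measure.integrableOn_of_bounded (M := 2 * L ^ 2) hS.measure_lt_top.ne
      (measurable_g2 f).aestronglyMeasurable ?_
    filter_upwards [ae_restrict_of_ae h3] with p hp
    rw [Real.norm_of_nonneg (g2_nonneg f p)]
    exact h1.g2_le (isOpen_diff_cut isOpen_univ J) hL ⟨mem_univ p, hp⟩
  refine hon.integrable_of_forall_notMem_eq_zero fun p hp => ?_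
  obtain ⟨a, b⟩ := g2_eq_zero_of_notMem hS.isClosed h0 hp
  simp [g2, a, b]

theorem g2_neg (f : ℝ × ℝ → ℝ) (p : ℝ × ℝ) : g2 (fun q => - f q) p = g2 f p := by
  simp [g2, gx_neg, gy_neg]

theorem g2_congr {f g : ℝ × ℝ → ℝ} {p : ℝ × ℝ} (h : f =ᶠ[𝓝 p] g) : g2 f p = g2 g p := by
  simp [g2, gx_congr h, gy_congr h]

theorem g2_add_le {f g : ℝ × ℝ → ℝ} {p : ℝ × ℝ} (hf : DifferentiableAt ℝ f p)
    (hg : DifferentiableAt ℝ g p) : g2 (fun q => f q + g q) p ≤ 2 * g2 f p + 2 * g2 g p := by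
  simp only [g2, gx_add hf hg, gy_add hf hg]
  nlinarith [sq_nonneg (gx f p - gx g p), sq_nonneg (gy f p - gy g p)]

/-- telescoping -/
theorem g2_tel {φ : ℕ → ℝ × ℝ → ℝ} {p : ℝ × ℝ} (hd : ∀ n, DifferentiableAt ℝ (φ n) p) (j : ℕ) :
    ∀ n, g2 (fun q => φ n q - φ (n + j) q) p ≤
      ∑ i ∈ Finset.range j, 2 ^ (i + 1) * g2 (fun q => φ (n + i + 1) q - φ (n + i) q) p := by
  induction j with
  | zero => intro n; simp [g2, gx_const, gy_const]
  | succ j ih =>
    intro n
    have h1 : (fun q => φ n q - φ (n + (j + 1)) q) =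
        fun q => (-(φ (n + 1) q - φ n q)) + (φ (n + 1) q - φ (n + 1 + j) q) := by
      funext q
      have : n + (j + 1) = n + 1 + j := by ring
      rw [this]; ring
    rw [h1]
    have a1 : DifferentiableAt ℝ (fun q => -(φ (n + 1) q - φ n q)) p :=
      ((hd (n + 1)).sub (hd n)).neg
    have a2 : DifferentiableAt ℝ (fun q => φ (n + 1) q - φ (n + 1 + j) q) p :=
      (hd (n + 1)).sub (hd (n + 1 + j))
    refine (g2_add_le a1 a2).trans ?_
    rw [Finset.sum_range_succ']
    have h2 := ih (n + 1)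
    have h3 : ∑ i ∈ Finset.range j,
        2 ^ (i + 1 + 1) * g2 (fun q => φ (n + (i + 1) + 1) q - φ (n + (i + 1)) q) p =
        2 * ∑ i ∈ Finset.range j,
          2 ^ (i + 1) * g2 (fun q => φ (n + 1 + i + 1) q - φ (n + 1 + i) q) p := by
      rw [Finset.mul_sum]
      refine Finset.sum_congr rfl fun i _ => ?_
      have : n + (i + 1) = n + 1 + i := by ring
      rw [this]; ring
    rw [h3, g2_neg (fun q => φ (n + 1) q - φ n q) p]
    simp only [Nat.add_zero, zero_add, pow_one]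
    linarith

/-- **the analytic limit** -/
theorem lim_core (hE : IsCompact E) (h𝓗 : ∀ K ∈ 𝓗, K.car ⊆ E)
    {φ : ℕ → ℝ × ℝ → ℝ} {S : Set (ℝ × ℝ)} (hScpt : IsCompact S) {C δ : ℝ} (hδ : 0 < δ)
    (hC0' : 0 ≤ C)
    (hcf : ∀ n, CFJ 𝓗 univ (φ n)) (hz : ∀ n, ∀ q ∉ S, φ n q = 0) (hb : ∀ n p, |φ n p| ≤ C)
    (hoff : ∀ n : ℕ, ∀ p ∉ Metric.thickening (1 / ((n : ℝ) + 1)) E, φ (n + 1) p = φ n p)
    (hen : ∀ n, (∫ p in Eᶜ, g2 (fun q => φ (n + 1) q - φ n q) p) ≤ δ / 4 ^ n) :
    ∃ ψ : ℝ × ℝ → ℝ, LimOf E 𝓗 φ ψ ∧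
      (∀ n, (∫ p in Eᶜ, g2 (fun q => φ n q - ψ q) p) ≤ 4 * δ / 4 ^ n) ∧
      (∀ t > 0, |(∫ p in Eᶜ, gx ψ p) - ∫ p in Eᶜ, gx (φ 0) p| ≤
        t * (4 * δ) + (1 / (2 * t)) * volume.real S) ∧
      ∀ p ∉ E, ∃ N, ∀ n ≥ N, φ n p = ψ p := by
  classical
  set W : ℕ → Set (ℝ × ℝ) := fun n => Metric.thickening (1 / ((n : ℝ) + 1)) E with hW
  set e : ℕ → ℝ := fun n => δ / 4 ^ n with he
  have hepos : ∀ n, 0 < e n := fun n => by simp only [he]; positivity
  -- eventual constancy
  have hev0 : ∀ A, IsCompact A → A ⊆ Eᶜ → ∃ N, ∀ j, ∀ p ∈ A, φ (N + j) p = φ N p := by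
    intro A hA hAE
    have hdis : Disjoint A E := disjoint_left.mpr fun p hp => hAE hp
    obtain ⟨r, hr, hr'⟩ := hdis.symm.exists_thickenings hE hA.isClosed
    obtain ⟨N, hN⟩ := exists_nat_one_div_lt hr
    have hAW : ∀ n ≥ N, ∀ p ∈ A, p ∉ W n := by
      intro n hn p hp hpW
      have h1 : (1 : ℝ) / (n + 1) ≤ 1 / (N + 1) := by
        apply one_div_le_one_div_of_le (by positivity)
        have : (N : ℝ) ≤ n := by exact_mod_cast hn
        linarith
      have h2 : p ∈ Metric.thickening r E := Metric.thickening_mono (h1.trans hN.le) E hpW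
      exact disjoint_left.mp hr' h2 (Metric.self_subset_thickening hr A hp)
    refine ⟨N, fun j p hp => ?_⟩
    induction j with
    | zero => rfl
    | succ j ih => rw [← ih]; exact hoff (N + j) p (hAW (N + j) (by omega) p hp)
  have hpt : ∀ p, ∃ N, p ∉ E → ∀ j, φ (N + j) p = φ N p := by
    intro p
    by_cases hp : p ∈ E
    · exact ⟨0, fun h => absurd hp h⟩
    · obtain ⟨N, hN⟩ := hev0 {p} isCompact_singleton (singleton_subset_iff.2 hp)
      exact ⟨N, fun _ j => hN j p rfl⟩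
  choose Np hNp using hpt
  set ψ : ℝ × ℝ → ℝ := fun p => if p ∈ E then 0 else φ (Np p) p with hψd
  have hψE : ∀ p ∉ E, ψ p = φ (Np p) p := fun p hp => by simp only [hψd, if_neg hp]
  have hψb : ∀ p, |ψ p| ≤ C := by
    intro p
    by_cases hp : p ∈ E
    · simp only [hψd, if_pos hp, abs_zero]; exact hC0'
    · rw [hψE p hp]; exact hb _ _
  have hev1 : ∀ p ∉ E, ∀ n ≥ Np p, φ n p = ψ p := by
    intro p hp n hn
    obtain ⟨j, rfl⟩ := Nat.exists_eq_add_of_le hn
    rw [hNp p hp j, hψE p hp]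
  have hψ0 : ∀ q ∉ S, ψ q = 0 := by
    intro q hq
    by_cases hp : q ∈ E
    · simp only [hψd, if_pos hp]
    · rw [hψE q hp]; exact hz _ _ hq
  have hev : ∀ A, IsCompact A → A ⊆ Eᶜ → ∃ N, ∀ n ≥ N, ∀ p ∈ A, φ n p = ψ p := by
    intro A hA hAE
    obtain ⟨N, hN⟩ := hev0 A hA hAE
    refine ⟨N, fun n hn p hp => ?_⟩
    obtain ⟨j, rfl⟩ := Nat.exists_eq_add_of_le hn
    have h1 := hN j p hp
    have h2 := hN (Np p) p hp
    have h3 := hev1 p (hAE hp) (N + Np p) (by omega)
    rw [h1, ← h2, h3]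
  have hloc : ∀ p ∉ E, ∃ N, ∀ n ≥ N, φ n =ᶠ[𝓝 p] ψ := by
    intro p hp
    obtain ⟨r, hr, hrE⟩ := Metric.isOpen_iff.mp hE.isClosed.isOpen_compl p hp
    obtain ⟨N, hN⟩ := hev (Metric.closedBall p (r / 2)) (isCompact_closedBall _ _)
      ((Metric.closedBall_subset_ball (by linarith)).trans hrE)
    refine ⟨N, fun n hn => ?_⟩
    filter_upwards [Metric.closedBall_mem_nhds p (by positivity : 0 < r / 2)] with q hq
    exact hN n hn q hq
  -- differentiability
  have hdiff : ∀ᵐ p : ℝ × ℝ, ∀ n, DifferentiableAt ℝ (φ n) p :=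
    ae_all_iff.mpr fun n => cfj_ae_diff (hcf n)
  have hEm : MeasurableSet Eᶜ := hE.isClosed.isOpen_compl.measurableSet
  have hpos2 : ∀ n p, 0 ≤ g2 (fun q => φ (n + 1) q - φ n q) p := fun n p => g2_nonneg _ _
  have hint1 : ∀ n, Integrable (g2 fun q => φ (n + 1) q - φ n q) := fun n =>
    cfj_integrable ((hcf (n + 1)).sub (hcf n)) hScpt fun q hq => by
      rw [hz (n + 1) q hq, hz n q hq, sub_zero]
  have hlin : ∀ n, ∫⁻ p in Eᶜ, ENNReal.ofReal (g2 (fun q => φ (n + 1) q - φ n q) p) ≤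
      ENNReal.ofReal (e n) := by
    intro n
    rw [← ofReal_integral_eq_lintegral_ofReal (hint1 n).integrableOn
      (Eventually.of_forall fun p => hpos2 n p)]
    exact ENNReal.ofReal_le_ofReal (hen n)
  have hdistE : ∀ n, ∫⁻ p in Eᶜ, ENNReal.ofReal (g2 (fun q => φ n q - ψ q) p) ≤
      ENNReal.ofReal (4 * δ / 4 ^ n) := by
    intro n
    calc ∫⁻ p in Eᶜ, ENNReal.ofReal (g2 (fun q => φ n q - ψ q) p)
        ≤ ∫⁻ p in Eᶜ, ∑' i : ℕ, ENNReal.ofReal
            (2 ^ (i + 1) * g2 (fun q => φ (n + i + 1) q - φ (n + i) q) p) := by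
          refine lintegral_mono_ae ?_
          filter_upwards [ae_restrict_of_ae hdiff, ae_restrict_mem hEm] with p hp hpE
          obtain ⟨N, hN⟩ := hloc p hpE
          have h1 : (fun q => φ n q - ψ q) =ᶠ[𝓝 p] fun q => φ n q - φ (n + N) q := by
            filter_upwards [hN (n + N) (by omega)] with q hq
            rw [hq]
          rw [g2_congr h1]
          refine (ENNReal.ofReal_le_ofReal (g2_tel hp N n)).trans ?_
          rw [ENNReal.ofReal_sum_of_nonneg fun i _ => mul_nonneg (by positivity) (g2_nonneg _ _)]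
          exact ENNReal.sum_le_tsum _
      _ = ∑' i : ℕ, ∫⁻ p in Eᶜ, ENNReal.ofReal
            (2 ^ (i + 1) * g2 (fun q => φ (n + i + 1) q - φ (n + i) q) p) := by
          refine lintegral_tsum fun i => ?_
          exact ((measurable_g2 _).const_mul _).ennreal_ofReal.aemeasurable
      _ ≤ ∑' i : ℕ, ENNReal.ofReal (2 * δ / 4 ^ n * (1 / 2) ^ i) := by
          refine ENNReal.tsum_le_tsum fun i => ?_
          have h1 : ∀ p, ENNReal.ofReal
              (2 ^ (i + 1) * g2 (fun q => φ (n + i + 1) q - φ (n + i) q) p) =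
              ENNReal.ofReal (2 ^ (i + 1)) *
                ENNReal.ofReal (g2 (fun q => φ (n + i + 1) q - φ (n + i) q) p) := fun p =>
            ENNReal.ofReal_mul (by positivity)
          simp_rw [h1]
          rw [lintegral_const_mul _ (measurable_g2 _).ennreal_ofReal]
          refine (mul_le_mul_right (hlin (n + i)) _).trans ?_
          rw [← ENNReal.ofReal_mul (by positivity)]
          refine ENNReal.ofReal_le_ofReal (le_of_eq ?_)
          simp only [he]
          have h4 : (4 : ℝ) ^ (n + i) = 4 ^ n * (2 ^ i * 2 ^ i) := by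
            rw [pow_add, ← mul_pow]; norm_num
          rw [h4, pow_succ, one_div, inv_pow]
          field_simp
      _ = ENNReal.ofReal (4 * δ / 4 ^ n) := by
          rw [← ENNReal.ofReal_tsum_of_nonneg (fun i => by positivity)
            (summable_geometric_two.mul_left _), tsum_mul_left, tsum_geometric_two]
          congr 1; ring
  -- integrability of the limit
  have hintd : ∀ n, IntegrableOn (g2 fun q => φ n q - ψ q) Eᶜ := by
    intro n
    refine ⟨(measurable_g2 _).aestronglyMeasurable, ?_⟩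
    rw [hasFiniteIntegral_iff_ofReal (Eventually.of_forall fun p => g2_nonneg _ _)]
    exact (hdistE n).trans_lt ENNReal.ofReal_lt_top
  have hdistR : ∀ n, ∫ p in Eᶜ, g2 (fun q => φ n q - ψ q) p ≤ 4 * δ / 4 ^ n := by
    intro n
    have h1 := hdistE n
    rw [← ofReal_integral_eq_lintegral_ofReal (hintd n)
      (Eventually.of_forall fun p => g2_nonneg _ _)] at h1
    rwa [ENNReal.ofReal_le_ofReal_iff (by positivity)] at h1
  have hdψ : ∀ᵐ p : ℝ × ℝ, p ∉ E → DifferentiableAt ℝ ψ p := by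
    filter_upwards [hdiff] with p hp hpE
    obtain ⟨N, hN⟩ := hloc p hpE
    exact (hp N).congr_of_eventuallyEq (hN N le_rfl).symm
  have hintψ : IntegrableOn (g2 ψ) Eᶜ := by
    refine Integrable.mono' (((cfj_integrable (hcf 0) hScpt (hz 0)).integrableOn.const_mul 2).add
      ((hintd 0).const_mul 2)) (measurable_g2 ψ).aestronglyMeasurable ?_
    filter_upwards [ae_restrict_of_ae hdiff, ae_restrict_of_ae hdψ, ae_restrict_mem hEm]
      with p hp hp' hpE
    rw [Real.norm_of_nonneg (g2_nonneg _ _)]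
    have h1 : ψ = fun q => φ 0 q + (-(φ 0 q - ψ q)) := by funext q; ring
    have h2 : DifferentiableAt ℝ (fun q => -(φ 0 q - ψ q)) p := ((hp 0).sub (hp' hpE)).neg
    calc g2 ψ p = g2 (fun q => φ 0 q + (-(φ 0 q - ψ q))) p := by rw [← h1]
      _ ≤ 2 * g2 (φ 0) p + 2 * g2 (fun q => -(φ 0 q - ψ q)) p := g2_add_le (hp 0) h2
      _ = _ := by rw [g2_neg (fun q => φ 0 q - ψ q) p]; rfl
  have hReg : Reg E ψ := by
    refine ⟨?_, HasCompactSupport.intro hScpt hψ0, ⟨C, hψb⟩, hintψ⟩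
    intro p hp
    obtain ⟨N, hN⟩ := hloc p hp
    obtain ⟨L, hL⟩ := cfj_lip hE h𝓗 (hcf N)
    obtain ⟨r, hr, hl⟩ := hL p hp
    obtain ⟨s, hs, hs'⟩ := Metric.eventually_nhds_iff_ball.mp (hN N le_rfl)
    refine ⟨L, Metric.ball p (min r s) ∩ Eᶜ, ?_, ?_⟩
    · exact inter_mem (mem_nhdsWithin_of_mem_nhds (Metric.ball_mem_nhds p (lt_min hr hs)))
        self_mem_nhdsWithin
    · intro x hx y hy
      rw [← hs' x (Metric.ball_subset_ball (min_le_right _ _) hx.1),
        ← hs' y (Metric.ball_subset_ball (min_le_right _ _) hy.1)]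
      exact hl (Metric.ball_subset_ball (min_le_left _ _) hx.1)
        (Metric.ball_subset_ball (min_le_left _ _) hy.1)
  refine ⟨ψ, ⟨hcf, ⟨C, hb⟩, ⟨S, hScpt, hz⟩, ?_, ?_, hReg⟩, hdistR, ?_, fun p hp =>
    ⟨Np p, hev1 p hp⟩⟩
  · intro A hA hAE
    obtain ⟨N, hN⟩ := hev A hA hAE
    filter_upwards [eventually_ge_atTop N] with n hn using hN n hn
  · refine squeeze_zero (fun n => integral_nonneg fun p => g2_nonneg _ _) hdistR ?_
    have := (tendsto_pow_atTop_nhds_zero_of_lt_one (r := (1 / 4 : ℝ)) (by norm_num)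
      (by norm_num)).const_mul (4 * δ)
    rw [mul_zero] at this
    refine this.congr fun n => ?_
    rw [one_div, inv_pow]; rfl
  · -- the linear functional
    intro t htpos
    have hd0 := hdistR 0
    rw [pow_zero, div_one] at hd0
    have hi0 := hintd 0
    have hΦz : ∀ q ∉ S, φ 0 q = 0 := hz 0
    -- integrability of gx
    have hgx : ∀ f : ℝ × ℝ → ℝ, (∀ q ∉ S, f q = 0) → IntegrableOn (g2 f) Eᶜ →
        IntegrableOn (gx f) Eᶜ := by
      intro f hf0 hfi
      have hind : Integrable (S.indicator (fun _ => (1 : ℝ))) (volume.restrict Eᶜ) :=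
        (integrable_indicator_iff hScpt.measurableSet).mpr
          ((integrableOn_const_iff).mpr (Or.inr (by
            exact (Measure.restrict_apply_le _ _).trans_lt hScpt.measure_lt_top)))
      refine Integrable.mono' (hind.add hfi) (measurable_gx f).aestronglyMeasurable
        (Eventually.of_forall fun p => ?_)
      rw [Real.norm_eq_abs]
      by_cases hp : p ∈ S
      · simp only [Pi.add_apply, indicator_of_mem hp, g2]
        nlinarith [sq_nonneg (|gx f p| - 1), sq_abs (gx f p), sq_nonneg (gy f p),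
          abs_nonneg (gx f p)]
      · obtain ⟨h1, h2⟩ := g2_eq_zero_of_notMem hScpt.isClosed hf0 hp
        simp [h1, g2, h2, indicator_of_notMem hp]
    have hiΦ : IntegrableOn (g2 (φ 0)) Eᶜ := (cfj_integrable (hcf 0) hScpt (hz 0)).integrableOn
    have hdif0 : ∀ q ∉ S, (fun q => φ 0 q - ψ q) q = 0 := fun q hq => by
      simp [hΦz q hq, hψ0 q hq]
    have i1 := hgx ψ hψ0 hintψ
    have i2 := hgx (φ 0) hΦz hiΦ
    have i3 := hgx (fun q => φ 0 q - ψ q) hdif0 hi0
    have heq : (∫ p in Eᶜ, gx ψ p) - ∫ p in Eᶜ, gx (φ 0) p =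
        - ∫ p in Eᶜ, gx (fun q => φ 0 q - ψ q) p := by
      rw [← integral_sub i1 i2, ← integral_neg]
      apply integral_congr_ae
      filter_upwards [ae_restrict_of_ae hdiff, ae_restrict_of_ae hdψ, ae_restrict_mem hEm]
        with p hp hp' hpE
      rw [gx_sub (hp 0) (hp' hpE)]; ring
    rw [heq, abs_neg]
    have hind : Integrable (S.indicator (fun _ => (1 : ℝ))) (volume.restrict Eᶜ) :=
      (integrable_indicator_iff hScpt.measurableSet).mpr
        ((integrableOn_const_iff).mpr (Or.inr (by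
          exact (Measure.restrict_apply_le _ _).trans_lt hScpt.measure_lt_top)))
    calc |∫ p in Eᶜ, gx (fun q => φ 0 q - ψ q) p|
        ≤ ∫ p in Eᶜ, |gx (fun q => φ 0 q - ψ q) p| := abs_integral_le_integral_abs
      _ ≤ ∫ p in Eᶜ, (t * g2 (fun q => φ 0 q - ψ q) p +
            (1 / (2 * t)) * S.indicator (fun _ => 1) p) := by
          refine integral_mono_ae i3.abs ((hi0.const_mul t).add (hind.const_mul _))
            (Eventually.of_forall fun p => ?_)
          by_cases hp : p ∈ S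
          · simp only [indicator_of_mem hp, g2, mul_one]
            set x := |gx (fun q => φ 0 q - ψ q) p| with hx
            have hx2 : gx (fun q => φ 0 q - ψ q) p ^ 2 = x ^ 2 := by rw [hx, sq_abs]
            rw [hx2]
            have h1 : 0 ≤ t * gy (fun q => φ 0 q - ψ q) p ^ 2 := by positivity
            have h2 : x ≤ t * x ^ 2 + 1 / (2 * t) := by
              have h3 : 0 ≤ (2 * t * x - 1) ^ 2 := sq_nonneg _
              have h4 : 1 / (2 * t) = (1 / (4 * t)) * 2 := by field_simp; norm_num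
              have h5 : t * x ^ 2 + 1 / (4 * t) - x = (2 * t * x - 1) ^ 2 / (4 * t) := by
                field_simp; ring
              have h6 : 0 ≤ (2 * t * x - 1) ^ 2 / (4 * t) := by positivity
              have h7 : 0 < 1 / (4 * t) := by positivity
              linarith
            nlinarith
          · obtain ⟨h1, h2⟩ := g2_eq_zero_of_notMem hScpt.isClosed hdif0 hp
            simp [h1, g2, h2, indicator_of_notMem hp]
      _ = t * (∫ p in Eᶜ, g2 (fun q => φ 0 q - ψ q) p) +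
            (1 / (2 * t)) * ∫ p in Eᶜ, S.indicator (fun _ => 1) p := by
          rw [integral_add (hi0.const_mul t) (hind.const_mul _), integral_const_mul,
            integral_const_mul]
      _ ≤ t * (4 * δ) + (1 / (2 * t)) * volume.real S := by
          have h1 : ∫ p in Eᶜ, S.indicator (fun _ => (1 : ℝ)) p ≤ volume.real S := by
            rw [integral_indicator hScpt.measurableSet, setIntegral_const, smul_eq_mul, mul_one,
              measureReal_restrict_apply hScpt.measurableSet]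
            exact measureReal_mono inter_subset_left hScpt.measure_lt_top.ne
          gcongr

end Crest.Agent.R105.Lmq_305
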