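import Crest.Agent.R105.Jex1_987

/-!
# Row 105, S0138 (NI frame), node E13, LAST LINK OF ATN (helper632)

`TopEnd`, `BotEnd` : end of `F` along the vertical line `Re P = t` of the anchor picture, above /
below the section over `t` of the component `K'` of that picture.
`atni_of` : if for a.e. `t` the ends at every solid which the line crosses lie in the closed square
of the solid, then `ATNi U x0 (a i) F` (909's literal).
`atno_ext` : the same for `ATNo Ext` (987's literal).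
-/

set_option autoImplicit false

open MeasureTheory Set Filter Topology Metric
open scoped NNReal ENNReal

namespace Crest.Agent.R105.Lnk_632

open Crest.AnalysisR Tc_808 Ni_459 Ends_897
open IfB_641 (X0)
open Cq_463 (Sqr)
open Skp2_257 (Comps)
open Tra_937 (setR toC)
open Pct_185 (PicT)
open Sqr_185 (sec SqK wd)
open Ta_937 (sqs corE)
open SkA_8 (Pk)
open SkJ_987 (PE endMap)
open Nie_909 (ATNi)
open Yv_319 (ExtA)
open Jex_987 (Ext ATNo)

noncomputable section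

variable {U : Set ℂ} {F P : ℂ → ℂ} {x0 φ : ℂ → ℝ} {a b : ℕ → ℂ → ℝ}

/-- `e` is the limit of `F` along the line `Re P = t` at the upper end of the section of `K'` -/
def TopEnd (U : Set ℂ) (P F : ℂ → ℂ) (K' : Set ℂ) (t : ℝ) (e : ℂ) : Prop :=
  ∀ ε > 0, ∃ δ > 0, ∀ z ∈ U, (P z).re = t → (∀ y ∈ sec K' t, y < (P z).im) →
    (∃ y ∈ sec K' t, (P z).im < y + δ) → dist (F z) e < ε

/-- `e` is the limit of `F` along the line `Re P = t` at the lower end of the section of `K'` -/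
def BotEnd (U : Set ℂ) (P F : ℂ → ℂ) (K' : Set ℂ) (t : ℝ) (e : ℂ) : Prop :=
  ∀ ε > 0, ∃ δ > 0, ∀ z ∈ U, (P z).re = t → (∀ y ∈ sec K' t, (P z).im < y) →
    (∃ y ∈ sec K' t, y < (P z).im + δ) → dist (F z) e < ε

/-- the two ends at the solid `K` lie in the square `Q` -/
def EndsIn (U : Set ℂ) (P F : ℂ → ℂ) (K' : Set ℂ) (t : ℝ) (Q : Sqr) : Prop :=
  (∃ e : ℂ, (e.re, e.im) ∈ Q.car ∧ TopEnd U P F K' t e) ∧
    ∃ e : ℂ, (e.re, e.im) ∈ Q.car ∧ BotEnd U P F K' t e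

/-- neighbourhoods of a component which see only its ends on the line over `t` -/
theorem isOpen_nb (K' : Set ℂ) (t δ : ℝ) :
    IsOpen ({w : ℂ | w.re ≠ t} ∪ {w : ℂ | ∃ y ∈ sec K' t, |w.im - y| < δ}) := by
  refine (isOpen_ne_fun Complex.continuous_re continuous_const).union ?_
  have : {w : ℂ | ∃ y ∈ sec K' t, |w.im - y| < δ} =
      ⋃ y ∈ sec K' t, {w : ℂ | |w.im - y| < δ} := by
    ext w
    simp only [mem_ofPred_eq, mem_iUnion, exists_prop]
  rw [this]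
  exact isOpen_biUnion fun y _ =>
    isOpen_lt ((Complex.continuous_im.sub continuous_const).abs) continuous_const

theorem subset_nb {K' : Set ℂ} {t δ : ℝ} (hδ : 0 < δ) :
    K' ⊆ {w : ℂ | w.re ≠ t} ∪ {w : ℂ | ∃ y ∈ sec K' t, |w.im - y| < δ} := by
  intro w hw
  by_cases h : w.re = t
  · refine Or.inr ⟨w.im, ?_, by simpa using hδ⟩
    subst h
    exact hw
  · exact Or.inl h

/-- distance in the real plane -/
theorem infDist_lt {Q : Sqr} {w e : ℂ} {δ : ℝ} (he : (e.re, e.im) ∈ Q.car) (h : dist w e < δ) :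
    infDist (w.re, w.im) Q.car < δ := by
  refine (infDist_le_dist_of_mem he).trans_lt (lt_of_le_of_lt ?_ h)
  rw [Prod.dist_eq, Complex.dist_eq]
  refine max_le ?_ ?_
  · rw [Real.dist_eq, ← Complex.sub_re]
    exact Complex.abs_re_le_norm _
  · rw [Real.dist_eq, ← Complex.sub_im]
    exact Complex.abs_im_le_norm _

/-- **ends in the square ⟹ the level meets the solid at its square only**, one level -/
theorem near_sq (hE : EndMap U (F '' U) F) (hG : EndMap U (P '' U) P)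
    (hord : ∀ L : Cmp (P '' U)ᶜ, ∀ t, OrdConnected (sec L.1 t)) {t : ℝ} {Q : Sqr} (K : Cmp Uᶜ)
    (hK : EndsIn U P F (corE hG K).1 t Q) {δ : ℝ} (hδ : 0 < δ) :
    ∃ O, IsOpen O ∧ (corE hE K).1 ⊆ O ∧ ∀ z ∈ U, F z ∈ O → (P z).re = t →
      infDist ((F z).re, (F z).im) Q.car < δ := by
  obtain ⟨⟨e1, he1, h1⟩, e2, he2, h2⟩ := hK
  obtain ⟨δ1, hδ1, h1⟩ := h1 δ hδ
  obtain ⟨δ2, hδ2, h2⟩ := h2 δ hδ
  obtain ⟨O1, hO1, hKO1, h3⟩ := Ta_937.exists_nhd_pull hG K
    (isOpen_nb (corE hG K).1 t (min δ1 δ2)) (subset_nb (lt_min hδ1 hδ2))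
  obtain ⟨O, hO, hLO, h4⟩ := Ta_937.exists_nhd_push hE K hO1 hKO1
  refine ⟨O, hO, hLO, fun z hz hzO hzt => ?_⟩
  rcases h3 z (h4 z hz hzO) hz with h5 | ⟨y, hy, h5⟩
  · exact absurd hzt h5
  · have hne : (P z).im ∉ sec (corE hG K).1 t := by
      intro hc
      have h6 : P z ∈ (corE hG K).1 := by
        have : (⟨t, (P z).im⟩ : ℂ) = P z := by rw [← hzt]
        rw [← this]
        exact hc
      exact Ta_937.not_mem_V hG K h6 (mem_image_of_mem P hz)
    have hoc := hord (corE hG K) t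
    have h6 := abs_lt.1 h5
    rcases lt_or_gt_of_ne (fun h : y = (P z).im => hne (h ▸ hy)) with h7 | h7
    · -- above
      have h8 : ∀ y' ∈ sec (corE hG K).1 t, y' < (P z).im := by
        intro y' hy'
        by_contra hc
        exact hne (hoc.out hy hy' ⟨h7.le, not_lt.1 hc⟩)
      exact infDist_lt he1 (h1 z hz hzt h8 ⟨y, hy, by linarith [min_le_left δ1 δ2]⟩)
    · have h8 : ∀ y' ∈ sec (corE hG K).1 t, (P z).im < y' := by
        intro y' hy'
        by_contra hc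
        exact hne (hoc.out hy' hy ⟨not_lt.1 hc, h7.le⟩)
      exact infDist_lt he2 (h2 z hz hzt h8 ⟨y, hy, by linarith [min_le_right δ1 δ2]⟩)

/-- a line which misses the component stays away from it -/
theorem away (hE : EndMap U (F '' U) F) (hG : EndMap U (P '' U) P) {t : ℝ} (K : Cmp Uᶜ)
    (hc : IsCompact (P '' U)ᶜ)
    (ht : t ∉ Icc (Sqr_185.lo (corE hG K).1) (Sqr_185.hi (corE hG K).1)) :
    ∃ O, IsOpen O ∧ (corE hE K).1 ⊆ O ∧ ∀ z ∈ U, F z ∈ O → (P z).re ≠ t := by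
  have hKc := (corE hG K).isCompact hc
  obtain ⟨O1, hO1, hKO1, h3⟩ := Ta_937.exists_nhd_pull hG K
    (isOpen_ne_fun Complex.continuous_re (continuous_const (y := t))) (fun w hw => by
      simp only [mem_ofPred_eq]
      intro h
      subst h
      exact ht ⟨Sqr_185.lo_le hKc hw, Sqr_185.le_hi hKc hw⟩)
  obtain ⟨O, hO, hLO, h4⟩ := Ta_937.exists_nhd_push hE K hO1 hKO1
  exact ⟨O, hO, hLO, fun z hz hzO => h3 z (h4 z hz hzO) hz⟩

/-- **ends in the squares ⟹ `ATNi`** -/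
theorem atni_of (hU : IsExteriorDomain U) (h : Pk Uᶜ x0 a φ F) (hi : InjOn F U)
    (hP : PicT (F '' U)ᶜ) {i : ℕ} (hb : Pk Uᶜ x0 b (a i) P) (hbi : InjOn P U)
    (hbP : PicT (P '' U)ᶜ)
    (H : ∀ᵐ t : ℝ, ∀ K : Cmp Uᶜ, 0 < wd (corE (endMap h hU hi) K).1 →
      Sqr_185.lo (corE (endMap hb hU hbi) K).1 < t →
      t < Sqr_185.hi (corE (endMap hb hU hbi) K).1 → ∀ Q : Sqr,
      SqK (corE (endMap h hU hi) K).1 Q.x Q.y Q.s →
      EndsIn U P F (corE (endMap hb hU hbi) K).1 t Q) :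
    ATNi U x0 (a i) F := by
  have hE := endMap h hU hi
  have hG := endMap hb hU hbi
  have hbre : ∀ z ∈ U, (P z).re = x0 z + a i z := fun z hz => hb.re z (not_not.2 hz)
  -- generic levels
  have hcnt : {K : Cmp Uᶜ | 0 < wd (corE hE K).1}.Countable := by
    have h1 : {L : Cmp (F '' U)ᶜ | 0 < wd L.1}.Countable := by
      have := hP.sum.countable_support
      refine this.mono fun L hL => ?_
      have hL' : 0 < wd L.1 := hL
      simp only [Function.mem_support]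
      positivity
    exact h1.preimage (corE hE).injective
  have hgen : ∀ᵐ t : ℝ, ∀ K : Cmp Uᶜ, 0 < wd (corE hE K).1 →
      t ≠ Sqr_185.lo (corE hG K).1 ∧ t ≠ Sqr_185.hi (corE hG K).1 := by
    have h1 := (hcnt.image fun K => Sqr_185.lo (corE hG K).1).ae_notMem (volume : Measure ℝ)
    have h2 := (hcnt.image fun K => Sqr_185.hi (corE hG K).1).ae_notMem (volume : Measure ℝ)
    filter_upwards [h1, h2] with t h1 h2 K hK
    exact ⟨fun hc => h1 ⟨K, hK, hc.symm⟩, fun hc => h2 ⟨K, hK, hc.symm⟩⟩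
  filter_upwards [H, hgen] with t H hgen Q hQ Pc hPc hQP δ hδ
  obtain ⟨L, rfl⟩ := Ta_937.mem_comps.1 hPc
  obtain ⟨L', hL'⟩ := hQ
  have hLL : L = L' := Ta_937.eq_cmp hQP hL'
  subst hLL
  obtain ⟨K, rfl⟩ := (corE hE).surjective L
  have hw : 0 < wd (corE hE K).1 := by
    rw [Ta_937.sqK_wd hP.cpt hL']
    exact Q.hs
  have key : ∃ O, IsOpen O ∧ (corE hE K).1 ⊆ O ∧ ∀ z ∈ U, F z ∈ O → (P z).re = t →
      infDist ((F z).re, (F z).im) Q.car < δ := by
    by_cases ht : t ∈ Icc (Sqr_185.lo (corE hG K).1) (Sqr_185.hi (corE hG K).1)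
    · have h1 := hgen K hw
      exact near_sq hE hG hbP.ord K (H K hw (lt_of_le_of_ne ht.1 h1.1.symm)
        (lt_of_le_of_ne ht.2 h1.2) Q hL') hδ
    · obtain ⟨O, hO, hKO, h1⟩ := away hE hG K hbP.cpt ht
      exact ⟨O, hO, hKO, fun z hz hzO hzt => absurd hzt (h1 z hz hzO)⟩
  obtain ⟨O, hO, hKO, h1⟩ := key
  refine ⟨setR O, hO.preimage Sqr_185.continuous_mk, fun p hp => hKO hp, fun z hz hzO hzt => ?_⟩
  exact h1 z hz hzO ((hbre z hz).trans hzt)

/-- the input of `atno_ext` -/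
def ENDS : Prop := ∀ (U : Set ℂ) (x0 : ℂ → ℝ) (a : ℕ → ℂ → ℝ) (φ : ℂ → ℝ) (F : ℂ → ℂ)
  (hU : IsExteriorDomain U) (h : Pk Uᶜ x0 a φ F) (hi : InjOn F U) (_ : PicT (F '' U)ᶜ) (i : ℕ)
  (b : ℕ → ℂ → ℝ) (P : ℂ → ℂ) (hb : Pk Uᶜ x0 b (a i) P) (hbi : InjOn P U)
  (_ : PicT (P '' U)ᶜ), ∀ᵐ t : ℝ, ∀ K : Cmp Uᶜ, 0 < wd (corE (endMap h hU hi) K).1 →
      Sqr_185.lo (corE (endMap hb hU hbi) K).1 < t →
      t < Sqr_185.hi (corE (endMap hb hU hbi) K).1 → ∀ Q : Sqr,
      SqK (corE (endMap h hU hi) K).1 Q.x Q.y Q.s →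
      EndsIn U P F (corE (endMap hb hU hbi) K).1 t Q

/-- **`ATNo Ext` from the ends on the lines of the anchor picture** -/
theorem atno_ext (H : ENDS) : ATNo Ext := by
  intro U x0 a φ F h hO hi hP i
  have hU : IsExteriorDomain U := by have := h.hY; rwa [compl_compl] at this
  obtain ⟨b, P, hb⟩ := hO i
  have hbP := Uw6_913.picT hb
  rw [compl_compl] at hbP
  exact atni_of hU h hi hP hb hbP.1 hbP.2 (H U x0 a φ F hU h hi hP i b P hb hbP.1 hbP.2)

end

end Crest.Agent.R105.Lnk_632
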