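import Crest.Agent.R105.Lnk1_632

/-!
# Row 105, S0138 (NI frame), node E13, LAST LINK OF ATN, part 2 (helper632): `Tendsto` forms

`topEnd_of`, `botEnd_of` : `TopEnd` / `BotEnd` from limits of `Re F`, `Im F` (pushed to the anchor
picture) at `sSup (sec K' t)` from above / at `sInf (sec K' t)` from below, inside the picture.
-/

set_option autoImplicit false

open MeasureTheory Set Filter Topology Metric
open scoped NNReal ENNReal

namespace Crest.Agent.R105.Lnk_632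

open Crest.AnalysisR Tc_808 Ni_459 Ends_897
open Cq_463 (Sqr)
open Pct_185 (PicT)
open Sqr_185 (sec SqK wd)
open Ta_937 (sqs corE)
open SkA_8 (Pk)
open SkJ_987 (PE endMap)

noncomputable section

variable {U : Set ℂ} {F P : ℂ → ℂ} {x0 φ : ℂ → ℝ} {a b : ℕ → ℂ → ℝ} {K' : Set ℂ} {t : ℝ} {e : ℂ}

/-- the part of the line over `t` inside the picture -/
def Ln (U : Set ℂ) (P : ℂ → ℂ) (t : ℝ) : Set ℝ := {v | (⟨t, v⟩ : ℂ) ∈ P '' U}

theorem tendsto_re_im {ι : Type*} {l : Filter ι} {f : ι → ℂ}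
    (h1 : Tendsto (fun v => (f v).re) l (𝓝 e.re)) (h2 : Tendsto (fun v => (f v).im) l (𝓝 e.im)) :
    Tendsto f l (𝓝 e) := by
  have h3 := (Sqr_185.continuous_mk.tendsto (e.re, e.im)).comp (h1.prodMk_nhds h2)
  exact h3

theorem topEnd_of (hG : EndMap U (P '' U) P) (hK : IsCompact K') (hne : (sec K' t).Nonempty)
    (h : Tendsto (fun v : ℝ => F (hG.inv ⟨t, v⟩))
      (𝓝[Ln U P t ∩ Ioi (sSup (sec K' t))] (sSup (sec K' t))) (𝓝 e)) :
    TopEnd U P F K' t e := by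
  intro ε hε
  have h1 : ∀ᶠ v in 𝓝[Ln U P t ∩ Ioi (sSup (sec K' t))] (sSup (sec K' t)),
      dist (F (hG.inv ⟨t, v⟩)) e < ε := h (ball_mem_nhds e hε)
  obtain ⟨δ, hδ, h2⟩ := mem_nhdsWithin_iff.1 h1
  have hs := (Sqr_185.isCompact_sec hK t).sSup_mem hne
  have hbd := (Sqr_185.isCompact_sec hK t).bddAbove
  refine ⟨δ, hδ, fun z hz hzt hz1 ⟨y, hy, hy2⟩ => ?_⟩
  have h3 : (⟨t, (P z).im⟩ : ℂ) = P z := by rw [← hzt]
  have h4 := hz1 _ hs
  have h5 := le_csSup hbd hy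
  have h6 : (P z).im ∈ ball (sSup (sec K' t)) δ ∩ (Ln U P t ∩ Ioi (sSup (sec K' t))) := by
    refine ⟨?_, ?_, h4⟩
    · rw [mem_ball, Real.dist_eq, abs_lt]
      constructor <;> linarith
    · show (⟨t, (P z).im⟩ : ℂ) ∈ P '' U
      rw [h3]
      exact mem_image_of_mem P hz
  have h7 : dist (F (hG.inv ⟨t, (P z).im⟩)) e < ε := h2 h6
  rwa [h3, hG.inv_left hz] at h7

theorem botEnd_of (hG : EndMap U (P '' U) P) (hK : IsCompact K') (hne : (sec K' t).Nonempty)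
    (h : Tendsto (fun v : ℝ => F (hG.inv ⟨t, v⟩))
      (𝓝[Ln U P t ∩ Iio (sInf (sec K' t))] (sInf (sec K' t))) (𝓝 e)) :
    BotEnd U P F K' t e := by
  intro ε hε
  have h1 : ∀ᶠ v in 𝓝[Ln U P t ∩ Iio (sInf (sec K' t))] (sInf (sec K' t)),
      dist (F (hG.inv ⟨t, v⟩)) e < ε := h (ball_mem_nhds e hε)
  obtain ⟨δ, hδ, h2⟩ := mem_nhdsWithin_iff.1 h1
  have hs := (Sqr_185.isCompact_sec hK t).sInf_mem hne
  have hbd := (Sqr_185.isCompact_sec hK t).bddBelow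
  refine ⟨δ, hδ, fun z hz hzt hz1 ⟨y, hy, hy2⟩ => ?_⟩
  have h3 : (⟨t, (P z).im⟩ : ℂ) = P z := by rw [← hzt]
  have h4 := hz1 _ hs
  have h5 := csInf_le hbd hy
  have h6 : (P z).im ∈ ball (sInf (sec K' t)) δ ∩ (Ln U P t ∩ Iio (sInf (sec K' t))) := by
    refine ⟨?_, ?_, h4⟩
    · rw [mem_ball, Real.dist_eq, abs_lt]
      constructor <;> linarith
    · show (⟨t, (P z).im⟩ : ℂ) ∈ P '' U
      rw [h3]
      exact mem_image_of_mem P hz
  have h7 : dist (F (hG.inv ⟨t, (P z).im⟩)) e < ε := h2 h6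
  rwa [h3, hG.inv_left hz] at h7

/-- the section over a point strictly between the extreme abscissae is not empty -/
theorem sec_nonempty {E : Set ℂ} (hE : IsCompact E) (L : Cmp E)
    (h1 : Sqr_185.lo L.1 < t) (h2 : t < Sqr_185.hi L.1) : (sec L.1 t).Nonempty := by
  have hc := L.isCompact hE
  obtain ⟨p, hp, hp2⟩ := Sqr_185.exists_lo hc L.nonempty
  obtain ⟨q, hq, hq2⟩ := Sqr_185.exists_hi hc L.nonempty
  have h0 : IsPreconnected L.1 := by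
    obtain ⟨z, hz, hL⟩ := L.2
    rw [hL]
    exact isPreconnected_connectedComponentIn
  have h3 : IsPreconnected (Complex.re '' L.1) :=
    h0.image _ Complex.continuous_re.continuousOn
  have h4 : t ∈ Complex.re '' L.1 := h3.ordConnected.out (mem_image_of_mem _ hp)
    (mem_image_of_mem _ hq) ⟨by rw [hp2]; exact h1.le, by rw [hq2]; exact h2.le⟩
  obtain ⟨w, hw, rfl⟩ := h4
  exact ⟨w.im, hw⟩

/-- **`EndsIn` from one-sided limits of the pushed coordinates** -/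
theorem endsIn_of (hG : EndMap U (P '' U) P) {K : Cmp Uᶜ} (hc : IsCompact (P '' U)ᶜ)
    (h1 : Sqr_185.lo (corE hG K).1 < t) (h2 : t < Sqr_185.hi (corE hG K).1) {Q : Sqr}
    {xt yt xb yb : ℝ}
    (hxt : Tendsto (fun v : ℝ => (F (hG.inv ⟨t, v⟩)).re)
      (𝓝[Ln U P t ∩ Ioi (sSup (sec (corE hG K).1 t))] (sSup (sec (corE hG K).1 t))) (𝓝 xt))
    (hyt : Tendsto (fun v : ℝ => (F (hG.inv ⟨t, v⟩)).im)
      (𝓝[Ln U P t ∩ Ioi (sSup (sec (corE hG K).1 t))] (sSup (sec (corE hG K).1 t))) (𝓝 yt))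
    (hxb : Tendsto (fun v : ℝ => (F (hG.inv ⟨t, v⟩)).re)
      (𝓝[Ln U P t ∩ Iio (sInf (sec (corE hG K).1 t))] (sInf (sec (corE hG K).1 t))) (𝓝 xb))
    (hyb : Tendsto (fun v : ℝ => (F (hG.inv ⟨t, v⟩)).im)
      (𝓝[Ln U P t ∩ Iio (sInf (sec (corE hG K).1 t))] (sInf (sec (corE hG K).1 t))) (𝓝 yb))
    (ht : (xt, yt) ∈ Q.car) (hb : (xb, yb) ∈ Q.car) :
    EndsIn U P F (corE hG K).1 t Q := by
  have hKc := (corE hG K).isCompact hc
  have hne := sec_nonempty hc (corE hG K) h1 h2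
  exact ⟨⟨⟨xt, yt⟩, ht, topEnd_of hG hKc hne (tendsto_re_im (e := ⟨xt, yt⟩) hxt hyt)⟩,
    ⟨xb, yb⟩, hb, botEnd_of hG hKc hne (tendsto_re_im (e := ⟨xb, yb⟩) hxb hyb)⟩

end

end Crest.Agent.R105.Lnk_632
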