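import Crest.Agent.R105.Lnk3_632
import Crest.Agent.R105.Lin3_642
import Crest.Agent.R105.Bvl3_31
import Crest.Agent.R105.Bvy1_253

/-!
# Row 105, S0138, node E13: the outer join without `ENDS` (helper632)

The literal `E13_499.ENDS` is used nowhere here: the end limits come from the line lemma files of
642 over 31's `Bvl_31.BVL` (with a measurable majorant).

* `topF_ne`, `botF_ne` : the end filters of a component are proper
* `ends_of`            : `Bvl_31.BVL E w` gives end functions `EndsOf E L w wT wB`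
* `exists_ed'`         : `Ed` exists, no hypothesis
* `solEnds_of_atne`    : `ATNE → SolEnds`;  `atno_of_atne` : `ATNE → ATNo Ext`
-/

set_option autoImplicit false

open MeasureTheory Set Filter Topology Metric
open scoped NNReal ENNReal

namespace Crest.Agent.R105.Lnk4_632

open Crest.AnalysisR Tc_808 Ends_897
open Sqr_185 (sec SqK mem_sec)
open Cq_463 (Sqr)
open Pct_185 (PicT)
open Ta_937 (sqs corE)
open SkA_8 (Pk)
open Pj_403 (EndTop EndBot SolEnds)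
open E13_499 (TopF BotF EndsOf Ed ATNE pu cF)
open Lnk3_632

noncomputable section

variable {Y : Set ℂ} {x0 φ : ℂ → ℝ} {a b : ℕ → ℂ → ℝ} {F P : ℂ → ℂ} {i : ℕ}
  {E : Set ℂ} {w : ℂ → ℝ} {t : ℝ}

/-! ### the end filters -/

theorem topF_eq' (hE : IsCompact E) (L : Cmp E)
    (ht : t ∈ Icc (Sqr_185.lo L.1) (Sqr_185.hi L.1)) : Lin_642.topF E L.1 t = TopF E L.1 t := by
  have hL := L.isCompact hE
  rw [Lin_642.topF_eq hL (Sqr_185.sec_nonempty hL L.preconn L.nonempty ht)]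
  rfl

theorem botF_eq' (hE : IsCompact E) (L : Cmp E)
    (ht : t ∈ Icc (Sqr_185.lo L.1) (Sqr_185.hi L.1)) : Lin_642.botF E L.1 t = BotF E L.1 t := by
  have hL := L.isCompact hE
  rw [Lin_642.botF_eq hL (Sqr_185.sec_nonempty hL L.preconn L.nonempty ht)]
  rfl

theorem topF_ne (hE : IsCompact E) (L : Cmp E)
    (ht : t ∈ Icc (Sqr_185.lo L.1) (Sqr_185.hi L.1)) : (TopF E L.1 t).NeBot := by
  rw [← topF_eq' hE L ht]; exact Lin_642.topF_neBot hE L ht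

theorem botF_ne (hE : IsCompact E) (L : Cmp E)
    (ht : t ∈ Icc (Sqr_185.lo L.1) (Sqr_185.hi L.1)) : (BotF E L.1 t).NeBot := by
  rw [← botF_eq' hE L ht]; exact Lin_642.botF_neBot hE L ht

/-- the limits `tp`, `bt` of 642 are end functions in the sense of `E13_499` -/
theorem endsOf_tp (hE : IsCompact E) (hv : Bvl_31.BVL E w) (L : Cmp E) :
    EndsOf E L w (Lin_642.tp E L.1 w) (Lin_642.bt E L.1 w) := by
  filter_upwards [Lin_642.ends hE hv L] with t h1 ht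
  obtain ⟨g1, g2⟩ := h1 (Ioo_subset_Icc_self ht)
  rw [topF_eq' hE L (Ioo_subset_Icc_self ht)] at g1
  rw [botF_eq' hE L (Ioo_subset_Icc_self ht)] at g2
  exact ⟨g1, g2⟩

/-- **end functions exist** (the true form of `ENDS`) -/
theorem ends_of (hE : IsCompact E) (hv : Bvl_31.BVL E w) (L : Cmp E) :
    ∃ wT wB : ℝ → ℝ, EndsOf E L w wT wB := ⟨_, _, endsOf_tp hE hv L⟩

/-- end functions are unique almost everywhere -/
theorem ends_unique (hE : IsCompact E) (L : Cmp E) {wT wB wT' wB' : ℝ → ℝ}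
    (h : EndsOf E L w wT wB) (h' : EndsOf E L w wT' wB') :
    ∀ᵐ t : ℝ, t ∈ Ioo (Sqr_185.lo L.1) (Sqr_185.hi L.1) → wT t = wT' t ∧ wB t = wB' t := by
  filter_upwards [h, h'] with t h1 h2 ht
  have n1 := topF_ne hE L (Ioo_subset_Icc_self ht)
  have n2 := botF_ne hE L (Ioo_subset_Icc_self ht)
  exact ⟨tendsto_nhds_unique (h1 ht).1 (h2 ht).1, tendsto_nhds_unique (h1 ht).2 (h2 ht).2⟩

/-! ### the end functions of the two pictures -/

theorem bvl_pu_re (h : Pk Y x0 a φ F) (hi : Pk Y x0 b (a i) P) :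
    Bvl_31.BVL (P '' Yᶜ)ᶜ (pu hi fun z => (F z).re) :=
  Bvl_31.bvl_x h hi fun _ hz => Ta_937.push_comp (Uw6_913.endMap hi) (fun z => (F z).re) hz

theorem bvl_pu_u (h : Pk Y x0 a φ F) (hi : Pk Y x0 b (a i) P) :
    Bvl_31.BVL (F '' Yᶜ)ᶜ (pu h fun z => (P z).re) :=
  Bvl_31.bvl_u h hi fun _ hz => Ta_937.push_comp (Uw6_913.endMap h) (fun z => (P z).re) hz

theorem bvl_pu_im (h : Pk Y x0 a φ F) (hi : Pk Y x0 b (a i) P) :
    Bvl_31.BVL (P '' Yᶜ)ᶜ (pu hi fun z => (F z).im) := by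
  refine (Bvy_253.bvl_y h hi).congr fun ζ hζ => ?_
  obtain ⟨z, hz, rfl⟩ := not_not.1 hζ
  rw [Yv_319.yP_apply _ hz]
  exact (Ta_937.push_comp (Uw6_913.endMap hi) (fun z => (F z).im) hz).symm

/-- **`Ed` exists** -/
theorem exists_ed' (h : Pk Y x0 a φ F) (hi : Pk Y x0 b (a i) P) (K : Cmp Yᶜᶜ) :
    ∃ xT xB yT yB vT vB : ℝ → ℝ, Ed h hi K xT xB yT yB vT vB := by
  have hPF := (Uw6_913.picT h).2
  have hPP := (Uw6_913.picT hi).2
  obtain ⟨xT, xB, hx⟩ := ends_of hPP.cpt (bvl_pu_re h hi) (cF hi K)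
  obtain ⟨yT, yB, hy⟩ := ends_of hPP.cpt (bvl_pu_im h hi) (cF hi K)
  obtain ⟨vT, vB, hv⟩ := ends_of hPF.cpt (bvl_pu_u h hi) (cF h K)
  exact ⟨xT, xB, yT, yB, vT, vB, hx, hy, hv⟩

/-- the end limits of `Re F` on the lines of `P` lie in the projection of the square -/
theorem ed_x_mem (h : Pk Y x0 a φ F) (hi : Pk Y x0 b (a i) P) (K : Cmp Yᶜᶜ) {x y s : ℝ}
    (hS : SqK (cF h K).1 x y s) {xT xB : ℝ → ℝ}
    (hx : EndsOf (P '' Yᶜ)ᶜ (cF hi K) (pu hi fun z => (F z).re) xT xB) :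
    ∀ᵐ t : ℝ, t ∈ Ioo (Sqr_185.lo (cF hi K).1) (Sqr_185.hi (cF hi K).1) →
      xT t ∈ Icc x (x + s) ∧ xB t ∈ Icc x (x + s) := by
  have hPP := (Uw6_913.picT hi).2
  have hc : IsCompact (cF hi K).1 := (cF hi K).isCompact hPP.cpt
  filter_upwards [hx] with t h2 ht
  obtain ⟨x1, x2⟩ := h2 ht
  have n1 := topF_ne hPP.cpt (cF hi K) (Ioo_subset_Icc_self ht)
  have n2 := botF_ne hPP.cpt (cF hi K) (Ioo_subset_Icc_self ht)
  have hsc : IsCompact (sec (cF hi K).1 t) := Pj_403.isCompact_sec' hc t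
  have hsn : (sec (cF hi K).1 t).Nonempty :=
    Sqr_185.sec_nonempty hc (cF hi K).preconn (cF hi K).nonempty (Ioo_subset_Icc_self ht)
  have hT := tendsto_end h hi K (topF_le (E := (P '' Yᶜ)ᶜ)) (hsc.sSup_mem hsn) topF_off
  have hB := tendsto_end h hi K (botF_le (E := (P '' Yᶜ)ᶜ)) (hsc.sInf_mem hsn) botF_off
  exact ⟨lim_mem hS hT x1, lim_mem hS hB x2⟩

/-! ### the join -/

theorem solEnds_aux' (HA : ATNE) (h : Pk Y x0 a φ F)
    (hi : Pk Y x0 b (a i) P) (K : Cmp Yᶜᶜ) (Q : Sqr)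
    (hS : SqK (cF h K).1 Q.x Q.y Q.s) :
    ∀ᵐ t : ℝ, t ∈ Ioo (Sqr_185.lo (cF hi K).1) (Sqr_185.hi (cF hi K).1) →
      EndTop Yᶜ P F (cF hi K).1 t Q.car ∧ EndBot Yᶜ P F (cF hi K).1 t Q.car := by
  obtain ⟨xT, xB, yT, yB, vT, vB, hEd⟩ := exists_ed' h hi K
  have hS' : SqK (cF h K).1 (Sqr_185.lo (cF h K).1) Q.y Q.s := by
    rw [lo_sqK Q.hs hS]; exact hS
  have hA := HA Y x0 φ a b F P i K h hi Q.y Q.s xT xB yT yB vT vB Q.hs hS'
    (wd_sqK Q.hs hS).symm hEd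
  filter_upwards [hA, hEd.x, hEd.y, ed_x_mem h hi K hS hEd.x] with t h1 h2 h3 h4 ht
  obtain ⟨g1, g2⟩ := h1 ht
  obtain ⟨x1, x2⟩ := h2 ht
  obtain ⟨y1, y2⟩ := h3 ht
  obtain ⟨hxT, hxB⟩ := h4 ht
  have hoff : ∀ z ∈ Yᶜ, P z ∉ (P '' Yᶜ)ᶜ := fun z hz hz' => hz' (mem_image_of_mem P hz)
  exact ⟨Pj_403.endTop_of_lim hoff (fun z hz => Ta_937.push_comp (Uw6_913.endMap hi) _ hz)
      (fun z hz => Ta_937.push_comp (Uw6_913.endMap hi) _ hz) x1 y1 ⟨hxT, g1⟩,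
    Pj_403.endBot_of_lim hoff (fun z hz => Ta_937.push_comp (Uw6_913.endMap hi) _ hz)
      (fun z hz => Ta_937.push_comp (Uw6_913.endMap hi) _ hz) x2 y2 ⟨hxB, g2⟩⟩

/-- **`ATNE` gives the per-solid statement `SolEnds` of 403**, no other hypothesis -/
theorem solEnds_of_atne (HA : ATNE) : SolEnds := by
  intro U x0 a φ F h i b P hb hE hE' hP hP' K Q hQ hS hw
  obtain ⟨Y, rfl⟩ : ∃ Y : Set ℂ, U = Yᶜ := ⟨Uᶜ, (compl_compl U).symm⟩
  rw [compl_compl] at h hb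
  exact solEnds_aux' HA h hb K Q hS

/-- **`ATNo Ext` from `ATNE`** -/
theorem atno_of_atne (HA : ATNE) : Jex_987.ATNo Jex_987.Ext :=
  Pj_403.atno_ext (solEnds_of_atne HA)

end

end Crest.Agent.R105.Lnk4_632
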