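import Crest.Agent.R105.Nie4_909
import Crest.Agent.R105.LmY9_338

/-!
# Row 105, S0138 (NI frame), node NIEP, part 7 (helper909): Lemma Y in the form `LYi`

338's Lemma Y with the exceptional components = the jump components of `φ`.
-/

set_option autoImplicit false

open Set Topology Metric Filter MeasureTheory
open scoped NNReal ENNReal ContDiff

namespace Crest.Agent.R105.Nie_909

open Ni_459 Bd_775 Tc_808 LmS_392 Plv_626 Sl_732 LmY_338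
open Crest.AnalysisR (IsExteriorDomain)
open IfB_641 (X0)
open SelT_871 (JT)
open SkA_8 (Pk)

noncomputable section

/-- small variation from a finite measure -/
theorem smv_of_meas {Y : Set ℂ} {A f : ℂ → ℝ} {R t : ℝ} (hR : Y ⊆ ball 0 R) {P : Set (Cmp Y)}
    {ν : Measure ℂ} [IsFiniteMeasure ν] (h0 : ν ((Lv Y A t ∩ Y) \ ⋃₀ Sv P) = 0)
    (hC : ∀ C ⊆ Lv Y A t ∩ ball 0 R, IsCompact C → IsPreconnected C →
      (∀ z ∈ C, connectedComponentIn Y z ⊆ C) →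
      ∀ p ∈ C \ Y, ∀ q ∈ C \ Y, |f p - f q| ≤ (ν C).toReal) : SmV Y (Lv Y A t) (Sv P) f := by
  classical
  intro η hη
  have hη' : ENNReal.ofReal η ≠ 0 := by
    rw [Ne, ENNReal.ofReal_eq_zero]; linarith
  obtain ⟨W, hYW, hW, hνW⟩ := ((Lv Y A t ∩ Y) \ ⋃₀ Sv P).exists_isOpen_lt_add (μ := ν)
    (by rw [h0]; simp) hη'
  rw [h0, zero_add] at hνW
  refine ⟨W ∩ ball 0 R, hW.inter isOpen_ball, fun z hz => ⟨hYW hz, hR hz.1.2⟩, ?_⟩
  intro F p q hF hd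
  have h1 : ∀ C ∈ F, |f (p C) - f (q C)| ≤ (ν C).toReal := by
    intro C hCF
    obtain ⟨hcpt, hconn, hsat, hsub, hp, hq⟩ := hF C hCF
    refine hC C (fun z hz => ⟨(hsub hz).1, (hsub hz).2.2⟩) hcpt hconn (fun z hz => ?_) _ hp _ hq
    by_cases hzY : z ∈ Y
    · exact hsat z hz hzY
    · rw [connectedComponentIn_eq_empty hzY]; exact empty_subset _
  have hfin : ∀ B : Set ℂ, ν B ≠ ⊤ := fun B => measure_ne_top ν B
  calc ∑ C ∈ F, |f (p C) - f (q C)| ≤ ∑ C ∈ F, (ν C).toReal := Finset.sum_le_sum h1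
    _ = (∑ C ∈ F, ν C).toReal := (ENNReal.toReal_sum fun C _ => hfin C).symm
    _ = (ν (⋃ C ∈ F, C)).toReal := by
        have e := measure_biUnion_finset (μ := ν) (f := id) hd
          fun C hCF => (hF C hCF).cpt.measurableSet
        simp only [id] at e
        rw [e]
    _ ≤ (ENNReal.ofReal η).toReal := by
        refine ENNReal.toReal_mono ENNReal.ofReal_ne_top (le_trans (measure_mono ?_) hνW.le)
        exact iUnion₂_subset fun C hCF z hz => ((hF C hCF).sub hz).2.1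
    _ = η := ENNReal.toReal_ofReal hη.le

variable {Y : Set ℂ} {a y x0 u v φ : ℂ → ℝ} {b : ℕ → ℂ → ℝ} {p F : ℂ → ℂ} {X t : ℝ}
  {m σ : Measure ℂ} {e : ℂ → ℂ}

/-- Lemma Y with explicit exceptional set -/
theorem smv_slc (hYc : IsCompact Y) (hL : Lev Y (Lv Y a t) X) (hS : Slc Y (Lv Y a t) X m σ e y)
    (hB : BumpL Y (Lv Y a t)) {P : Set (Cmp Y)} (hσ : σ ((Lv Y a t ∩ Y) \ ⋃₀ Sv P) = 0) :
    SmV Y (Lv Y a t) (Sv P) y := by
  obtain ⟨R, hR⟩ : ∃ R, Y ⊆ ball 0 R := by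
    obtain ⟨R, h⟩ := hYc.isBounded.exists_norm_le
    exact ⟨R + 1, fun z hz => by rw [mem_ball_zero_iff]; linarith [h z hz]⟩
  set ν₁ : Measure ℂ := (m.restrict (ball 0 R)).withDensity (fun z => ‖fderiv ℝ y z‖ₑ) with hν
  have hme : Measurable fun z => ‖fderiv ℝ y z‖ₑ := (measurable_fderiv ℝ y).enorm
  have h1 : ν₁ univ < ⊤ := by
    rw [hν, withDensity_apply _ MeasurableSet.univ, Measure.restrict_univ]
    refine lt_of_le_of_lt (lintegral_mono_set (ball_subset_closedBall)) ?_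
    have := (hS.yi R).2
    rw [hasFiniteIntegral_iff_enorm] at this
    simpa using this
  have h2 : ν₁ Y = 0 := by
    rw [hν]
    refine withDensity_absolutelyContinuous _ _ ?_
    refine le_antisymm ((Measure.restrict_apply_le _ _).trans ?_) zero_le
    exact (measure_mono (fun z hz h => h.2 hz)).trans hS.mL.le
  have hf1 : IsFiniteMeasure ν₁ := ⟨h1⟩
  have hf2 : IsFiniteMeasure σ := ⟨hS.sf⟩
  refine smv_of_meas hR (ν := ν₁ + σ) ?_ ?_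
  · rw [Measure.add_apply, hσ, add_zero]
    exact measure_mono_null (fun z hz => hz.1.2) h2
  · intro C hC hCc hCp hCs p hp q hq
    have h3 := LmY_338.lemY hL hS hB C (fun z hz => (hC hz).1) hCc hCp hCs p hp q hq
    refine h3.trans (le_of_eq ?_)
    rw [Measure.add_apply, ENNReal.toReal_add (measure_ne_top _ _) (measure_ne_top _ _)]
    congr 1
    rw [hν, withDensity_apply _ hCc.measurableSet, Measure.restrict_restrict hCc.measurableSet,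
      inter_eq_self_of_subset_left (fun z hz => (hC hz).2), integral_eq_lintegral_of_nonneg_ae
        (ae_of_all _ fun z => norm_nonneg _) (measurable_fderiv ℝ y).norm.aestronglyMeasurable]
    simp only [ofReal_norm]

/-- a good level has small variation -/
theorem smv_sl {b y : ℂ → ℝ} {s : Cmp Y → ℝ} {t R₀ : ℝ} {m : Measure ℂ}
    (hY : IsExteriorDomain Yᶜ) (hl : LocallyLipschitzOn Yᶜ b) (hb : LB b) (hs : Swd Y b)
    (hfar : ∀ z : ℂ, R₀ ≤ ‖z‖ → z ∉ Y ∧ b z = z.re) (hs0 : ∀ K, 0 ≤ s K) (ht : Sl Y b y s t m)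
    (hy : ContDiffOn ℝ ∞ y Yᶜ) (hyb : ∀ R : ℝ, ∃ M, ∀ z ∉ Y, ‖z‖ ≤ R → |y z| ≤ M) :
    SmV Y (Lv Y b t) (Sv {K : Cmp Y | s K ≠ 0}) y := by
  have hS := slc_of hY hl hb hs hfar ⟨ht.conc, ht.fin, ht.finy, ht.diff⟩ hs0 ht.sums ht.S1 ht.S2
    ht.S3 ht.S5 hy hyb
  refine smv_slc (cpt_of hY) (lev hY hl hb hfar t) hS (bumpL hY hl hb hs t) ?_
  refine measure_mono_null ?_ (sg_Sg hY ht.sums)
  rintro z ⟨⟨-, hzY⟩, hz⟩
  refine ⟨hzY, fun hzS => hz ?_⟩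
  obtain ⟨K, hK⟩ := mem_iUnion.1 hzS
  exact ⟨K.1.1, ⟨K.1, K.2.2.ne', rfl⟩, hK⟩

/-- Lemma Y, general form -/
theorem smv_ae {b y : ℂ → ℝ} {s : Cmp Y → ℝ} {R₀ : ℝ}
    (hY : IsExteriorDomain Yᶜ) (hl : LocallyLipschitzOn Yᶜ b) (hb : LB b) (hs : Swd Y b)
    (hfar : ∀ z : ℂ, R₀ ≤ ‖z‖ → z ∉ Y ∧ b z = z.re) (hyl : LocallyLipschitzOn Yᶜ y)
    (hbe : ∀ R : ℝ, IntegrableOn (en b) (Yᶜ ∩ ball 0 R))
    (hye : ∀ R : ℝ, IntegrableOn (en y) (Yᶜ ∩ ball 0 R))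
    (hs0 : ∀ K, 0 ≤ s K) (hss : Summable fun K => s K ^ 2)
    (hso : Summable fun K : Cmp Y => s K * Tc_808.osc Y b K.1) (hEL : ELc Y b y s)
    (hy : ContDiffOn ℝ ∞ y Yᶜ) (hyb : ∀ R : ℝ, ∃ M, ∀ z ∉ Y, ‖z‖ ≤ R → |y z| ≤ M) :
    ∀ᵐ t, SmV Y (Lv Y b t) (Sv {K : Cmp Y | s K ≠ 0}) y := by
  obtain ⟨m, -, hSl⟩ := slices hY hl hb ⟨R₀, fun z hz => (hfar z hz).2⟩ hyl hbe hye hs0 hss hso hEL
  filter_upwards [hSl] with t ht
  exact smv_sl hY hl hb hs hfar hs0 ht hy hyb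

/-- Lemma Y for one control function `x0 + v` -/
theorem smvR (hY : IsExteriorDomain Yᶜ) (hx : X0 Y x0) (hu : TT Y u) (hv : TT Y v)
    (hv0 : HasCompactSupport v) (hs : Swd Y fun z => x0 z + v z)
    (hp : DifferentiableOn ℂ p Yᶜ) (hre : ∀ z ∈ Yᶜ, (p z).re = x0 z + u z)
    (hmin : ∀ χ, LC Y χ → HasCompactSupport χ → ∀ G : ℝ → ℝ, LipschitzWith 1 G → ∀ t : ℝ,
      JT Y x0 u ≤ JT Y x0 (fun z => u z + t * (χ z * G (x0 z + v z))))
    (hyb : ∀ R : ℝ, ∃ M, ∀ z ∉ Y, ‖z‖ ≤ R → |(p z).im| ≤ M) :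
    ∀ᵐ t, SmV Y (Lv Y (fun z => x0 z + v z) t) (Sv {K : Cmp Y | Tc_808.osc Y u K.1 ≠ 0})
      (fun z => (p z).im) := by
  obtain ⟨R1, hR1⟩ := hv0.isCompact.isBounded.exists_norm_le
  have hv1 : ∃ R : ℝ, ∀ z, R ≤ ‖z‖ → v z = 0 := ⟨R1 + 1, fun z hz => by
    by_contra h
    have := hR1 z (subset_tsupport _ h)
    linarith⟩
  obtain ⟨R₀, h0, hfar⟩ := LmS6_405.far hY hx hv1
  have hYc := (cpt_of hY).isClosed
  exact smv_ae (b := fun z => x0 z + v z) (y := fun z => (p z).im)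
    (s := fun K => Tc_808.osc Y u K.1) (R₀ := R₀) hY (LmS6_405.ll_a hx hv) (LmS6_405.lb_a hx hv) hs
    hfar (LmS6_405.ll_y hYc hp) (LmS6_405.en_a hY hx hv) (LmS6_405.en_y hY hx hu hp hre)
    (fun K => LmS6_405.s_nonneg K) (LmS6_405.s_sq hu) (LmS6_405.s_osc hx hu hv)
    (LmS6_405.el hY hx hu hv hp hre hmin) (cd_im hYc hp) hyb

/-- **Lemma Y for the package in the form `LYi`**, compactly supported anchor -/
theorem lyi_cs {U : Set ℂ} (P : Pk Uᶜ x0 b φ F) (i : ℕ) (hc : HasCompactSupport (b i)) :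
    LYi U x0 φ (b i) F :=
  smvR P.hY P.hx P.tt (P.tta i) hc (P.swd i) P.hol P.re
    (fun _ hχ hc _ hG t => pk_min P i hχ hc hG t) fun R => by
      obtain ⟨M, hM⟩ := pk_bdd P R
      exact ⟨M, fun z hz hzR => (Complex.abs_im_le_norm _).trans (hM z hz hzR)⟩

end

end Crest.Agent.R105.Nie_909
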