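import Crest.Agent.R105.Lyx1_319
import Crest.Agent.R105.Yv6_319
import Crest.Agent.R105.Jex1_987
import Crest.Agent.R105.Nie7_909

/-!
# R105 (S0138, NI frame): (C1) Lemma Y for the package of record (helper319)

* `slp_im`  : slice bounds of `Im F` along a.e. level of an extremal anchor, the charged components
  are the jump components of `φ`
* `lyi_ext` : `LYi` for an extremal anchor
* `lyo_ext` : `LYo Ext`
-/

set_option autoImplicit false

open Set Filter MeasureTheory Metric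
open scoped Topology NNReal ContDiff ENNReal

namespace Crest.Agent.R105.Lyx_319

open Tc_808 Ends_897
open Crest.AnalysisR (IsExteriorDomain)
open Ni_459 (Lv cpt_of)
open Ta_937 (corE)
open Yv_319 (ExtA yP sP line_im yP_apply sP_nonneg)
open Nie_909 (LYi JP)
open Jex_987 (LYo Ext)

variable {U : Set ℂ} {x0 φ : ℂ → ℝ} {a : ℕ → ℂ → ℝ} {F P : ℂ → ℂ}

/-- the jump components of a function of `TT` are countably many -/
theorem jp_countable {Y : Set ℂ} (hφ : TT Y φ) : (JP Y φ).Countable := by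
  have h1 := hφ.sum.countable_support
  refine h1.mono fun K hK => ?_
  exact pow_ne_zero 2 (show Tc_808.osc Y φ K.1 ≠ 0 from hK)

/-- slice bounds of `Im F` along the levels of an extremal anchor, charges at the solids only -/
theorem slp_im {Y : Set ℂ} {b : ℕ → ℂ → ℝ} (h : SkA_8.Pk Y x0 a φ F) {i : ℕ}
    (hi : SkA_8.Pk Y x0 b (a i) P) :
    ∀ᵐ t : ℝ, ∀ R, SlP Y (JP Y φ) (fun z => x0 z + a i z) (fun z => (F z).im) R t := by
  have e : Yᶜᶜ = Y := compl_compl Y
  have hE := Uw6_913.endMap hi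
  have hPic := (Uw6_913.picT hi).2
  have hcorE : corE hE ⁻¹' {L | sP hE φ L ≠ 0} = JP Yᶜᶜ φ := by
    ext K
    simp only [mem_preimage, mem_ofPred_eq, sP, Equiv.symm_apply_apply]
  have htt : TT Yᶜᶜ φ := by rw [e]; exact h.tt
  have hc : {L | sP hE φ L ≠ 0}.Countable := by
    have h1 : {L | sP hE φ L ≠ 0} = (corE hE).symm ⁻¹' (JP Yᶜᶜ φ) := rfl
    rw [h1]
    exact (jp_countable htt).preimage_of_injOn (corE hE).symm.injective.injOn
  filter_upwards [line_im h hi] with t ht R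
  have h1 := slp_anchor (X := fun z => x0 z + a i z) (f := fun z => (F z).im) hE
    (fun z hz => (hi.re z hz).symm) (fun z hz => (yP_apply hE hz).symm) hPic.ord
    (sP_nonneg hE) hc ht R
  rw [hcorE, e] at h1
  exact h1

/-- **Lemma Y for an extremal anchor in the form `LYi`** -/
theorem lyi_ext (h : SkA_8.Pk Uᶜ x0 a φ F) {i : ℕ} (hi : ExtA Uᶜ x0 (a i)) :
    LYi U x0 φ (a i) F := by
  obtain ⟨b, P, hP⟩ := hi
  obtain ⟨R, hR⟩ : ∃ R, Uᶜ ⊆ ball 0 R := by
    obtain ⟨R, h⟩ := (cpt_of h.hY).isBounded.exists_norm_le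
    exact ⟨R + 1, fun z hz => by rw [mem_ball_zero_iff]; linarith [h z hz]⟩
  filter_upwards [slp_im h hP] with t ht
  obtain ⟨ν, hν, hν0, hC⟩ := ht R
  refine Nie_909.smv_of_meas hR (ν := ν) (measure_mono_null ?_ hν0) hC
  rintro z ⟨hz1, hz2⟩
  refine ⟨hz1.2, fun hz3 => hz2 ?_⟩
  simp only [mem_iUnion] at hz3
  obtain ⟨K, hK, hzK⟩ := hz3
  exact ⟨K.1, ⟨K, hK, rfl⟩, hzK⟩

/-- **(C1)** Lemma Y for the package of record -/
theorem lyo_ext : LYo Ext := fun _ _ _ _ _ h hO _ _ i => lyi_ext h (hO i)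

end Crest.Agent.R105.Lyx_319
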