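import Mathlib

/-!
Row 105 (helper425): mollification in `L²` on a finite-dimensional normed space with a Haar measure
(in particular on `ℝ × ℝ`).  Sections 1, 2 are copied from `R330/Moll_350` (helper350), with the
inner product structure removed.
-/

set_option linter.unusedSectionVars false
set_option linter.deprecated false

noncomputable section

namespace Crest.Agent.R105.MsA_425

open MeasureTheory Filter Topology
open scoped ContDiff ENNReal Convolution

/-! ### 1. A Schur bound -/

section Schur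

variable {X : Type*} [MeasurableSpace X] {μ : Measure X}

/-- Cauchy-Schwarz with a weight. -/
theorem cs_sq {k h : X → ℝ≥0∞} (hk : AEMeasurable k μ) (hh : AEMeasurable h μ) :
    (∫⁻ x, k x * h x ∂μ) ^ 2 ≤ (∫⁻ x, k x ∂μ) * ∫⁻ x, k x * h x ^ 2 ∂μ := by
  have e1 : ∀ x, k x * h x = (fun x => k x ^ (1 / 2 : ℝ)) x * (fun x => k x ^ (1 / 2 : ℝ) * h x) x := by
    intro x
    simp only
    rw [← mul_assoc, ← ENNReal.rpow_add_of_nonneg _ _ (by norm_num) (by norm_num)]
    norm_num
  have hH := ENNReal.lintegral_mul_le_Lp_mul_Lq μ (p := 2) (q := 2) (by constructor <;> norm_num)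
    (hk.pow_const (1 / 2 : ℝ)) ((hk.pow_const (1 / 2 : ℝ)).mul hh)
  have e2 : ∀ x, (k x ^ (1 / 2 : ℝ)) ^ (2 : ℝ) = k x := by
    intro x
    rw [← ENNReal.rpow_mul]; norm_num
  have e3 : ∀ x, (k x ^ (1 / 2 : ℝ) * h x) ^ (2 : ℝ) = k x * h x ^ 2 := by
    intro x
    rw [ENNReal.mul_rpow_of_nonneg _ _ (by norm_num), e2]
    norm_num
  have hH' : ∫⁻ x, k x * h x ∂μ ≤
      (∫⁻ x, k x ∂μ) ^ (1 / 2 : ℝ) * (∫⁻ x, k x * h x ^ 2 ∂μ) ^ (1 / 2 : ℝ) := by
    calc ∫⁻ x, k x * h x ∂μ = ∫⁻ x, ((fun x => k x ^ (1 / 2 : ℝ)) *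
          (fun x => k x ^ (1 / 2 : ℝ) * h x)) x ∂μ := by
          refine lintegral_congr fun x => ?_
          exact e1 x
      _ ≤ _ := by
          refine hH.trans (le_of_eq ?_)
          congr 2
          · congr 1
            exact funext fun x => e2 x
          · congr 1
            exact funext fun x => e3 x
  calc (∫⁻ x, k x * h x ∂μ) ^ 2 ≤
      ((∫⁻ x, k x ∂μ) ^ (1 / 2 : ℝ) * (∫⁻ x, k x * h x ^ 2 ∂μ) ^ (1 / 2 : ℝ)) ^ 2 := by
        gcongr
    _ = _ := by
        rw [mul_pow, ← ENNReal.rpow_natCast, ← ENNReal.rpow_natCast, ← ENNReal.rpow_mul,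
          ← ENNReal.rpow_mul]
        norm_num

theorem schur_sq [SFinite μ] {K : X → X → ℝ≥0∞} (hK : Measurable (Function.uncurry K))
    (h1 : ∀ x, ∫⁻ y, K x y ∂μ ≤ 1) (h2 : ∀ y, ∫⁻ x, K x y ∂μ ≤ 1) {h : X → ℝ≥0∞}
    (hh : AEMeasurable h μ) :
    ∫⁻ x, (∫⁻ y, K x y * h y ∂μ) ^ 2 ∂μ ≤ ∫⁻ y, h y ^ 2 ∂μ := by
  have hKx : ∀ x, Measurable (K x) := fun x => hK.comp measurable_prodMk_left
  have hKy : ∀ y, Measurable fun x => K x y := fun y => hK.comp measurable_prodMk_right
  calc ∫⁻ x, (∫⁻ y, K x y * h y ∂μ) ^ 2 ∂μ ≤ ∫⁻ x, ∫⁻ y, K x y * h y ^ 2 ∂μ ∂μ := by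
        refine lintegral_mono fun x => ?_
        refine (cs_sq (hKx x).aemeasurable hh).trans ?_
        calc _ ≤ 1 * ∫⁻ y, K x y * h y ^ 2 ∂μ := by gcongr; exact h1 x
          _ = _ := one_mul _
    _ = ∫⁻ y, ∫⁻ x, K x y * h y ^ 2 ∂μ ∂μ := by
        refine lintegral_lintegral_swap ?_
        refine hK.aemeasurable.mul ?_
        exact (hh.pow_const 2).comp_quasiMeasurePreserving Measure.quasiMeasurePreserving_snd
    _ = ∫⁻ y, (∫⁻ x, K x y ∂μ) * h y ^ 2 ∂μ := by
        refine lintegral_congr fun y => ?_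
        rw [lintegral_mul_const _ (hKy y)]
    _ ≤ ∫⁻ y, h y ^ 2 ∂μ := by
        refine lintegral_mono fun y => ?_
        calc _ ≤ 1 * h y ^ 2 := by gcongr; exact h2 y
          _ = _ := one_mul _

end Schur

/-! ### 2. Mollification -/

section Moll

variable {E : Type*} [NormedAddCommGroup E] [NormedSpace ℝ E] [FiniteDimensional ℝ E]
  [MeasureSpace E] [BorelSpace E] [(volume : Measure E).IsAddHaarMeasure]
  {F : Type*} [NormedAddCommGroup F] [NormedSpace ℝ F]

/-- The mollification of `g` by the normalised bump `φ`. -/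
def moll (φ : ContDiffBump (0 : E)) (g : E → F) (x : E) : F :=
  ∫ y, φ.normed volume (x - y) • g y

variable {φ : ContDiffBump (0 : E)} {g : E → F}

theorem moll_eq_conv :
    moll φ g = (φ.normed volume ⋆[ContinuousLinearMap.lsmul ℝ ℝ, volume] g) := by
  funext x
  rw [convolution_eq_swap]
  rfl

theorem contDiff_moll (hg : LocallyIntegrable g) : ContDiff ℝ ∞ (moll φ g) := by
  rw [moll_eq_conv]
  exact φ.hasCompactSupport_normed.contDiff_convolution_left _ φ.contDiff_normed hg

theorem fderiv_moll [CompleteSpace F] (hg : LocallyIntegrable g) (x e : E) :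
    fderiv ℝ (moll φ g) x e = ∫ y, fderiv ℝ (φ.normed volume) (x - y) e • g y := by
  rw [moll_eq_conv]
  have h := φ.hasCompactSupport_normed.hasFDerivAt_convolution_left
    (ContinuousLinearMap.lsmul ℝ ℝ : ℝ →L[ℝ] F →L[ℝ] F)
    (φ.contDiff_normed (n := 1) (μ := volume)) hg x
  rw [h.fderiv, convolution_eq_swap, ContinuousLinearMap.integral_apply]
  · rfl
  · have hcd : HasCompactSupport (fderiv ℝ (φ.normed volume)) :=
      φ.hasCompactSupport_normed.fderiv (𝕜 := ℝ)
    have hcont : Continuous (fderiv ℝ (φ.normed (volume : Measure E))) :=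
      (φ.contDiff_normed (n := 1) (μ := volume)).continuous_fderiv (by norm_num)
    have := hcd.convolutionExists_left
      (L := ((ContinuousLinearMap.lsmul ℝ ℝ : ℝ →L[ℝ] F →L[ℝ] F).precompL E)) (μ := volume)
      hcont hg x
    have h2 := this.integrable_swap
    exact h2

theorem moll_eq_zero {R : ℝ} (hg : ∀ y, R < ‖y‖ → g y = 0) {x : E} (hx : R + φ.rOut < ‖x‖) :
    moll φ g x = 0 := by
  unfold moll
  rw [← integral_zero E F (μ := volume)]
  congr 1
  funext y
  by_cases hy : R < ‖y‖
  · rw [hg y hy, smul_zero]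
  · have : φ.normed volume (x - y) = 0 := by
      have h1 : x - y ∉ Function.support (φ.normed volume) := by
        rw [φ.support_normed_eq, Metric.mem_ball, dist_zero_right, not_lt]
        have := norm_sub_norm_le x y
        push Not at hy
        linarith
      simpa using h1
    rw [this, zero_smul]

theorem hasCompactSupport_moll {R : ℝ} (hg : ∀ y, R < ‖y‖ → g y = 0) :
    HasCompactSupport (moll φ g) := by
  refine HasCompactSupport.intro (isCompact_closedBall (0 : E) (R + φ.rOut)) fun x hx => ?_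
  refine moll_eq_zero hg ?_
  simpa using hx

/-- kernel bound -/
theorem lintegral_normed_left (x : E) :
    ∫⁻ y, ENNReal.ofReal (φ.normed volume (x - y)) = 1 := by
  rw [lintegral_sub_left_eq_self (μ := (volume : Measure E))
    (fun z => ENNReal.ofReal (φ.normed volume z)) x,
    ← ofReal_integral_eq_lintegral_ofReal φ.integrable_normed
      (Eventually.of_forall fun z => φ.nonneg_normed z), φ.integral_normed]
  simp

theorem lintegral_normed_right (y : E) :
    ∫⁻ x, ENNReal.ofReal (φ.normed volume (x - y)) = 1 := by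
  rw [lintegral_sub_right_eq_self (μ := (volume : Measure E))
    (fun z => ENNReal.ofReal (φ.normed volume z)) y,
    ← ofReal_integral_eq_lintegral_ofReal φ.integrable_normed
      (Eventually.of_forall fun z => φ.nonneg_normed z), φ.integral_normed]
  simp

theorem measurable_kernel :
    Measurable (Function.uncurry fun x y : E => ENNReal.ofReal (φ.normed volume (x - y))) := by
  have : Continuous fun p : E × E => φ.normed volume (p.1 - p.2) :=
    φ.continuous_normed.comp (continuous_fst.sub continuous_snd)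
  exact ENNReal.measurable_ofReal.comp this.measurable

/-- The general `L²` bound for kernels dominated by the bump. -/
theorem lintegral_kernel_sq_le {h : E → ℝ≥0∞} (hh : AEMeasurable h volume) :
    ∫⁻ x, (∫⁻ y, ENNReal.ofReal (φ.normed volume (x - y)) * h y) ^ 2 ≤ ∫⁻ y, h y ^ 2 :=
  schur_sq (measurable_kernel (φ := φ)) (fun x => (lintegral_normed_left x).le)
    (fun y => (lintegral_normed_right y).le) hh

theorem eLpNorm_two_sq {X : Type*} [MeasurableSpace X] {μ : Measure X} {G : Type*}
    [NormedAddCommGroup G] (f : X → G) : eLpNorm f 2 μ ^ 2 = ∫⁻ x, ‖f x‖ₑ ^ 2 ∂μ := by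
  rw [eLpNorm_eq_lintegral_rpow_enorm_toReal (by norm_num) (by norm_num)]
  simp only [ENNReal.toReal_ofNat, ENNReal.rpow_ofNat]
  rw [← ENNReal.rpow_natCast, ← ENNReal.rpow_mul]
  norm_num

theorem eLpNorm_le_of_sq {X : Type*} [MeasurableSpace X] {μ : Measure X} {G H : Type*}
    [NormedAddCommGroup G] [NormedAddCommGroup H] {f : X → G} {g : X → H} {c : ℝ≥0∞}
    (h : ∫⁻ x, ‖f x‖ₑ ^ 2 ∂μ ≤ c ^ 2 * ∫⁻ x, ‖g x‖ₑ ^ 2 ∂μ) :
    eLpNorm f 2 μ ≤ c * eLpNorm g 2 μ := by
  rw [← eLpNorm_two_sq, ← eLpNorm_two_sq, ← mul_pow] at h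
  exact (ENNReal.pow_le_pow_left_iff (by norm_num)).mp h

/-- An `L²` bound: if `‖u x‖ ≤ c ∫ ρ(x - y) ‖g y‖ dy` then `‖u‖₂ ≤ c ‖g‖₂`. -/
theorem eLpNorm_le_of_kernel {H : Type*} [NormedAddCommGroup H] {u : E → H} {c : ℝ≥0∞}
    (hg : AEStronglyMeasurable g volume)
    (hu : ∀ x, ‖u x‖ₑ ≤ c * ∫⁻ y, ENNReal.ofReal (φ.normed volume (x - y)) * ‖g y‖ₑ) :
    eLpNorm u 2 volume ≤ c * eLpNorm g 2 volume := by
  refine eLpNorm_le_of_sq ?_
  calc ∫⁻ x, ‖u x‖ₑ ^ 2 ≤ ∫⁻ x, c ^ 2 *
        (∫⁻ y, ENNReal.ofReal (φ.normed volume (x - y)) * ‖g y‖ₑ) ^ 2 := by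
        refine lintegral_mono fun x => ?_
        rw [← mul_pow]
        gcongr
        exact hu x
    _ = c ^ 2 * ∫⁻ x, (∫⁻ y, ENNReal.ofReal (φ.normed volume (x - y)) * ‖g y‖ₑ) ^ 2 := by
        rw [lintegral_const_mul'']
        have hm : AEMeasurable (fun p : E × E =>
            ENNReal.ofReal (φ.normed volume (p.1 - p.2)) * ‖g p.2‖ₑ)
            ((volume : Measure E).prod volume) := by
          refine (measurable_kernel (φ := φ)).aemeasurable.mul ?_
          exact hg.enorm.comp_quasiMeasurePreserving Measure.quasiMeasurePreserving_snd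
        exact (hm.lintegral_prod_right').pow_const 2
    _ ≤ c ^ 2 * ∫⁻ y, ‖g y‖ₑ ^ 2 :=
        mul_le_mul' le_rfl (lintegral_kernel_sq_le (φ := φ) hg.enorm)

theorem eLpNorm_moll_le (hg : AEStronglyMeasurable g volume) :
    eLpNorm (moll φ g) 2 volume ≤ eLpNorm g 2 volume := by
  have := eLpNorm_le_of_kernel (φ := φ) (u := moll φ g) (c := 1) hg (fun x => by
    rw [one_mul]
    refine (enorm_integral_le_lintegral_enorm _).trans (le_of_eq ?_)
    refine lintegral_congr fun y => ?_
    rw [enorm_smul, Real.enorm_eq_ofReal (φ.nonneg_normed _)])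
  simpa using this

/-- continuity of translations in `L²` -/
theorem tendsto_translate {g : E → F} (hg : MemLp g 2 volume) :
    Tendsto (fun z : E => eLpNorm (fun x => g (x - z) - g x) 2 volume) (𝓝 0) (𝓝 0) := by
  have : Fact ((1 : ℝ≥0∞) ≤ 2) := ⟨by norm_num⟩
  let T : E → C(E, E) := fun z => ⟨fun x => x - z, by fun_prop⟩
  have hT : Continuous T := by
    refine ContinuousMap.continuous_of_continuous_uncurry _ ?_
    exact continuous_snd.sub continuous_fst
  have hTm : ∀ z, MeasurePreserving (T z) (volume : Measure E) volume := fun z =>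
    measurePreserving_sub_right volume z
  have hc := (continuous_const (y := hg.toLp g)).compMeasurePreservingLp (μ := (volume : Measure E))
    (ν := (volume : Measure E)) (p := 2) hT hTm (by norm_num)
  have h0 := (hc.tendsto 0)
  rw [tendsto_iff_norm_sub_tendsto_zero] at h0
  have h1 := ENNReal.tendsto_ofReal h0
  rw [ENNReal.ofReal_zero] at h1
  refine h1.congr fun z => ?_
  rw [Lp.norm_def, ENNReal.ofReal_toReal (Lp.eLpNorm_ne_top _)]
  refine eLpNorm_congr_ae ?_
  refine (Lp.coeFn_sub _ _).trans ?_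
  have a1 : ∀ w, (Lp.compMeasurePreserving (T w) (hTm w) (hg.toLp g) : E → F) =ᵐ[volume]
      fun x => g (x - w) := by
    intro w
    refine (Lp.coeFn_compMeasurePreserving _ _).trans ?_
    exact (hTm w).quasiMeasurePreserving.ae_eq_comp hg.coeFn_toLp
  filter_upwards [a1 z, a1 0] with x h2 h3
  simp only [Pi.sub_apply]
  rw [h2, h3, sub_zero]

/-- quantitative mollification error -/
theorem eLpNorm_moll_sub_le [CompleteSpace F] (hg : MemLp g 2 volume) {δ : ℝ≥0∞}
    (hδ : ∀ z : E, ‖z‖ < φ.rOut → eLpNorm (fun x => g (x - z) - g x) 2 volume ≤ δ) :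
    eLpNorm (moll φ g - g) 2 volume ≤ δ := by
  have hloc : LocallyIntegrable g volume := hg.locallyIntegrable (by norm_num)
  -- pointwise bound
  have hpt : ∀ x, ‖(moll φ g - g) x‖ₑ ≤
      ∫⁻ z, ENNReal.ofReal (φ.normed volume z) * ‖g (x - z) - g x‖ₑ := by
    intro x
    have hI : Integrable (fun z => φ.normed volume z • g (x - z)) volume := by
      have := φ.hasCompactSupport_normed.convolutionExists_left
        (L := (ContinuousLinearMap.lsmul ℝ ℝ : ℝ →L[ℝ] F →L[ℝ] F)) (μ := volume)
        (φ.continuous_normed (μ := volume)) hloc x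
      exact this
    have e1 : moll φ g x = ∫ z, φ.normed volume z • g (x - z) := by
      rw [moll_eq_conv]
      rfl
    have e2 : g x = ∫ z, φ.normed volume z • g x := by
      rw [integral_smul_const, φ.integral_normed, one_smul]
    have e3 : (moll φ g - g) x = ∫ z, φ.normed volume z • (g (x - z) - g x) := by
      simp only [Pi.sub_apply, smul_sub]
      rw [integral_sub hI (φ.integrable_normed.smul_const _), ← e1, ← e2]
    rw [e3]
    refine (enorm_integral_le_lintegral_enorm _).trans (le_of_eq ?_)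
    refine lintegral_congr fun z => ?_
    rw [enorm_smul, Real.enorm_eq_ofReal (φ.nonneg_normed _)]
  have hmeas1 : AEStronglyMeasurable (fun p : E × E => g (p.1 - p.2) - g p.1)
      ((volume : Measure E).prod volume) := by
    refine AEStronglyMeasurable.sub ?_ ?_
    · have hq : Measure.QuasiMeasurePreserving (fun p : E × E => p.1 - p.2)
          ((volume : Measure E).prod volume) volume :=
        quasiMeasurePreserving_sub_of_right_invariant volume volume
      exact hg.1.comp_quasiMeasurePreserving hq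
    · exact hg.1.comp_quasiMeasurePreserving Measure.quasiMeasurePreserving_fst
  have hmeas2 : AEMeasurable (fun p : E × E => ‖g (p.1 - p.2) - g p.1‖ₑ)
      ((volume : Measure E).prod volume) := hmeas1.enorm
  have hkey : eLpNorm (moll φ g - g) 2 volume ^ 2 ≤ δ ^ 2 := by
    rw [eLpNorm_two_sq]
    calc ∫⁻ x, ‖(moll φ g - g) x‖ₑ ^ 2
        ≤ ∫⁻ x, (∫⁻ z, ENNReal.ofReal (φ.normed volume z) * ‖g (x - z) - g x‖ₑ) ^ 2 := by
          refine lintegral_mono fun x => ?_
          gcongr
          exact hpt x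
      _ ≤ ∫⁻ x, ∫⁻ z, ENNReal.ofReal (φ.normed volume z) * ‖g (x - z) - g x‖ₑ ^ 2 := by
          refine lintegral_mono_ae ?_
          have hsec : ∀ᵐ x ∂(volume : Measure E),
              AEMeasurable (fun z => ‖g (x - z) - g x‖ₑ) volume := by
            filter_upwards [hmeas1.prodMk_left] with x hx
            exact hx.enorm
          filter_upwards [hsec] with x hx
          refine (cs_sq (μ := (volume : Measure E)) ?_ hx).trans ?_
          · exact (ENNReal.measurable_ofReal.comp φ.continuous_normed.measurable).aemeasurable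
          · have : ∫⁻ z, ENNReal.ofReal (φ.normed volume z) = 1 := by
              have := lintegral_normed_right (φ := φ) (0 : E)
              simpa using this
            rw [this, one_mul]
      _ = ∫⁻ z, ∫⁻ x, ENNReal.ofReal (φ.normed volume z) * ‖g (x - z) - g x‖ₑ ^ 2 := by
          refine lintegral_lintegral_swap ?_
          refine AEMeasurable.mul ?_ (hmeas2.pow_const 2)
          exact ((ENNReal.measurable_ofReal.comp φ.continuous_normed.measurable).comp
            measurable_snd).aemeasurable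
      _ ≤ ∫⁻ z, ENNReal.ofReal (φ.normed volume z) * δ ^ 2 := by
          refine lintegral_mono fun z => ?_
          rw [lintegral_const_mul' _ _ ENNReal.ofReal_ne_top]
          by_cases hz : ‖z‖ < φ.rOut
          · gcongr
            rw [← eLpNorm_two_sq]
            gcongr
            exact hδ z hz
          · have : φ.normed volume z = 0 := by
              have h1 : z ∉ Function.support (φ.normed volume) := by
                rw [φ.support_normed_eq, Metric.mem_ball, dist_zero_right]
                exact hz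
              simpa using h1
            simp [this]
      _ = δ ^ 2 := by
          rw [lintegral_mul_const]
          · have : ∫⁻ z, ENNReal.ofReal (φ.normed volume z) = 1 := by
              have := lintegral_normed_right (φ := φ) (0 : E)
              simpa using this
            rw [this, one_mul]
          · exact ENNReal.measurable_ofReal.comp φ.continuous_normed.measurable
  exact (ENNReal.pow_le_pow_left_iff (by norm_num)).mp hkey

/-- `L²` convergence of mollifications. -/
theorem tendsto_moll [CompleteSpace F] (hg : MemLp g 2 volume) {φs : ℕ → ContDiffBump (0 : E)}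
    (hφ : Tendsto (fun n => (φs n).rOut) atTop (𝓝 0)) :
    Tendsto (fun n => eLpNorm (moll (φs n) g - g) 2 volume) atTop (𝓝 0) := by
  rw [ENNReal.tendsto_nhds_zero]
  intro ε hε
  have h1 := tendsto_translate hg
  rw [ENNReal.tendsto_nhds_zero] at h1
  have h2 := h1 ε hε
  rw [Metric.eventually_nhds_iff] at h2
  obtain ⟨r, hr, h3⟩ := h2
  have h4 : ∀ᶠ n in atTop, (φs n).rOut < r := hφ.eventually (gt_mem_nhds hr)
  filter_upwards [h4] with n hn
  refine eLpNorm_moll_sub_le hg fun z hz => h3 ?_
  rw [dist_zero_right]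
  exact hz.trans hn

end Moll

end Crest.Agent.R105.MsA_425
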