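import Crest.Agent.R105.Nie4_909

/-!
# Row 105, S0138 (NI frame), node NIEP, part 5 (helper909): the sequence theorem `adm_seq`

For ONE anchor `a i` of the package with `LYi`, `HCi`, `ATNi`: pointwise limits of functions which
are Lipschitz off finitely many hairs, with bounded energies and bounded charges (`l²`), are
admissible.
-/

set_option autoImplicit false

open MeasureTheory Set Filter Topology Metric
open scoped NNReal ENNReal

namespace Crest.Agent.R105.Nie_909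

open Crest.AnalysisR Tc_808 Ni_459 Sqr_185 Ends_897 Plv_626
open Bd_775 (Q en)
open IfB_641 (X0)
open Cq_463 (Sqr QPic)
open CF_363 (Hair g2 SL CFJ CF cut mem_cut isClosed_cut isCompact_cut volume_cut)
open Skp2_257 (Comps Reg)
open Tra_937 (setR setC toC Uni)
open Pct_185 (PicT Sol)
open Stp_722 (OscLe)
open Ta_937 (sqs hrs corE)
open SkA_8 (Pk)
open SkJ_987 (PE AdmP endMap TCont)

noncomputable section

variable {U : Set ℂ} {F : ℂ → ℂ} {x0 φ : ℂ → ℝ} {a : ℕ → ℂ → ℝ} {ψ : ℝ × ℝ → ℝ}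

open Classical in
/-- charges of the squares as charges of the components -/
def cZ (hE : EndMap U (F '' U) F) (hP : PicT (F '' U)ᶜ) (c : Sqr → ℝ) (K : Cmp Uᶜ) : ℝ :=
  if hw : 0 < wd (corE hE K).1 then c ((Ta_937.solE hP).symm ⟨corE hE K, hw⟩).1 else 0

theorem cZ_nonneg (hE : EndMap U (F '' U) F) (hP : PicT (F '' U)ᶜ) {c : Sqr → ℝ}
    (hc : ∀ Q, 0 ≤ c Q) (K : Cmp Uᶜ) : 0 ≤ cZ hE hP c K := by
  unfold cZ
  split_ifs
  · exact hc _
  · exact le_rfl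

theorem wd_nonneg {E : Set ℂ} (hE : IsCompact E) (L : Cmp E) : 0 ≤ wd L.1 := by
  have := lo_le_hi (L.isCompact hE) L.nonempty
  unfold wd; linarith

theorem cZ_sum (hE : EndMap U (F '' U) F) (hP : PicT (F '' U)ᶜ) {c : Sqr → ℝ} {P : Set (Cmp Uᶜ)}
    (hPw : ∀ K ∈ P, 0 < wd (corE hE K).1) :
    ∑' K : P, ENNReal.ofReal (cZ hE hP c K.1 ^ 2) ≤
      ∑' Q : sqs (F '' U)ᶜ, ENNReal.ofReal (c Q.1 ^ 2) := by
  have h1 : ∀ K : P, ENNReal.ofReal (cZ hE hP c K.1 ^ 2) =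
      (fun Q : sqs (F '' U)ᶜ => ENNReal.ofReal (c Q.1 ^ 2))
        ((Ta_937.solE hP).symm ⟨corE hE K.1, hPw K.1 K.2⟩) := by
    intro K
    unfold cZ
    rw [dif_pos (hPw K.1 K.2)]
  rw [tsum_congr h1]
  refine ENNReal.tsum_comp_le_tsum_of_injective (f := fun K : P =>
    (Ta_937.solE hP).symm ⟨corE hE K.1, hPw K.1 K.2⟩) ?_ _
  intro K K' h
  have h2 := (Ta_937.solE hP).symm.injective h
  have h3 : corE hE K.1 = corE hE K'.1 := congrArg Subtype.val h2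
  exact Subtype.ext ((corE hE).injective h3)

/-- components whose picture meets one of the hairs -/
def Dn (hE : EndMap U (F '' U) F) (J : Finset Hair) : Set (Cmp Uᶜ) :=
  {K | ¬ Disjoint (setR (corE hE K).1) (cut J)}

theorem Dn_countable (hE : EndMap U (F '' U) F) {J : Finset Hair} (hJ : cut J ⊆ PE U F) :
    (Dn hE J).Countable := by
  have h1 : Dn hE J ⊆ ⋃ H ∈ J, {K | (H.car ∩ setR (corE hE K).1).Nonempty} := by
    intro K hK
    obtain ⟨p, hp, hpc⟩ := not_disjoint_iff.1 hK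
    obtain ⟨H, hH, hpH⟩ := mem_cut.1 hpc
    exact mem_iUnion₂.2 ⟨H, hH, p, hpH, hp⟩
  refine Countable.mono h1 (J.countable_toSet.biUnion fun H hH => ?_)
  refine Set.Subsingleton.countable fun K hK K' hK' => ?_
  have hs : H.car ⊆ setR (F '' U)ᶜ := fun p hp => hJ (mem_cut.2 ⟨H, hH, hp⟩)
  have hc : IsPreconnected H.car := (car_convex H).isPreconnected
  have h2 := Ta_937.sub_cmp hs hc hK
  have h3 := Ta_937.sub_cmp hs hc hK'
  obtain ⟨p, hp, -⟩ := hK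
  exact (corE hE).injective (Ta_937.cmp_unique (h2 hp) (h3 hp))

/-- points of `L_t` off `Y` are at level `t` -/
theorem eq_of_Lv (h : Pk Uᶜ x0 a φ F) (i : ℕ) {t : ℝ} {z : ℂ} (hz : z ∈ U)
    (hL : z ∈ Lv Uᶜ (fun z => x0 z + a i z) t) : x0 z + a i z = t := by
  have hzY : z ∉ Uᶜ := fun h => h hz
  have hAl := Nip_31.ll_x0 h.hx (h.tta i)
  have hAb := Nip_31.lb_x0 h.hx (h.tta i)
  have h6 := hL.1
  have h7 := hL.2
  rw [Nip_31.lo_eq h.hY hAl hAb hzY] at h6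
  rw [Nip_31.up_eq h.hY hAl hAb hzY] at h7
  exact le_antisymm h6 h7

/-- **sequence theorem** for the anchor `a i` -/
theorem adm_seq (hU : IsExteriorDomain U) (h : Pk Uᶜ x0 a φ F) (hi : InjOn F U)
    (hP : PicT (F '' U)ᶜ) (i : ℕ) (hLY : LYi U x0 φ (a i) F) (hHC : HCi U φ (a i))
    (hAT : ATNi U x0 (a i) F)
    {g : ℕ → ℝ × ℝ → ℝ} {J : ℕ → Finset Hair} {M : ℕ → ℝ} (hJ : ∀ n, cut (J n) ⊆ PE U F)
    (hSL : ∀ n, SL (univ \ cut (J n)) (M n) (g n)) (hg : ∀ n, Reg (PE U F) (g n))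
    (hlim : ∀ p ∉ PE U F, Tendsto (fun n => g n p) atTop (𝓝 (ψ p)))
    {c : ℕ → Sqr → ℝ} (hc0 : ∀ n Q, 0 ≤ c n Q) {C : ℝ≥0∞} (hC : C ≠ ∞)
    (hcs : ∀ n, ∑' Q : sqs (F '' U)ᶜ, ENNReal.ofReal (c n Q.1 ^ 2) ≤ C)
    (hch : ∀ n, ∀ Q ∈ sqs (F '' U)ᶜ, Cq_463.ch (PE U F) univ (g n) Q ≤ c n Q)
    {M' : ℝ} (hen : ∀ n, ∫ p in (PE U F)ᶜ, g2 (g n) p ≤ M')
    (hfb : LB (fun z => toC ψ (F z))) (hfc : ∀ z ∉ Uᶜ, ContinuousAt (fun z => toC ψ (F z)) z)
    (hfs : Summable fun K : Cmp Uᶜ => osc Uᶜ (fun z => toC ψ (F z)) K.1 ^ 2) :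
    NI Uᶜ (a i) (fun z => toC ψ (F z)) := by
  have hE := endMap h hU hi
  have hF := uni_of hU h hi hP
  have hwd : ∀ K : Cmp Uᶜ, osc Uᶜ φ K.1 = wd (corE hE K).1 := osc_wd hU h hi hP
  have hPw : ∀ K ∈ JP Uᶜ φ, 0 < wd (corE hE K).1 := fun K hK =>
    lt_of_le_of_ne (wd_nonneg hP.cpt _) fun h0 => hK ((hwd K).trans h0.symm)
  have hFc : ContinuousOn F (Uᶜ)ᶜ := h.hol.continuousOn
  refine nieG h.hY h.hx (h.tta i) (h.swd i) hfb hfc hfs (P := JP Uᶜ φ) h.tt.countable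
    (X := fun z => (F z).re) (y := fun z => (F z).im)
    (Complex.continuous_re.comp_continuousOn hFc) (Complex.continuous_im.comp_continuousOn hFc)
    (smv_re hU h hi hP i) hLY (c := fun n => cZ hE hP (c n))
    (fun n K => cZ_nonneg hE hP (hc0 n) K) hC
    (fun n => (cZ_sum hE hP hPw).trans (hcs n)) (b := fun n z => toC (g n) (F z)) ?_ ?_
    (M := ENNReal.ofReal M') ENNReal.ofReal_ne_top ?_ ?_ ?_
  · intro n
    exact (Ta_937.q_comp hE hF (reg_q (hg n))).loc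
  · intro z hz
    rw [notMem_compl_iff] at hz
    have h1 : ((F z).re, (F z).im) ∉ PE U F := fun hc => hc (mem_image_of_mem F hz)
    exact hlim _ h1
  · intro n
    rw [en_pull hE hF (hg n)]
    exact ENNReal.ofReal_le_ofReal (hen n)
  · intro n
    have hcnt := Dn_countable hE (hJ n)
    have h1 : ∀ᵐ t : ℝ, t ∉ (fun K : Cmp Uᶜ => Ni_459.up Uᶜ (fun z => x0 z + a i z) (Nip_31.pt K)) '' Dn hE (J n) :=
      (hcnt.image _).ae_notMem volume
    filter_upwards [h1] with t ht z hz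
    obtain ⟨⟨hzL, hzY⟩, hzS⟩ := hz
    set K : Cmp Uᶜ := Cmp.of hzY with hK
    have hzK : z ∈ K.1 := mem_connectedComponentIn hzY
    have h0 : osc Uᶜ φ K.1 = 0 := by
      by_contra hne
      exact hzS ⟨K.1, ⟨K, hne, rfl⟩, hzK⟩
    refine lipAt_flat hE (K := K) ((hwd K).symm.trans h0) (hSL n) ?_ _ hzK
    by_contra hd
    refine ht ⟨K, hd, ?_⟩
    have h2 := hHC K h0
    rw [← Nip_31.osp_eq h.hY (h.tta i), ← Nip_31.osp_x0 h.hx, Nip_31.osp] at h2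
    have hpt : Nip_31.pt K ∈ connectedComponentIn Uᶜ z := Nip_31.pt_mem K
    have h3 := up_congr_cc (u := fun z => x0 z + a i z) hzY hpt
    have h4 := lo_congr_cc (u := fun z => x0 z + a i z) hzY hpt
    have h5 := hzL.1
    have h6 := hzL.2
    show Ni_459.up Uᶜ (fun z => x0 z + a i z) (Nip_31.pt K) = t
    linarith
  · intro n
    filter_upwards [hAT] with t ht K hK hKL
    have hw := hPw K hK
    set Q := (Ta_937.solE hP).symm ⟨corE hE K, hw⟩ with hQ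
    have h1 : cZ hE hP (c n) K = c n Q.1 := by
      unfold cZ; rw [dif_pos hw]
    rw [h1]
    have h2 : Q.1.car ⊆ setR (corE hE K).1 := by
      have := Ta_937.car_solE hP Q
      rwa [hQ, Equiv.apply_symm_apply] at this
    refine chLe_sol hE (hg n).bdd (hch n Q.1 Q.2) fun δ hδ => ?_
    obtain ⟨O, hO, hPO, hH⟩ := ht Q.1 Q.2 (setR (corE hE K).1) (Ta_937.mem_comps.2 ⟨_, rfl⟩) h2 δ hδ
    exact ⟨O, hO, hPO, fun z hz hzL hzO => hH z hz hzO (eq_of_Lv h i hz hzL)⟩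

end

end Crest.Agent.R105.Nie_909
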