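import Crest.Agent.R105.Nie6_909
import Crest.Agent.R105.Nie7_909
import Crest.Agent.R105.Jcs2_895

/-!
# Row 105, S0138 (NI frame), node NIEP, part 8 (helper909): `PLAP` anchor by anchor
-/

set_option autoImplicit false

open MeasureTheory Set Filter Topology Metric
open scoped NNReal ENNReal

namespace Crest.Agent.R105.Nie_909

open Crest.AnalysisR Tc_808 Ni_459 Sqr_185 Ends_897 Plv_626
open Bd_775 (Q en)
open IfB_641 (X0)
open Cq_463 (Sqr QPic Ch TQ)
open CF_363 (Hair g2 SL CFJ CF cut mem_cut isClosed_cut isCompact_cut volume_cut)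
open Skp2_257 (Comps Reg)
open Tra_937 (setR setC toC Uni)
open Pct_185 (PicT Sol)
open Stp_722 (OscLe)
open Ta_937 (sqs hrs corE)
open SkA_8 (Pk)
open SkJ_987 (PE AdmP endMap TCont toComps toComps_inj)
open Psq_425 (PlaLim)

noncomputable section

variable {U : Set ℂ} {F : ℂ → ℂ} {x0 φ : ℂ → ℝ} {a : ℕ → ℂ → ℝ} {f : ℝ × ℝ → ℝ}

theorem bdd_toC {f : ℝ × ℝ → ℝ} (h : ∃ C : ℝ, ∀ p, |f p| ≤ C) : ∃ C : ℝ, ∀ z, |toC f z| ≤ C := by
  obtain ⟨C, hC⟩ := h
  exact ⟨C, fun z => hC _⟩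

theorem osc_tcont {E : Set ℂ} {o : Set (ℝ × ℝ) → ℝ} (hT : TCont (setR E) f o) (L : Cmp E) :
    osc E (toC f) L.1 ≤ o (setR L.1) := by
  have hm : setR L.1 ∈ Comps (setR E) := Ta_937.mem_comps.2 ⟨L, rfl⟩
  have h2 := hT.osc _ hm
  rw [← Tra_937.setR_compl, Ta_937.oscLe_toC] at h2
  have h3 := (Ta_937.osc_le_iff (U := Eᶜ) (bdd_toC hT.bdd) (hT.nn _ hm)).2 h2
  rwa [compl_compl] at h3

theorem sum_tcont {E : Set ℂ} {o : Set (ℝ × ℝ) → ℝ} (hT : TCont (setR E) f o) :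
    Summable fun L : Cmp E => osc E (toC f) L.1 ^ 2 := by
  have h1 : Summable fun L : Cmp E => o (setR L.1) ^ 2 := by
    have h2 := hT.sum.comp_injective (toComps_inj E)
    exact h2.congr fun L => rfl
  exact Summable.of_nonneg_of_le (fun _ => sq_nonneg _)
    (fun L => pow_le_pow_left₀ (osc_nonneg _ _ _) (osc_tcont hT L) 2) h1

/-- **`PLAP` for one anchor** (no `HCi` needed) -/
theorem plap_i (hU : IsExteriorDomain U) (h : Pk Uᶜ x0 a φ F) (hi : InjOn F U)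
    (hP : PicT (F '' U)ᶜ) (i : ℕ) (hLY : LYi U x0 φ (a i) F) (hHC : HCi U φ (a i))
    (hAT : ATNi U x0 (a i) F) {o : Set (ℝ × ℝ) → ℝ}
    (hL : PlaLim (PE U F) (sqs (F '' U)ᶜ) f) (hT : TCont (PE U F) f o) :
    NI Uᶜ (a i) (fun z => toC f (F z)) := by
  have hE := endMap h hU hi
  have hF := uni_of hU h hi hP
  have hQ := Ta_937.qPic hP
  obtain ⟨g, hLip, ⟨A, hA, hgA⟩, ⟨C, hC⟩, hlim, ⟨T, hTQ⟩⟩ := hL
  have hsub : ∀ K ∈ hrs (F '' U)ᶜ, K.car ⊆ PE U F := fun K hK => hK.1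
  have hcfj : ∀ n, CFJ (hrs (F '' U)ᶜ) univ (g n) := by
    intro n
    obtain ⟨L, hL⟩ := hLip n
    exact ⟨∅, fun K hK => absurd hK (Finset.notMem_empty K),
      CF_363.CF_of_lipschitz hL fun p _ => hC n p⟩
  have hS : ∀ m, Reg (PE U F) (g m) :=
    fun m => reg_cfj hsub (hcfj m) (HasCompactSupport.intro hA (hgA m)) ⟨C, hC m⟩
  choose M hM using hLip
  have hcut : cut (∅ : Finset Hair) ⊆ PE U F := by
    intro p hp
    obtain ⟨K, hK, -⟩ := mem_cut.1 hp
    exact absurd hK (Finset.notMem_empty K)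
  refine adm_seq hU h hi hP i hLY hHC hAT (g := g) (J := fun _ => ∅) (M := fun n => (M n : ℝ))
    (fun _ => hcut) (fun n => CF_363.SL_of_lipschitz (hM n)) hS hlim
    (c := fun n Q => Cq_463.ch (PE U F) univ (g n) Q) (fun n Q => Cq_463.ch_nonneg _ _ _ _)
    (C := ENNReal.ofReal T) ENNReal.ofReal_ne_top ?_ (fun n Q _ => le_rfl) (M' := T) ?_
    (LB.of_bdd ?_) ?_ ?_
  · intro n
    rw [← ENNReal.ofReal_tsum_of_nonneg (fun _ => sq_nonneg _)
      (Cq_463.summable_ch hQ convex_univ (hcfj n))]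
    exact ENNReal.ofReal_le_ofReal (le_trans Cq_463.Ch_le_TQ (hTQ n))
  · intro n
    have h1 := (Cq_463.En_le_TQ (E := PE U F) (W := univ) (𝒬 := sqs (F '' U)ᶜ) (f := g n)).trans
      (hTQ n)
    rw [← compl_eq_univ_sdiff] at h1
    exact h1
  · obtain ⟨C', hC'⟩ := hT.bdd
    exact ⟨C', fun z => hC' _⟩
  · intro z hz
    rw [notMem_compl_iff] at hz
    have hFc : ContinuousAt F z := by
      have := h.hol.continuousOn
      rw [compl_compl] at this
      exact this.continuousAt (hU.1.mem_nhds hz)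
    have hfc : ContinuousOn (toC f) (F '' U) := by
      have h1 : Continuous fun w : ℂ => (w.re, w.im) :=
        Complex.continuous_re.prodMk Complex.continuous_im
      have h2 := hT.cont.comp h1.continuousOn (s := F '' U) fun w hw hc => hc hw
      exact h2
    exact ContinuousAt.comp (g := toC f)
      (hfc.continuousAt (hE.hV.1.mem_nhds (mem_image_of_mem F hz))) hFc
  · have h1 : (fun K : Cmp Uᶜ => osc Uᶜ (toC f ∘ F) K.1 ^ 2)
        = (fun L : Cmp (F '' U)ᶜ => osc (F '' U)ᶜ (toC f) L.1 ^ 2) ∘ corE hE := by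
      funext K
      rw [Function.comp_apply, ← Ta_937.osc_comp hE]
    have h2 := (corE hE).summable_iff.2 (sum_tcont hT)
    rw [← h1] at h2
    exact h2

end

end Crest.Agent.R105.Nie_909
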