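import Crest.Agent.R105.Nod4_281

/-!
# Row 105, S0138 (NI frame), node E13, NO NODE, part 5 (helper281): input in `LimAt` form

`end_of_lim` : if `Im F` has the same limit `β0` at `K` (`osc φ K = 0`) along a.e. level between the
two values of the anchor, then the clause `H` of `hci_of` holds with `q = x_K + i β0`.
-/

set_option autoImplicit false

open MeasureTheory Set Filter Topology Metric
open scoped NNReal ENNReal

namespace Crest.Agent.R105.Nod_281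

open Crest.AnalysisR Tc_808 Ends_897 Plv_626 Nie_909
open Ni_459 (Lv)
open Bd_775 (Q en)
open IfB_641 (X0)
open Cq_463 (Sqr)
open Skp2_257 (Comps)
open Tra_937 (setR Uni)
open Pct_185 (PicT)
open Ta_937 (sqs corE)
open SkA_8 (Pk)
open SkJ_987 (PE endMap)
open Sqr_185 (SqK wd)

noncomputable section

variable {U : Set ℂ} {F : ℂ → ℂ} {x0 φ : ℂ → ℝ} {a : ℕ → ℂ → ℝ}

section
variable (hU : IsExteriorDomain U) (h : Pk Uᶜ x0 a φ F) (hi : InjOn F U) (hP : PicT (F '' U)ᶜ)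
include hU h hi hP

/-- a flat component lies on a vertical line -/
theorem re_flat (K : Cmp Uᶜ) (hK : osc Uᶜ φ K.1 = 0) :
    ∀ w ∈ (corE (endMap h hU hi) K).1, w.re = Sqr_185.lo (corE (endMap h hU hi) K).1 := by
  intro w hw
  have h1 : wd (corE (endMap h hU hi) K).1 = 0 := by
    rw [← osc_wd hU h hi hP K, hK]
  have hc := (corE (endMap h hU hi) K).isCompact hP.cpt
  have h2 := Sqr_185.lo_le hc hw
  have h3 := Sqr_185.le_hi hc hw
  unfold wd at h1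
  linarith

/-- points of the level near the component -/
theorem exists_lv (i : ℕ) {t : ℝ} (K : Cmp Uᶜ) {k : ℂ} (hk : k ∈ K.1)
    (ht : t ∈ Ioo (Ni_459.lo Uᶜ (fun z => x0 z + a i z) k)
      (Ni_459.up Uᶜ (fun z => x0 z + a i z) k)) {O : Set ℂ} (hO : IsOpen O) (hKO : K.1 ⊆ O) :
    ∃ z ∈ U, z ∈ O ∧ z ∈ Lv Uᶜ (fun z => x0 z + a i z) t ∧ x0 z + a i z = t := by
  have hAl : LocallyLipschitzOn Uᶜᶜ (fun z => x0 z + a i z) := Nip_31.ll_x0 h.hx (h.tta i)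
  have hAb := Nip_31.lb_x0 h.hx (h.tta i)
  have hkY : k ∈ Uᶜ := K.subset hk
  have hcc : K.1 = connectedComponentIn Uᶜ k := congrArg Subtype.val (K.eq_of_mem hk)
  obtain ⟨z, ⟨hzO, hzL⟩, hzY⟩ := exists_near_LN (Ni_459.cpt_of h.hY) (Lv_closed h.hY hAb t)
    (Uni_659.noIsland_nLv h.hY hAb (fun z hz => Nip_31.contAt h.hY hAl hz) (h.swd i) t)
    (z := k) ⟨ht.1.le, ht.2.le⟩ hkY hO (hcc ▸ hKO)
  have hc := Nip_31.contAt h.hY hAl hzY
  have h1 := Ni_459.up_of_notMem h.hY hAb hzY hc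
  have h2 := Ni_459.lo_of_notMem h.hY hAb hzY hc
  exact ⟨z, not_not.1 hzY, hzO, hzL, le_antisymm (h2 ▸ hzL.1) (h1 ▸ hzL.2)⟩

theorem end_of_lim (i : ℕ) (K : Cmp Uᶜ) (hK : osc Uᶜ φ K.1 = 0) (hne : osc Uᶜ (a i) K.1 ≠ 0)
    {k : ℂ} (hk : k ∈ K.1) {β0 : ℝ}
    (hend : ∀ᵐ t : ℝ, t ∈ Ioo (Ni_459.lo Uᶜ (fun z => x0 z + a i z) k)
      (Ni_459.up Uᶜ (fun z => x0 z + a i z) k) →
      LimAt Uᶜ (Lv Uᶜ (fun z => x0 z + a i z) t) (fun z => (F z).im) k β0) :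
    ∃ q ∈ (corE (endMap h hU hi) K).1, ∀ᵐ t : ℝ,
      t ∈ Ioo (Ni_459.lo Uᶜ (fun z => x0 z + a i z) k)
        (Ni_459.up Uᶜ (fun z => x0 z + a i z) k) →
      ∀ ε > 0, ∃ z ∈ U, x0 z + a i z = t ∧ ‖F z - q‖ < ε := by
  have hE := endMap h hU hi
  set L := corE (endMap h hU hi) K with hL
  set q : ℂ := ⟨Sqr_185.lo L.1, β0⟩ with hq
  have hkY : k ∈ Uᶜ := K.subset hk
  have hcc : K.1 = connectedComponentIn Uᶜ k := congrArg Subtype.val (K.eq_of_mem hk)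
  have hAb := Nip_31.lb_x0 h.hx (h.tta i)
  -- the basic step
  have key : ∀ t : ℝ, t ∈ Ioo (Ni_459.lo Uᶜ (fun z => x0 z + a i z) k)
        (Ni_459.up Uᶜ (fun z => x0 z + a i z) k) →
      LimAt Uᶜ (Lv Uᶜ (fun z => x0 z + a i z) t) (fun z => (F z).im) k β0 →
      ∀ ε > 0, ∀ O', IsOpen O' → K.1 ⊆ O' → ∃ z ∈ U, z ∈ O' ∧ x0 z + a i z = t ∧
        ‖F z - q‖ < ε := by
    intro t ht hlim ε hε O' hO' hKO'
    obtain ⟨O1, hO1, hKO1, h1⟩ := hlim (ε / 2) (half_pos hε)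
    have hOo : IsOpen {w : ℂ | |w.re - Sqr_185.lo L.1| < ε / 2} :=
      isOpen_lt ((Complex.continuous_re.sub continuous_const).abs) continuous_const
    obtain ⟨O2, hO2, hKO2, h2⟩ := Ta_937.exists_nhd_pull hE K hOo (fun w hw => by
      have := re_flat hU h hi hP K hK w hw
      simp only [mem_ofPred_eq]
      rw [this, sub_self, abs_zero]
      exact half_pos hε)
    obtain ⟨z, hzU, hzO, hzL, hzt⟩ := exists_lv hU h hi hP i K hk ht
      ((hO1.inter hO2).inter hO') (subset_inter (subset_inter (hcc ▸ hKO1) hKO2) hKO')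
    refine ⟨z, hzU, hzO.2, hzt, ?_⟩
    have h3 := h1 z ⟨⟨hzO.1.1, hzL⟩, not_not.2 hzU⟩
    have h4 : |(F z).re - Sqr_185.lo L.1| < ε / 2 := h2 z hzO.1.2 hzU
    have h5 := Complex.norm_le_abs_re_add_abs_im (F z - q)
    simp only [Complex.sub_re, Complex.sub_im, hq] at h5
    linarith
  refine ⟨q, ?_, ?_⟩
  · -- one good level
    have h4 : osc Uᶜ (a i) K.1 = Ni_459.up Uᶜ (fun z => x0 z + a i z) k -
        Ni_459.lo Uᶜ (fun z => x0 z + a i z) k := by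
      rw [hcc, Ni_459.osc_eq h.hY (h.tta i).q.bdd hkY, Nip_31.lo_x0 h.hx hkY,
        Nip_31.up_x0 h.hx hkY]
    have h5 : Ni_459.lo Uᶜ (fun z => x0 z + a i z) k < Ni_459.up Uᶜ (fun z => x0 z + a i z) k := by
      have := Ni_459.lo_le_up h.hY hAb k
      refine lt_of_le_of_ne this fun hh => hne ?_
      rw [h4, hh, sub_self]
    have h6 : volume (Ioo (Ni_459.lo Uᶜ (fun z => x0 z + a i z) k)
        (Ni_459.up Uᶜ (fun z => x0 z + a i z) k)) ≠ 0 := by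
      rw [Real.volume_Ioo, Ne, ENNReal.ofReal_eq_zero, not_le]
      linarith
    have h9 : ∃ᶠ t in ae (volume : Measure ℝ), t ∈ Ioo (Ni_459.lo Uᶜ (fun z => x0 z + a i z) k)
        (Ni_459.up Uᶜ (fun z => x0 z + a i z) k) := by
      rw [frequently_ae_iff]
      exact h6
    obtain ⟨t, ht, hlim⟩ := (h9.and_eventually hend).exists
    have hLc := L.isCompact hP.cpt
    by_contra hqL
    obtain ⟨d, hd, hd2⟩ := Metric.isOpen_iff.1 hLc.isClosed.isOpen_compl q hqL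
    obtain ⟨O', hO', hKO', h7⟩ := Ta_937.exists_nhd_pull hE K
      (isOpen_thickening (δ := d / 2) (E := L.1)) (self_subset_thickening (half_pos hd) _)
    obtain ⟨z, hzU, hzO', -, hz⟩ := key t ht (hlim ht) (d / 2) (half_pos hd) O' hO' hKO'
    obtain ⟨p, hp, hpd⟩ := mem_thickening_iff.1 (h7 z hzO' hzU)
    have h8 : dist p q < d := by
      calc dist p q ≤ dist (F z) p + dist (F z) q := dist_triangle_left _ _ _
        _ < d / 2 + d / 2 := add_lt_add hpd (by rw [dist_eq_norm]; exact hz)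
        _ = d := add_halves d
    exact hd2 (mem_ball.2 h8) hp
  · filter_upwards [hend] with t ht ht' ε hε
    obtain ⟨z, hzU, -, hzt, hz⟩ := key t ht' (ht ht') ε hε univ isOpen_univ (subset_univ _)
    exact ⟨z, hzU, hzt, hz⟩

/-- `HCi` from `LimAt` -/
theorem hci_of_lim (i : ℕ) (hL : LYi U x0 φ (a i) F) (hA : ATNi U x0 (a i) F)
    (H : ∀ K : Cmp Uᶜ, osc Uᶜ φ K.1 = 0 → osc Uᶜ (a i) K.1 ≠ 0 →
      ∃ k ∈ K.1, ∃ β0 : ℝ, ∀ᵐ t : ℝ, t ∈ Ioo (Ni_459.lo Uᶜ (fun z => x0 z + a i z) k)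
          (Ni_459.up Uᶜ (fun z => x0 z + a i z) k) →
          LimAt Uᶜ (Lv Uᶜ (fun z => x0 z + a i z) t) (fun z => (F z).im) k β0) :
    HCi U φ (a i) := by
  refine hci_of hU h hi hP i hL hA fun K hK hne => ?_
  obtain ⟨k, hk, β0, hend⟩ := H K hK hne
  obtain ⟨q, hq, hq2⟩ := end_of_lim hU h hi hP i K hK hne hk hend
  exact ⟨k, hk, q, hq, hq2⟩

end

end

end Crest.Agent.R105.Nod_281
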