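import Crest.Agent.R105.Plv2_626
import Crest.Agent.R105.Uni2_659

/-!
# Row 105, S0138, NI frame: LINK 2 of 444 #10384, part 3 (helper626)

The theorems of Plv1, Plv2 with 659's `NoIsland L` instead of "connected and unbounded": nothing is
needed at infinity (anchors without compact support).
-/

set_option autoImplicit false

open MeasureTheory Set Filter Topology Metric
open scoped NNReal ENNReal

namespace Crest.Agent.R105.Plv_626

open Thin_12 Sl_732

variable {E L S' C W : Set ℂ} {S : Set (Set ℂ)} {b x y : ℂ → ℝ}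

/-- **SLICES, variation form**, limits along `L` only. -/
theorem null_of_varN' (hE : IsCompact E) (hL : IsClosed L) (hLn : Uni_659.NoIsland L)
    (sat : Sat E L) (μ : Measure ℂ) [SigmaFinite μ]
    (pos : ∀ C ⊆ L \ E, IsCompact C → IsPreconnected C → C.Nontrivial → μ C ≠ 0)
    {G : Set ℂ} (hGL : G ⊆ L ∩ E) (hGs : Sat E G)
    {β : ℂ → ℝ} (hb : ∀ z ∈ G, LimAt E L b z (β z))
    (hvar : ∀ η > 0, ∃ W, IsOpen W ∧ G ⊆ W ∧ VarLe E L W b η) :
    volume (β '' G) = 0 := by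
  classical
  have hGE : G ⊆ E := fun z hz => (hGL hz).2
  refine le_antisymm (ENNReal.le_of_forall_pos_le_add fun η hη _ => ?_) zero_le
  rw [zero_add]
  obtain ⟨W, hWo, hGW, hWv⟩ := hvar η (by exact_mod_cast hη)
  have hN : ∀ z ∈ G, ∃ N, IsOpen N ∧ connectedComponentIn E z ⊆ N ∧ closure N ⊆ W ∧
      IsCompact (closure N) ∧ Disjoint (frontier N) E := fun z hz =>
    thin_nhd hE (hGE hz) hWo ((hGs z hz (hGE hz)).trans hGW)
  choose! N hNo hzN hNW hNc hNf using hN
  have hzN' : ∀ z ∈ G, z ∈ N z := fun z hz => hzN z hz (mem_connectedComponentIn (hGE hz))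
  obtain ⟨T, hTG, hTc, hTcov⟩ := TopologicalSpace.countable_cover_nhdsWithin
    (s := G) (f := N) (fun z hz => mem_nhdsWithin_of_mem_nhds ((hNo z hz).mem_nhds (hzN' z hz)))
  rcases T.eq_empty_or_nonempty with hTe | hTne
  · have hGe : G = ∅ := by
      rw [hTe] at hTcov
      simpa using hTcov
    rw [hGe]; simp
  obtain ⟨e, he⟩ := hTc.exists_eq_range hTne
  have heG : ∀ n, e n ∈ G := fun n => hTG (by rw [he]; exact mem_range_self n)
  set O : ℕ → Set ℂ := fun k => ⋃ n ∈ Finset.range k, N (e n) with hO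
  set V : ℕ → Set ℂ := fun k => ⋃ n ∈ Finset.range k, closure (N (e n)) with hV
  have hOV : ∀ k, O k ⊆ interior (V k) := by
    intro k
    refine interior_maximal ?_ (isOpen_biUnion fun n _ => hNo _ (heG n))
    exact iUnion₂_mono fun n _ => subset_closure
  have hVc : ∀ k, IsCompact (V k) := fun k =>
    (Finset.range k).isCompact_biUnion fun n _ => hNc _ (heG n)
  have hVW : ∀ k, V k ⊆ W := fun k => iUnion₂_subset fun n _ => hNW _ (heG n)
  have hVf : ∀ k, Disjoint (frontier (V k)) E := by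
    intro k
    rw [disjoint_left]
    intro z hz hzE
    rw [(hVc k).isClosed.frontier_eq] at hz
    obtain ⟨n, hn, hzn⟩ := mem_iUnion₂.1 hz.1
    have h1 : z ∉ N (e n) := fun h => hz.2 (hOV k (mem_iUnion₂.2 ⟨n, hn, h⟩))
    have h2 : z ∈ frontier (N (e n)) := by
      rw [(hNo _ (heG n)).frontier_eq]; exact ⟨hzn, h1⟩
    exact disjoint_left.1 (hNf _ (heG n)) h2 hzE
  have hmono : Monotone O := fun k l hkl =>
    biUnion_subset_biUnion_left (by
      intro n hn
      simp only [Finset.coe_range, Set.mem_Iio] at hn ⊢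
      exact lt_of_lt_of_le hn hkl)
  have hcov : G ⊆ ⋃ k, O k := by
    intro z hz
    obtain ⟨x, hx, hzx⟩ := mem_iUnion₂.1 (hTcov hz)
    rw [he] at hx
    obtain ⟨n, rfl⟩ := hx
    exact mem_iUnion.2 ⟨n + 1, mem_iUnion₂.2 ⟨n, by simp, hzx⟩⟩
  -- one stage
  have stage : ∀ k, volume (β '' (G ∩ O k)) ≤ η := by
    intro k
    set K : Set ℂ := L ∩ V k with hK
    have hKc : IsCompact K := (hVc k).inter_left hL
    -- the classes
    set ι : Type := {C : Set ℂ // ∃ z ∈ G ∩ O k, C = connectedComponentIn K z} with hι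
    have hmem : ∀ z ∈ G ∩ O k, z ∈ K := fun z hz =>
      ⟨(hGL hz.1).1, interior_subset (hOV k hz.2)⟩
    have hCc : ∀ C : ι, IsCompact C.1 := by
      rintro ⟨C, z, hz, rfl⟩
      exact isCompact_cc hKc z
    have hCp : ∀ C : ι, IsPreconnected C.1 := by
      rintro ⟨C, z, hz, rfl⟩
      exact isPreconnected_connectedComponentIn
    have hCL : ∀ C : ι, C.1 ⊆ L := by
      rintro ⟨C, z, hz, rfl⟩
      exact (connectedComponentIn_subset _ _).trans inter_subset_left
    have hCV : ∀ C : ι, C.1 ⊆ V k := by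
      rintro ⟨C, z, hz, rfl⟩
      exact (connectedComponentIn_subset _ _).trans inter_subset_right
    have hCU : ∀ C : ι, (C.1 \ E).Nonempty := by
      rintro ⟨C, z, hz, rfl⟩
      obtain ⟨p, hp1, hp2⟩ := Uni_659.comp_meets hL hLn (hVc k) (hGL hz.1).1 (hmem z hz).2
      exact ⟨p, hp1, disjoint_left.1 (hVf k) hp2⟩
    have hCs : ∀ C : ι, Sat E C.1 := by
      rintro ⟨C, z, hz, rfl⟩ w hw hwE
      have hwK : w ∈ K := connectedComponentIn_subset _ _ hw
      have h1 : connectedComponentIn E w ⊆ K := fun x hx =>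
        ⟨sat w hwK.1 hwE hx, interior_subset (cc_subset_interior (hVf k) hwE hwK.2 hx)⟩
      change connectedComponentIn E w ⊆ connectedComponentIn K z
      rw [connectedComponentIn_eq (show w ∈ connectedComponentIn K z from hw)]
      exact isPreconnected_connectedComponentIn.subset_connectedComponentIn
        (mem_connectedComponentIn hwE) h1
    have hCd : Pairwise (Function.onFun Disjoint fun C : ι => C.1) := by
      rintro ⟨C, z, hz, rfl⟩ ⟨D, w, hw, rfl⟩ hne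
      rw [Function.onFun, disjoint_left]
      intro x hx1 hx2
      apply hne
      apply Subtype.ext
      change connectedComponentIn K z = connectedComponentIn K w
      rw [connectedComponentIn_eq hx1, connectedComponentIn_eq hx2]
    -- countably many
    have hcount : Countable ι := by
      have h1 := Measure.countable_meas_pos_of_disjoint_iUnion (μ := μ)
        (As := fun C : ι => C.1 \ E)
        (fun C => (hCc C).isClosed.measurableSet.diff hE.isClosed.measurableSet)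
        (fun C D hCD => (hCd hCD).mono sdiff_subset sdiff_subset)
      have h2 : {C : ι | 0 < μ (C.1 \ E)} = univ := by
        refine eq_univ_of_forall fun C => ?_
        obtain ⟨z, hz, hC⟩ := C.2
        obtain ⟨C', hC', h3, h4, h5⟩ := exists_sub hE (hCc C) (hCp C) (hCU C) (z := z)
          (by rw [hC]; exact mem_connectedComponentIn (hmem z hz)) (hGE hz.1)
        have h6 := pos C' (hC'.trans (sdiff_subset_sdiff_left (hCL C))) h3 h4 h5
        exact (pos_iff_ne_zero.2 h6).trans_le (measure_mono hC')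
      rw [h2] at h1
      exact countable_univ_iff.1 h1
    have hsub : β '' (G ∩ O k) ⊆ ⋃ C : ι, β '' (C.1 ∩ G) := by
      rintro _ ⟨z, hz, rfl⟩
      exact mem_iUnion.2 ⟨⟨_, z, hz, rfl⟩, z,
        ⟨mem_connectedComponentIn (hmem z hz), hz.1⟩, rfl⟩
    refine (measure_mono hsub).trans ((measure_iUnion_le _).trans ?_)
    rw [ENNReal.tsum_eq_iSup_sum]
    refine iSup_le fun F => ?_
    have hH : ∀ C : ι, ∀ p ∈ C.1 \ E, ∀ q ∈ C.1 \ E, |b p - b q| ≤ η := fun C p hp q hq =>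
      hWv.one ⟨hCc C, hCp C, hCs C, subset_inter (hCL C) ((hCV C).trans (hVW k)), hp, hq⟩
    have key : ∀ ε > 0, ∑ C ∈ F, volume (β '' (C.1 ∩ G)) ≤ ENNReal.ofReal (η + F.card * ε) := by
      intro ε hε
      have h3 : ∀ C : ι, ∃ p q : ℂ, p ∈ C.1 \ E ∧ q ∈ C.1 \ E ∧
          volume (β '' (C.1 ∩ G)) ≤ ENNReal.ofReal (|b p - b q| + ε) := by
        intro C
        obtain ⟨p, hp, q, hq, h⟩ := osc_class' hE (hCc C) (hCp C) (hCU C) (hCL C) hGE hb (hH C) hε
        exact ⟨p, q, hp, hq, h⟩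
      choose p q hp hq hpq using h3
      set P : Set ℂ → ℂ := fun C => if h : ∃ z ∈ G ∩ O k, C = connectedComponentIn K z then
        p ⟨C, h⟩ else 0 with hP
      set Q : Set ℂ → ℂ := fun C => if h : ∃ z ∈ G ∩ O k, C = connectedComponentIn K z then
        q ⟨C, h⟩ else 0 with hQ
      have hPv : ∀ C : ι, P C.1 = p C := fun C => (dif_pos C.2).trans rfl
      have hQv : ∀ C : ι, Q C.1 = q C := fun C => (dif_pos C.2).trans rfl
      have h4 := hWv (F.map (Function.Embedding.subtype _)) P Q (by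
        intro C hC
        obtain ⟨D, hD, rfl⟩ := Finset.mem_map.1 hC
        rw [Function.Embedding.subtype_apply, hPv, hQv]
        exact ⟨hCc D, hCp D, hCs D, subset_inter (hCL D) ((hCV D).trans (hVW k)), hp D, hq D⟩)
        (by
          intro C hC D hD hne
          obtain ⟨C', hC', rfl⟩ := Finset.mem_map.1 hC
          obtain ⟨D', hD', rfl⟩ := Finset.mem_map.1 hD
          exact hCd (fun h => hne (by rw [h])))
      rw [Finset.sum_map] at h4
      simp only [Function.Embedding.subtype_apply, hPv, hQv] at h4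
      calc ∑ C ∈ F, volume (β '' (C.1 ∩ G)) ≤ ∑ C ∈ F, ENNReal.ofReal (|b (p C) - b (q C)| + ε) :=
            Finset.sum_le_sum fun C _ => hpq C
        _ = ENNReal.ofReal (∑ C ∈ F, (|b (p C) - b (q C)| + ε)) :=
            (ENNReal.ofReal_sum_of_nonneg fun C _ => by positivity).symm
        _ ≤ ENNReal.ofReal (η + F.card * ε) := by
            refine ENNReal.ofReal_le_ofReal ?_
            rw [Finset.sum_add_distrib, Finset.sum_const, nsmul_eq_mul]
            linarith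
    have h5 : Tendsto (fun ε : ℝ => ENNReal.ofReal ((η : ℝ) + F.card * ε)) (𝓝[>] 0)
        (𝓝 (ENNReal.ofReal ((η : ℝ) + F.card * 0))) :=
      (ENNReal.continuous_ofReal.tendsto _).comp
        (tendsto_nhdsWithin_of_tendsto_nhds (Continuous.tendsto (by fun_prop) _))
    rw [mul_zero, add_zero, ENNReal.ofReal_coe_nnreal] at h5
    exact ge_of_tendsto h5 (eventually_nhdsWithin_of_forall fun ε hε => key ε hε)
  have h1 : β '' G = ⋃ k, β '' (G ∩ O k) := by
    rw [← image_iUnion, ← inter_iUnion, inter_eq_left.2 hcov]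
  have h2 : Monotone fun k => β '' (G ∩ O k) := fun k l hkl =>
    image_mono (inter_subset_inter_right _ (hmono hkl))
  rw [h1, h2.directed_le.measure_iUnion]
  exact iSup_le stage


/-- **(Y') : limits along `L`**, Cauchy form -/
theorem lim_alongN (hE : IsCompact E) (hL : IsClosed L) (hLn : Uni_659.NoIsland L)
    (sat : Sat E L) {x : ℂ → ℝ} (hx : ContinuousOn x Eᶜ) {z : ℂ}
    (hzL : z ∈ L) (hzE : z ∈ E)
    (hvar : ∀ η > 0, ∃ W, IsOpen W ∧ connectedComponentIn E z ⊆ W ∧ VarLe E L W x η) {δ : ℝ}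
    (hδ : 0 < δ) : ∃ O, IsOpen O ∧ connectedComponentIn E z ⊆ O ∧
      ∀ p ∈ (O ∩ L) \ E, ∀ q ∈ (O ∩ L) \ E, |x p - x q| ≤ δ := by
  have hEo : IsOpen Eᶜ := hE.isClosed.isOpen_compl
  obtain ⟨W, hWo, hzW, hW⟩ := hvar (δ / 6) (by positivity)
  obtain ⟨N, hNo, hzN, hNW, hNc, hNf⟩ := thin_nhd hE hzE hWo hzW
  set K : Set ℂ := L ∩ closure N with hK
  have hKc : IsCompact K := hNc.inter_left hL
  have hfr : Disjoint (frontier (closure N)) E := hNf.mono_left frontier_closure_subset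
  have hzN' : z ∈ N := hzN (mem_connectedComponentIn hzE)
  have hzK : z ∈ K := ⟨hzL, subset_closure hzN'⟩
  -- the pieces
  have hbump : ∀ w ∈ K, (connectedComponentIn K w ∩ frontier (closure N)).Nonempty := fun w hw =>
    Uni_659.comp_meets hL hLn hNc hw.1 hw.2
  have hpiece : ∀ w ∈ K, ∀ p ∈ connectedComponentIn K w \ E, ∀ q ∈ connectedComponentIn K w \ E,
      |x p - x q| ≤ δ / 6 := by
    intro w hw p hp q hq
    refine hW.one (C := connectedComponentIn K w) ⟨isCompact_cc hKc w,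
      isPreconnected_connectedComponentIn, ?_, ?_, hp, hq⟩
    · intro v hv hvE
      have hvK : v ∈ K := connectedComponentIn_subset _ _ hv
      have h1 : connectedComponentIn E v ⊆ K := fun u hu =>
        ⟨sat v hvK.1 hvE hu, interior_subset (cc_subset_interior hfr hvE hvK.2 hu)⟩
      rw [connectedComponentIn_eq hv]
      exact isPreconnected_connectedComponentIn.subset_connectedComponentIn
        (mem_connectedComponentIn hvE) h1
    · exact fun v hv => ⟨(connectedComponentIn_subset _ _ hv).1,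
        hNW (connectedComponentIn_subset _ _ hv).2⟩
  obtain ⟨e₀, he₀, he₀f⟩ := hbump z hzK
  have he₀E : e₀ ∉ E := disjoint_left.1 hfr he₀f
  -- the open set `O₁`
  set O₁ : Set ℂ := {e | e ∈ Eᶜ ∧ |x e - x e₀| < 2 * (δ / 6)} with hO₁
  have hO₁o : IsOpen O₁ := by
    have h1 : ContinuousOn (fun e => |x e - x e₀|) Eᶜ := (hx.sub continuousOn_const).abs
    have h2 := h1.isOpen_inter_preimage hEo (isOpen_Iio (a := 2 * (δ / 6)))
    exact h2
  have hP : IsOpen (O₁ ∪ (frontier (closure N))ᶜ) := hO₁o.union isClosed_frontier.isOpen_compl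
  have hMP : connectedComponentIn K z ⊆ O₁ ∪ (frontier (closure N))ᶜ := by
    intro e he
    by_cases hef : e ∈ frontier (closure N)
    · have heE : e ∉ E := disjoint_left.1 hfr hef
      refine Or.inl ⟨heE, ?_⟩
      have := hpiece z hzK e ⟨he, heE⟩ e₀ ⟨he₀, he₀E⟩
      linarith
    · exact Or.inr hef
  obtain ⟨K₁, h1, h2, h1K, hCK, hKP⟩ := exists_clopen hKc hzK hP hMP
  have hzK₁ : connectedComponentIn E z ⊆ K₁ := by
    refine subset_trans ?_ hCK
    refine isPreconnected_connectedComponentIn.subset_connectedComponentIn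
      (mem_connectedComponentIn hzE) fun u hu => ⟨sat z hzL hzE hu, subset_closure (hzN hu)⟩
  refine ⟨N \ (K \ K₁), hNo.sdiff h2.isClosed, fun u hu => ⟨hzN hu, fun h => h.2 (hzK₁ hu)⟩, ?_⟩
  have main : ∀ p ∈ ((N \ (K \ K₁)) ∩ L) \ E, |x p - x e₀| < 3 * (δ / 6) := by
    rintro p ⟨⟨⟨hpN, hpK₁⟩, hpL⟩, hpE⟩
    have hpK : p ∈ K := ⟨hpL, subset_closure hpN⟩
    have hpK1 : p ∈ K₁ := by
      by_contra h
      exact hpK₁ ⟨hpK, h⟩
    obtain ⟨e, he, hef⟩ := hbump p hpK
    have heE : e ∉ E := disjoint_left.1 hfr hef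
    have heK₁ : e ∈ K₁ := by
      have hpre : IsPreconnected (connectedComponentIn K p) := isPreconnected_connectedComponentIn
      have hsub : connectedComponentIn K p ⊆ K₁ := by
        refine (isPreconnected_iff_subset_of_disjoint_closed.1 hpre K₁ (K \ K₁) h1.isClosed
          h2.isClosed (fun u hu => ?_) ?_).resolve_right fun hsub => ?_
        · by_cases hu1 : u ∈ K₁
          · exact Or.inl hu1
          · exact Or.inr ⟨connectedComponentIn_subset _ _ hu, hu1⟩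
        · ext u; simp only [mem_inter_iff, mem_empty_iff_false, iff_false]
          rintro ⟨-, hu, -, hu'⟩; exact hu' hu
        · exact (hsub (mem_connectedComponentIn hpK)).2 hpK1
      exact hsub he
    have h3 := hpiece p hpK p ⟨mem_connectedComponentIn hpK, hpE⟩ e ⟨he, heE⟩
    have h4 : |x e - x e₀| < 2 * (δ / 6) := by
      rcases hKP heK₁ with h | h
      · exact h.2
      · exact absurd hef h
    calc |x p - x e₀| ≤ |x p - x e| + |x e - x e₀| := abs_sub_le _ _ _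
      _ < 3 * (δ / 6) := by linarith
  intro p hp q hq
  have h3 := main p hp
  have h4 := main q hq
  rw [abs_sub_comm] at h4
  have := abs_sub_le (x p) (x e₀) (x q)
  linarith

/-- points of `L` off `E` near the component of `z` -/
theorem exists_near_LN (hE : IsCompact E) (hL : IsClosed L) (hLn : Uni_659.NoIsland L)
    {z : ℂ} (hzL : z ∈ L) (hzE : z ∈ E) {O : Set ℂ}
    (hO : IsOpen O) (hzO : connectedComponentIn E z ⊆ O) : ∃ p, p ∈ (O ∩ L) \ E := by
  obtain ⟨N, hNo, hzN, hNO, hNc, hNf⟩ := thin_nhd hE hzE hO hzO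
  obtain ⟨p, hp1, hp2⟩ := Uni_659.comp_meets hL hLn hNc hzL
    (subset_closure (hzN (mem_connectedComponentIn hzE)))
  have hp3 : p ∈ L ∩ closure N := connectedComponentIn_subset _ _ hp1
  exact ⟨p, ⟨hNO hp3.2, hp3.1⟩, disjoint_left.1 hNf (frontier_closure_subset hp2)⟩

/-- **(Y')** existence of the limit -/
theorem exists_limN (hE : IsCompact E) (hL : IsClosed L) (hLn : Uni_659.NoIsland L)
    {x : ℂ → ℝ} {z : ℂ} (hzL : z ∈ L) (hzE : z ∈ E)
    (h : ∀ δ > 0, ∃ O, IsOpen O ∧ connectedComponentIn E z ⊆ O ∧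
      ∀ p ∈ (O ∩ L) \ E, ∀ q ∈ (O ∩ L) \ E, |x p - x q| ≤ δ) : ∃ β, LimAt E L x z β := by
  set f : Filter ℂ := 𝓝ˢ (connectedComponentIn E z) ⊓ 𝓟 (L \ E) with hf
  have hmem : ∀ O, IsOpen O → connectedComponentIn E z ⊆ O → (O ∩ L) \ E ∈ f := by
    intro O hO hzO
    rw [inter_sdiff_assoc]
    exact inter_mem_inf (hO.mem_nhdsSet.2 hzO) (mem_principal_self _)
  have hfne : f.NeBot := by
    rw [hf, inf_neBot_iff]
    intro s hs t ht
    obtain ⟨O, hO, hzO, hOs⟩ := mem_nhdsSet_iff_exists.1 hs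
    obtain ⟨p, hp⟩ := exists_near_LN hE hL hLn hzL hzE hO hzO
    exact ⟨p, hOs hp.1.1, (mem_principal.1 ht) ⟨hp.1.2, hp.2⟩⟩
  have hC : Cauchy (f.map x) := by
    rw [Metric.cauchy_iff]
    refine ⟨hfne.map x, fun ε hε => ?_⟩
    obtain ⟨O, hO, hzO, h1⟩ := h (ε / 2) (half_pos hε)
    refine ⟨x '' ((O ∩ L) \ E), image_mem_map (hmem O hO hzO), ?_⟩
    rintro _ ⟨p, hp, rfl⟩ _ ⟨q, hq, rfl⟩
    rw [Real.dist_eq]
    linarith [h1 p hp q hq]
  obtain ⟨β, hβ⟩ := CompleteSpace.complete hC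
  refine ⟨β, fun δ hδ => ?_⟩
  have h1 : ∀ᶠ w in f, |x w - β| < δ := by
    have := (show Tendsto x f (𝓝 β) from hβ).eventually (Metric.ball_mem_nhds β hδ)
    filter_upwards [this] with w hw
    simpa [Real.dist_eq] using hw
  rw [hf, eventually_inf_principal, eventually_nhdsSet_iff_exists] at h1
  obtain ⟨O, hO, hzO, hOb⟩ := h1
  exact ⟨O, hO, hzO, fun w hw => hOb w hw.1.1 ⟨hw.1.2, hw.2⟩⟩

/-- limits of `b` along `L` at the uncharged components -/
theorem exists_betaN (hE : IsCompact E) (hL : IsClosed L) (hLn : Uni_659.NoIsland L)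
    (sat : Sat E L)
    (hSE : ∀ K ∈ S, ∃ z ∈ E, K = connectedComponentIn E z)
    (hx : ContinuousOn x Eᶜ) (hy : ContinuousOn y Eᶜ) (hvx : SmV E L S x) (hvy : SmV E L S y)
    (hlip : ∀ z ∈ (L ∩ E) \ ⋃₀ S, LipAt E L x y b z) :
    ∃ β : ℂ → ℝ, ∀ z ∈ (L ∩ E) \ ⋃₀ S, LimAt E L b z (β z) := by
  have h : ∀ z ∈ (L ∩ E) \ ⋃₀ S, ∃ β, LimAt E L b z β := by
    intro z hz
    have hsat := sat_rest hSE sat
    have hzG : connectedComponentIn E z ⊆ (L ∩ E) \ ⋃₀ S := hsat z hz hz.1.2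
    have hX : ∀ η > 0, ∃ W, IsOpen W ∧ connectedComponentIn E z ⊆ W ∧ VarLe E L W x η :=
      fun η hη => (hvx η hη).imp fun W h => ⟨h.1, hzG.trans h.2.1, h.2.2⟩
    have hY : ∀ η > 0, ∃ W, IsOpen W ∧ connectedComponentIn E z ⊆ W ∧ VarLe E L W y η :=
      fun η hη => (hvy η hη).imp fun W h => ⟨h.1, hzG.trans h.2.1, h.2.2⟩
    obtain ⟨O, M, hO, hzO, hM⟩ := hlip z hz
    refine exists_limN hE hL hLn hz.1.1 hz.1.2 fun δ hδ => ?_
    have hM1 : 0 < 2 * (|M| + 1) := by positivity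
    obtain ⟨O₁, hO₁, hzO₁, h1⟩ := lim_alongN hE hL hLn sat hx hz.1.1 hz.1.2 hX
      (show 0 < δ / (2 * (|M| + 1)) by positivity)
    obtain ⟨O₂, hO₂, hzO₂, h2⟩ := lim_alongN hE hL hLn sat hy hz.1.1 hz.1.2 hY
      (show 0 < δ / (2 * (|M| + 1)) by positivity)
    refine ⟨O ∩ (O₁ ∩ O₂), hO.inter (hO₁.inter hO₂), subset_inter hzO (subset_inter hzO₁ hzO₂),
      fun p hp q hq => ?_⟩
    have h3 := hM p ⟨⟨hp.1.1.1, hp.1.2⟩, hp.2⟩ q ⟨⟨hq.1.1.1, hq.1.2⟩, hq.2⟩
    have h4 := h1 p ⟨⟨hp.1.1.2.1, hp.1.2⟩, hp.2⟩ q ⟨⟨hq.1.1.2.1, hq.1.2⟩, hq.2⟩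
    have h5 := h2 p ⟨⟨hp.1.1.2.2, hp.1.2⟩, hp.2⟩ q ⟨⟨hq.1.1.2.2, hq.1.2⟩, hq.2⟩
    calc |b p - b q| ≤ M * (|x p - x q| + |y p - y q|) := h3
      _ ≤ (|M| + 1) * (|x p - x q| + |y p - y q|) :=
          mul_le_mul_of_nonneg_right (by linarith [le_abs_self M]) (by positivity)
      _ ≤ (|M| + 1) * (δ / (2 * (|M| + 1)) + δ / (2 * (|M| + 1))) :=
          mul_le_mul_of_nonneg_left (add_le_add h4 h5) (by positivity)
      _ = δ := by field_simp; ring
  choose! β hβ using h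
  exact ⟨β, hβ⟩

/-- the limit values are null -/
theorem beta_nullN (hE : IsCompact E) (hL : IsClosed L) (hLn : Uni_659.NoIsland L)
    (sat : Sat E L) (μ : Measure ℂ) [SigmaFinite μ]
    (pos : ∀ C ⊆ L \ E, IsCompact C → IsPreconnected C → C.Nontrivial → μ C ≠ 0)
    (hSE : ∀ K ∈ S, ∃ z ∈ E, K = connectedComponentIn E z)
    (hvx : SmV E L S x) (hvy : SmV E L S y)
    (hlip : ∀ z ∈ (L ∩ E) \ ⋃₀ S, LipAt E L x y b z)
    {β : ℂ → ℝ} (hβ : ∀ z ∈ (L ∩ E) \ ⋃₀ S, LimAt E L b z (β z)) :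
    volume (β '' ((L ∩ E) \ ⋃₀ S)) = 0 := by
  set G : Set ℂ := (L ∩ E) \ ⋃₀ S with hG
  have hGs : Sat E G := sat_rest hSE sat
  have hGE : G ⊆ E := fun z hz => hz.1.2
  choose! O M hO hzO hM using hlip
  have hN : ∀ z ∈ G, ∃ N, IsOpen N ∧ connectedComponentIn E z ⊆ N ∧ closure N ⊆ O z ∧
      IsCompact (closure N) ∧ Disjoint (frontier N) E := fun z hz =>
    thin_nhd hE (hGE hz) (hO z hz) (hzO z hz)
  choose! N hNo hzN hNO hNc hNf using hN
  have hzN' : ∀ z ∈ G, z ∈ N z := fun z hz => hzN z hz (mem_connectedComponentIn (hGE hz))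
  obtain ⟨T, hTG, hTc, hTcov⟩ := TopologicalSpace.countable_cover_nhdsWithin
    (s := G) (f := N) (fun z hz => mem_nhdsWithin_of_mem_nhds ((hNo z hz).mem_nhds (hzN' z hz)))
  have hsub : β '' G ⊆ ⋃ z ∈ T, β '' (G ∩ N z) := by
    rintro _ ⟨w, hw, rfl⟩
    obtain ⟨z, hz, hwz⟩ := mem_iUnion₂.1 (hTcov hw)
    exact mem_iUnion₂.2 ⟨z, hz, w, ⟨hw, hwz⟩, rfl⟩
  refine measure_mono_null hsub ((measure_biUnion_null_iff hTc).2 fun z hzT => ?_)
  have hz := hTG hzT
  refine null_of_varN' hE hL hLn sat μ pos (G := G ∩ N z) (b := b)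
    (fun w hw => hw.1.1) ?_ (fun w hw => hβ w hw.1) ?_
  · intro w hw hwE v hv
    refine ⟨hGs w hw.1 hwE hv, ?_⟩
    have h1 := cc_subset_interior (hNf z hz) hwE hw.2 hv
    rwa [(hNo z hz).interior_eq] at h1
  · intro η hη
    have hM1 : 0 < 2 * (|M z| + 1) := by positivity
    obtain ⟨W₁, hW₁, hGW₁, h1⟩ := hvx (η / (2 * (|M z| + 1))) (by positivity)
    obtain ⟨W₂, hW₂, hGW₂, h2⟩ := hvy (η / (2 * (|M z| + 1))) (by positivity)
    refine ⟨N z ∩ (W₁ ∩ W₂), (hNo z hz).inter (hW₁.inter hW₂),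
      fun w hw => ⟨hw.2, hGW₁ hw.1, hGW₂ hw.1⟩, ?_⟩
    have h1' := h1.mono (W' := N z ∩ (W₁ ∩ W₂)) (fun w hw => hw.2.1) le_rfl
    have h2' := h2.mono (W' := N z ∩ (W₁ ∩ W₂)) (fun w hw => hw.2.2) le_rfl
    intro F p q hF hd
    have h3 := h1' F p q hF hd
    have h4 := h2' F p q hF hd
    have hmemO : ∀ C ∈ F, ∀ r ∈ C \ E, r ∈ (O z ∩ L) \ E := fun C hC r hr =>
      ⟨⟨hNO z hz (subset_closure ((hF C hC).sub hr.1).2.1), ((hF C hC).sub hr.1).1⟩, hr.2⟩
    calc ∑ C ∈ F, |b (p C) - b (q C)|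
        ≤ ∑ C ∈ F, (|M z| + 1) * (|x (p C) - x (q C)| + |y (p C) - y (q C)|) := by
          refine Finset.sum_le_sum fun C hC => ?_
          refine (hM z hz _ (hmemO C hC _ (hF C hC).hp) _ (hmemO C hC _ (hF C hC).hq)).trans ?_
          exact mul_le_mul_of_nonneg_right (by linarith [le_abs_self (M z)]) (by positivity)
      _ = (|M z| + 1) * (∑ C ∈ F, |x (p C) - x (q C)| + ∑ C ∈ F, |y (p C) - y (q C)|) := by
          rw [← Finset.mul_sum, Finset.sum_add_distrib]
      _ ≤ (|M z| + 1) * (η / (2 * (|M z| + 1)) + η / (2 * (|M z| + 1))) :=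
          mul_le_mul_of_nonneg_left (add_le_add h3 h4) (by positivity)
      _ = η := by field_simp; ring

/-- **(2')** sums over disjoint pieces -/
theorem sum_planarN (hE : IsCompact E) (hL : IsClosed L) (hLn : Uni_659.NoIsland L)
    (sat : Sat E L)
    (μ : Measure ℂ) [SigmaFinite μ]
    (pos : ∀ C ⊆ L \ E, IsCompact C → IsPreconnected C → C.Nontrivial → μ C ≠ 0)
    (hSc : S.Countable) (hSE : ∀ K ∈ S, ∃ z ∈ E, K = connectedComponentIn E z)
    (hx : ContinuousOn x Eᶜ) (hy : ContinuousOn y Eᶜ) (hb : ContinuousOn b Eᶜ)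
    (hvx : SmV E L S x) (hvy : SmV E L S y)
    (hlip : ∀ z ∈ (L ∩ E) \ ⋃₀ S, LipAt E L x y b z)
    {σ : Set ℂ → ℝ} (hσ : ∀ K ∈ S, K ⊆ L → ChLe E L b K (σ K))
    (F : Finset (Set ℂ)) (p q : Set ℂ → ℂ) (hF : ∀ C ∈ F, Piece E (L ∩ W) C (p C) (q C))
    (hd : (F : Set (Set ℂ)).PairwiseDisjoint id) :
    open Classical in
    ∑ C ∈ F, ENNReal.ofReal |b (p C) - b (q C)| ≤ ∑ C ∈ F, volume (b '' (C \ E)) +
      ∑' K : S, if K.1 ⊆ L ∩ W then ENNReal.ofReal (σ K.1) else 0 := by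
  classical
  obtain ⟨β, hβ⟩ := exists_betaN hE hL hLn sat hSE hx hy hvx hvy hlip
  have hnull := beta_nullN hE hL hLn sat μ pos hSE hvx hvy hlip hβ
  have hF' : ∀ C ∈ F, Piece E L C (p C) (q C) := fun C hC =>
    ⟨(hF C hC).cpt, (hF C hC).conn, (hF C hC).sat, fun w hw => ((hF C hC).sub hw).1,
      (hF C hC).hp, (hF C hC).hq⟩
  refine (Finset.sum_le_sum fun C hC =>
    piece_planar hE hb hSc hSE hσ hβ hnull (hF' C hC)).trans ?_
  rw [Finset.sum_add_distrib]
  refine add_le_add le_rfl ?_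
  rw [← Summable.tsum_finsetSum fun i _ => ENNReal.summable]
  refine ENNReal.tsum_le_tsum fun K => ?_
  obtain ⟨z, hz⟩ : K.1.Nonempty := by
    obtain ⟨v, hv, h⟩ := hSE K.1 K.2
    rw [h]; exact ⟨v, mem_connectedComponentIn hv⟩
  by_cases hex : ∃ C ∈ F, K.1 ⊆ C
  · obtain ⟨C, hC, hKC⟩ := hex
    rw [Finset.sum_eq_single_of_mem C hC]
    · rw [if_pos hKC, if_pos (hKC.trans (hF C hC).sub)]
    · intro D hD hDC
      rw [if_neg]
      intro hKD
      exact disjoint_left.1 (hd hD hC hDC) (hKD hz) (hKC hz)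
  · rw [Finset.sum_eq_zero fun C hC => if_neg fun h => hex ⟨C, hC, h⟩]
    exact zero_le

/-- **(2')** in the form of 439's multiplicity: charges only on the components in `S` -/
theorem varLe_planarN (hE : IsCompact E) (hL : IsClosed L) (hLn : Uni_659.NoIsland L)
    (sat : Sat E L)
    (μ : Measure ℂ) [SigmaFinite μ]
    (pos : ∀ C ⊆ L \ E, IsCompact C → IsPreconnected C → C.Nontrivial → μ C ≠ 0)
    (hSc : S.Countable) (hSE : ∀ K ∈ S, ∃ z ∈ E, K = connectedComponentIn E z)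
    (hx : ContinuousOn x Eᶜ) (hy : ContinuousOn y Eᶜ) (hb : ContinuousOn b Eᶜ)
    (hvx : SmV E L S x) (hvy : SmV E L S y)
    (hlip : ∀ z ∈ (L ∩ E) \ ⋃₀ S, LipAt E L x y b z)
    {σ : Set ℂ → ℝ} (hσ : ∀ K ∈ S, K ⊆ L → ChLe E L b K (σ K))
    {a : ℂ → ℝ} {t : ℝ} (ha : ∀ z ∈ L \ E, a z = t) {η : ℝ} (hη : 0 ≤ η)
    (h : open Classical in Vs_439.mul a b (W \ E) t +
      ∑' K : S, (if K.1 ⊆ L ∩ W then ENNReal.ofReal (σ K.1) else 0) ≤ ENNReal.ofReal η) :
    VarLe E L W b η := by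
  classical
  intro F p q hF hd
  have h1 := sum_planarN hE hL hLn sat μ pos hSc hSE hx hy hb hvx hvy hlip hσ F p q hF hd
  have h2 : ∑ C ∈ F, volume (b '' (C \ E)) ≤ Vs_439.mul a b (W \ E) t := by
    refine le_trans (Finset.sum_le_sum fun C hC => ?_) (Vs_439.sum_image_le (a := a) (b := b)
      (S := W \ E) (t := t) F (C := fun C => C) (fun C hC => (hF C hC).cpt)
      (fun C hC D hD hne => hd hC hD hne)
      fun C hC z hz hzS => ha z ⟨((hF C hC).sub hz).1, hzS.2⟩)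
    refine measure_mono (image_mono fun z hz => ⟨hz.1, ((hF C hC).sub hz.1).2, hz.2⟩)
  have h3 := h1.trans ((add_le_add_left h2 _).trans h)
  rw [← ENNReal.ofReal_sum_of_nonneg fun C _ => abs_nonneg _] at h3
  exact (ENNReal.ofReal_le_ofReal_iff hη).1 h3

end Crest.Agent.R105.Plv_626
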