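import Crest.Agent.R105.Ptw2_116
import Crest.Agent.R105.Bp4_338
import Crest.Agent.R105.Adg4_600
import Crest.Agent.R105.Bvl5_31

/-!
# Row 105 (S0138), node E13, JOB 2: `PTW` closed (second copy of the last step, helper338)
-/

set_option autoImplicit false

open MeasureTheory Set Filter Topology Metric
open scoped NNReal ENNReal ContDiff

namespace Crest.Agent.R105.Ptq_338

open Crest.AnalysisR Tc_808 Ends_897 Bd_775
open Ni_459 (NI)
open Sqr_185 (sec SqK)
open Pct_185 (PicT)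
open SkA_8 (Pk)
open E13_499 Ptw_116

noncomputable section

variable {Y : Set ℂ} {x0 φ A : ℂ → ℝ} {a b : ℕ → ℂ → ℝ} {F P : ℂ → ℂ} {i : ℕ} {K : Cmp Yᶜᶜ}
  {h1 θ : ℝ → ℝ} {O : Set ℂ} {ex eu t0 be s : ℝ} {xT xB yT yB vT vB gT gB kT kB : ℝ → ℝ}

theorem cs_deriv {h : ℝ → ℝ} {u v : ℝ} (h0 : ∀ x, x < u → h x = h u) (h1 : ∀ x, v < x → h x = h v) :
    (∀ x, deriv h x ≠ 0 → x ∈ Icc u v) ∧ HasCompactSupport (deriv h) := by
  have key : ∀ x, x ∉ Icc u v → deriv h x = 0 := by
    intro x hx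
    rw [mem_Icc, not_and_or, not_le, not_le] at hx
    rcases hx with hx | hx
    · have : h =ᶠ[𝓝 x] fun _ => h u := by
        filter_upwards [Iio_mem_nhds hx] with y hy using h0 y hy
      rw [this.deriv_eq, deriv_const]
    · have : h =ᶠ[𝓝 x] fun _ => h v := by
        filter_upwards [Ioi_mem_nhds hx] with y hy using h1 y hy
      rw [this.deriv_eq, deriv_const]
  exact ⟨fun x hx => by_contra fun h => hx (key x h), HasCompactSupport.intro isCompact_Icc key⟩

/-- steps which are `0` for `eu (v - t0) ≤ 1 / (n + 1)` and `1` for `eu (v - t0) ≥ 2 / (n + 1)` -/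
def hn (eu t0 : ℝ) (n : ℕ) (v : ℝ) : ℝ := Real.smoothTransition ((n + 1 : ℝ) * (eu * (v - t0)) - 1)

theorem hn_zero {n : ℕ} {v : ℝ} (h : hn eu t0 n v ≠ 0) : 1 / ((n : ℝ) + 1) ≤ eu * (v - t0) := by
  by_contra hc
  push Not at hc
  apply h
  unfold hn
  apply Real.smoothTransition.zero_of_nonpos
  rw [lt_div_iff₀ (by positivity)] at hc
  nlinarith

theorem hn_one {v : ℝ} (h : 0 < eu * (v - t0)) : ∀ᶠ n : ℕ in atTop, hn eu t0 n v = 1 := by
  obtain ⟨N, hN⟩ := exists_nat_gt (2 / (eu * (v - t0)))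
  filter_upwards [eventually_ge_atTop N] with n hn'
  unfold hn
  apply Real.smoothTransition.one_of_one_le
  have h1 : (N : ℝ) ≤ n := by exact_mod_cast hn'
  rw [div_lt_iff₀ h] at hN
  nlinarith

theorem hn_stp (he : eu = 1 ∨ eu = -1) (n : ℕ) : Stp (hn eu t0 n) := by
  have hpos : (0 : ℝ) < (n : ℝ) + 1 := by positivity
  refine ⟨Real.smoothTransition.contDiff.comp (by fun_prop), fun t =>
    ⟨Real.smoothTransition.nonneg _, Real.smoothTransition.le_one _⟩, ?_⟩
  refine (cs_deriv (u := t0 - 2) (v := t0 + 2) ?_ ?_).2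
  · intro x hx
    unfold hn
    rcases he with rfl | rfl
    · rw [Real.smoothTransition.zero_of_nonpos, Real.smoothTransition.zero_of_nonpos]
      · nlinarith
      · nlinarith
    · rw [Real.smoothTransition.one_of_one_le, Real.smoothTransition.one_of_one_le]
      · nlinarith [(Nat.cast_nonneg n : (0 : ℝ) ≤ n)]
      · nlinarith [(Nat.cast_nonneg n : (0 : ℝ) ≤ n)]
  · intro x hx
    unfold hn
    rcases he with rfl | rfl
    · rw [Real.smoothTransition.one_of_one_le, Real.smoothTransition.one_of_one_le]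
      · nlinarith [(Nat.cast_nonneg n : (0 : ℝ) ≤ n)]
      · nlinarith [(Nat.cast_nonneg n : (0 : ℝ) ≤ n)]
    · rw [Real.smoothTransition.zero_of_nonpos, Real.smoothTransition.zero_of_nonpos]
      · nlinarith
      · nlinarith

theorem cA (hi : Pk Y x0 b A P) : ContinuousOn (fun z => x0 z + A z) Yᶜ := by
  refine ((Complex.continuous_re.comp_continuousOn hi.hol.continuousOn)).congr fun z hz => ?_
  exact (hi.re z hz).symm

/-- measurability of the weights -/
theorem meas_h (h : Pk Y x0 a φ F) (hi : Pk Y x0 b (a i) P) (K : Cmp Yᶜᶜ)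
    (hEd : Ed h hi K xT xB yT yB vT vB)
    (hθ : Rmp θ (Sqr_185.lo (cF h K).1) (Sqr_185.hi (cF h K).1) ex)
    (hU : Uc Y K.1 (fun z => min (eu * (x0 z + a i z - t0)) (θ (x0 z + φ z))) O) (hh : Stp h1)
    {δ : ℝ} (hδ : 0 < δ) (hsu : ∀ v, h1 v ≠ 0 → δ ≤ eu * (v - t0)) :
    AEMeasurable (fun t => h1 t * nT hi K O θ xT t)
      (volume.restrict (Ioo (Sqr_185.lo (cF hi K).1) (Sqr_185.hi (cF hi K).1))) ∧
    AEMeasurable (fun t => h1 t * nB hi K O θ xB t)
      (volume.restrict (Ioo (Sqr_185.lo (cF hi K).1) (Sqr_185.hi (cF hi K).1))) := by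
  have hU' := uc_mm (cA hi) hU hh hθ.st hδ hsu
  obtain ⟨⟨gT, gB, hg⟩, -, hll⟩ := exists_ends_gg Adg_600.admg h hi K hh hθ hU'
  have hE := (Uw6_913.picT hi).2.cpt
  have hn := fun t (ht : t ∈ Ioo (Sqr_185.lo (cF hi K).1) (Sqr_185.hi (cF hi K).1)) =>
    Lin_642.nebot hE (cF hi K) (Ioo_subset_Icc_self ht)
  obtain ⟨m1, m2⟩ := Eam_116.ends_aem hE (cF hi K) hn (pu_cont hi hll.continuousOn) hg
  obtain ⟨m3, m4⟩ := Eam_116.ends_aem hE (cF hi K) hn (pu_cont hi
    (Complex.continuous_re.comp_continuousOn h.hol.continuousOn)) hEd.x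
  have hθm : Measurable θ := hθ.st.smooth.continuous.measurable
  have hv := g_val h hi hh hθ.st hEd.x hg
  rw [← ae_restrict_iff' measurableSet_Ioo] at hv
  exact ⟨(m1.mul (hθm.comp_aemeasurable m3)).congr (hv.mono fun t h => h.1),
    (m2.mul (hθm.comp_aemeasurable m4)).congr (hv.mono fun t h => h.2)⟩

theorem meas_n (h : Pk Y x0 a φ F) (hi : Pk Y x0 b (a i) P) (K : Cmp Yᶜᶜ)
    (hEd : Ed h hi K xT xB yT yB vT vB)
    (hθ : Rmp θ (Sqr_185.lo (cF h K).1) (Sqr_185.hi (cF h K).1) ex) (he : eu = 1 ∨ eu = -1)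
    (hU : Uc Y K.1 (fun z => min (eu * (x0 z + a i z - t0)) (θ (x0 z + φ z))) O)
    {S : Set ℝ} (hS : MeasurableSet S)
    (hS1 : S ⊆ Ioo (Sqr_185.lo (cF hi K).1) (Sqr_185.hi (cF hi K).1))
    (hS2 : ∀ t ∈ S, 0 < eu * (t - t0)) :
    AEMeasurable (nT hi K O θ xT) (volume.restrict S) ∧
    AEMeasurable (nB hi K O θ xB) (volume.restrict S) := by
  have hm := fun n : ℕ => meas_h h hi K hEd hθ hU (hn_stp (t0 := t0) he n)
    (δ := 1 / ((n : ℝ) + 1)) (by positivity) (fun v hv => hn_zero hv)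
  constructor
  · refine aemeasurable_of_tendsto_metrizable_ae'
      (f := fun n t => hn eu t0 n t * nT hi K O θ xT t)
      (fun n => (hm n).1.mono_set hS1) ?_
    filter_upwards [ae_restrict_mem hS] with t ht
    refine tendsto_const_nhds.congr' ?_
    filter_upwards [hn_one (hS2 t ht)] with n hn'
    rw [hn', one_mul]
  · refine aemeasurable_of_tendsto_metrizable_ae'
      (f := fun n t => hn eu t0 n t * nB hi K O θ xB t)
      (fun n => (hm n).2.mono_set hS1) ?_
    filter_upwards [ae_restrict_mem hS] with t ht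
    refine tendsto_const_nhds.congr' ?_
    filter_upwards [hn_one (hS2 t ht)] with n hn'
    rw [hn', one_mul]

theorem nT_rg (hi : Pk Y x0 b (a i) P) (hθ : Stp θ) (t : ℝ) :
    0 ≤ nT hi K O θ xT t ∧ nT hi K O θ xT t ≤ 1 := by
  unfold nT
  have := hθ.rg (xT t)
  split_ifs
  · constructor <;> nlinarith
  · norm_num

theorem nB_rg (hi : Pk Y x0 b (a i) P) (hθ : Stp θ) (t : ℝ) :
    0 ≤ nB hi K O θ xB t ∧ nB hi K O θ xB t ≤ 1 := by
  unfold nB
  have := hθ.rg (xB t)
  split_ifs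
  · constructor <;> nlinarith
  · norm_num

/-- bounded times integrable -/
theorem int_mul {S : Set ℝ} {n y : ℝ → ℝ} (hn : AEMeasurable n (volume.restrict S))
    (hb : ∀ t, 0 ≤ n t ∧ n t ≤ 1) (hy : IntegrableOn y S) : IntegrableOn (fun t => n t * y t) S := by
  refine Integrable.mono' (g := fun t => ‖y t‖) hy.norm (hn.aestronglyMeasurable.mul hy.1) ?_
  refine Eventually.of_forall fun t => ?_
  rw [norm_mul]
  have h1 : ‖n t‖ ≤ 1 := by rw [Real.norm_eq_abs, abs_of_nonneg (hb t).1]; exact (hb t).2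
  nlinarith [norm_nonneg (y t)]

theorem int_yy (h : Pk Y x0 a φ F) (hi : Pk Y x0 b (a i) P) (K : Cmp Yᶜᶜ)
    (hEd : Ed h hi K xT xB yT yB vT vB) :
    IntegrableOn yT (Icc (Sqr_185.lo (cF hi K).1) (Sqr_185.hi (cF hi K).1)) ∧
    IntegrableOn yB (Icc (Sqr_185.lo (cF hi K).1) (Sqr_185.hi (cF hi K).1)) := by
  have hc : ContinuousOn (pu hi fun z => (F z).im) ((P '' Yᶜ)ᶜ)ᶜ := pu_cont hi
    (Complex.continuous_im.comp_continuousOn h.hol.continuousOn)
  exact Lin_642.endsOf_integrable (Uw6_913.picT hi).2 (cF hi K) hc (Bp_338.Wt.im h hi).bd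
    (Bp_338.Wt.im h hi).bv hEd.y

/-- **PTW**, closed -/
theorem ptw : PTW := by
  intro Y x0 φ a b F P i K θ O h hi be s ex eu t0 xT xB yT yB vT vB hs hSq hsw hEd hθ he ht0 hU
  obtain ⟨iT, iB⟩ := int_yy h hi K hEd
  rcases he with rfl | rfl
  · have hsub : Ioo t0 (Sqr_185.hi (cF hi K).1) ⊆
        Ioo (Sqr_185.lo (cF hi K).1) (Sqr_185.hi (cF hi K).1) := Ioo_subset_Ioo_left ht0.1
    obtain ⟨m1, m2⟩ := meas_n h hi K hEd hθ (Or.inl rfl) hU measurableSet_Ioo hsub
      (fun t ht => by linarith [ht.1])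
    have hone : IntegrableOn (fun _ : ℝ => (1 : ℝ)) (Ioo t0 (Sqr_185.hi (cF hi K).1)) :=
      integrableOn_const measure_Ioo_lt_top.ne
    have j1 := int_mul m1 (nT_rg hi hθ.st) hone
    have j2 := int_mul m2 (nB_rg hi hθ.st) hone
    have j3 := int_mul m1 (nT_rg hi hθ.st) (iT.mono_set (hsub.trans Ioo_subset_Icc_self))
    have j4 := int_mul m2 (nB_rg hi hθ.st) (iB.mono_set (hsub.trans Ioo_subset_Icc_self))
    simp only [mul_one] at j1 j2
    have key := Cnt_116.ptw (k := 2) (e := ex) (b := be) (s := s) (t1 := t0)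
      (t2 := Sqr_185.hi (cF hi K).1) two_ne_zero (j1.sub j2) (j3.sub j4) (fun H hH => by
        obtain ⟨u, hu, hu0⟩ := hH.lo
        obtain ⟨v, hv, hv0⟩ := hH.hi
        obtain ⟨c1, c2⟩ := cs_deriv (h := H) (u := u) (v := v)
          (fun x hx => by rw [hu0 x hx.le, hu0 u le_rfl])
          (fun x hx => by rw [hv0 x hx.le, hv0 v le_rfl])
        refine bal_core Bp_338.bal Adg_600.admg h hi K hs hSq hsw hEd hθ hU
          ⟨hH.sm, fun t => ⟨hH.nonneg t, hH.le_one t⟩, c2⟩ (δ := u - t0) (by linarith)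
          (fun x hx => ?_) (fun x hx => ?_)
        · have : u < x := by
            by_contra hc
            exact hx (hu0 x (not_lt.1 hc))
          linarith
        · have := c1 x hx
          exact ⟨by linarith [this.1, ht0.1], by linarith [this.2]⟩)
    filter_upwards [key] with t ht hI hpos
    obtain ⟨lT, h1, lB, h2, h3, h4⟩ := ht ⟨by linarith, hI.2⟩
    refine ⟨lT, h1, lB, h2, ?_, ?_⟩
    · rw [one_mul]; exact h3
    · rw [one_mul]; exact h4
  · have hsub : Ioo (Sqr_185.lo (cF hi K).1) t0 ⊆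
        Ioo (Sqr_185.lo (cF hi K).1) (Sqr_185.hi (cF hi K).1) := Ioo_subset_Ioo_right ht0.2
    obtain ⟨m1, m2⟩ := meas_n h hi K hEd hθ (Or.inr rfl) hU measurableSet_Ioo hsub
      (fun t ht => by linarith [ht.2])
    have hone : IntegrableOn (fun _ : ℝ => (1 : ℝ)) (Ioo (Sqr_185.lo (cF hi K).1) t0) :=
      integrableOn_const measure_Ioo_lt_top.ne
    have j1 := int_mul m1 (nT_rg hi hθ.st) hone
    have j2 := int_mul m2 (nB_rg hi hθ.st) hone
    have j3 := int_mul m1 (nT_rg hi hθ.st) (iT.mono_set (hsub.trans Ioo_subset_Icc_self))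
    have j4 := int_mul m2 (nB_rg hi hθ.st) (iB.mono_set (hsub.trans Ioo_subset_Icc_self))
    simp only [mul_one] at j1 j2
    have key := Cnt_116.ptw_dn (k := 2) (e := -ex) (b := be) (s := s)
      (t1 := Sqr_185.lo (cF hi K).1) (t2 := t0) two_ne_zero (j1.sub j2) (j3.sub j4) (fun H hH => by
        obtain ⟨u, hu, hu0⟩ := hH.lo
        obtain ⟨v, hv, hv0⟩ := hH.hi
        obtain ⟨c1, c2⟩ := cs_deriv (h := H) (u := u) (v := v)
          (fun x hx => by rw [hu0 x hx.le, hu0 u le_rfl])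
          (fun x hx => by rw [hv0 x hx.le, hv0 v le_rfl])
        have hrg : ∀ t, 0 ≤ H t ∧ H t ≤ 1 := by
          intro t
          constructor
          · rw [← hv0 (max t v) (le_max_right _ _)]
            exact hH.anti (le_max_left _ _)
          · rw [← hu0 (min t u) (min_le_right _ _)]
            exact hH.anti (min_le_left _ _)
        obtain ⟨lT, l1, lB, l2, l3, l4⟩ := bal_core Bp_338.bal Adg_600.admg h hi K hs hSq hsw hEd
          hθ hU ⟨hH.sm, hrg, c2⟩ (δ := t0 - v) (by linarith)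
          (fun x hx => by
            have : x < v := by
              by_contra hc
              exact hx (hv0 x (not_lt.1 hc))
            linarith) (fun x hx => by
            have := c1 x hx
            exact ⟨by linarith [this.1], by linarith [this.2, ht0.2]⟩)
        refine ⟨lT, l1, lB, l2, ?_, ?_⟩
        · rw [neg_mul_neg]; exact l3
        · rw [neg_mul_neg]; exact l4)
    filter_upwards [key] with t ht hI hpos
    obtain ⟨lT, h1, lB, h2, h3, h4⟩ := ht ⟨hI.1, by linarith⟩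
    refine ⟨lT, h1, lB, h2, ?_, ?_⟩
    · rw [neg_one_mul]; exact h3
    · rw [neg_one_mul]; exact h4

end

end Crest.Agent.R105.Ptq_338
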