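import Crest.Agent.R105.Bp1_338
import Crest.Agent.R105.Lin5_642
import Crest.Agent.R105.Eam1_116
import Crest.Agent.R105.Adg2_600

/-!
# Row 105 (S0138), node E13, JOB 2 (helper116): `PTW` from `BAL`, part 1

* `exists_chi0` : cut-off `= 1` near `Y`
* `uc_mm` : the part `O` of `{min (eu (u - t0)) (θ x) > 0}` cut by a step `h1` inside
  `{eu (u - t0) ≥ δ}` is a part of `{h1 (u) θ (x) > 0}`
* `exists_ends_gg` : the ends of the test function in both pictures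
* `end_P`, `end_F` : their values
-/

set_option autoImplicit false

open MeasureTheory Set Filter Topology Metric
open scoped NNReal ENNReal ContDiff

namespace Crest.Agent.R105.Ptw_116

open Crest.AnalysisR Tc_808 Ends_897 Bd_775
open Ni_459 (NI)
open Sqr_185 (sec SqK)
open Pct_185 (PicT)
open SkA_8 (Pk)
open E13_499

noncomputable section

variable {Y : Set ℂ} {x0 φ A : ℂ → ℝ} {a b : ℕ → ℂ → ℝ} {F P : ℂ → ℂ} {i : ℕ} {K : Cmp Yᶜᶜ}
  {h1 θ : ℝ → ℝ} {O : Set ℂ} {ex eu t0 : ℝ}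

/-- cut-off `= 1` near `Y` -/
theorem exists_chi0 (hY : IsCompact Y) : ∃ χ : ℂ → ℝ, LC Y χ ∧ HasCompactSupport χ ∧
    (∀ z, 0 ≤ χ z ∧ χ z ≤ 1) ∧ ∃ N, IsOpen N ∧ Y ⊆ N ∧ ∀ z ∈ N, χ z = 1 := by
  obtain ⟨R, hR⟩ := hY.isBounded.subset_closedBall (0 : ℂ)
  set R' : ℝ := max R 1 + 1
  have hR1 : 0 < R' := by positivity
  let f : ContDiffBump (0 : ℂ) := ⟨R', R' + 1, hR1, by linarith⟩
  have h1 : ∀ z ∈ ball (0 : ℂ) R', f z = 1 := fun z hz =>
    f.one_of_mem_closedBall (ball_subset_closedBall hz)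
  have h2 : ∀ z, z ∈ Y → z ∈ ball (0 : ℂ) R' := fun z hz => by
    have := hR hz
    rw [mem_closedBall, dist_zero_right] at this
    rw [mem_ball_zero_iff]
    linarith [le_max_left R 1]
  refine ⟨f, ?_, f.hasCompactSupport, fun z => ⟨f.nonneg, f.le_one⟩, ball 0 R', isOpen_ball, h2, h1⟩
  refine LC.of_compact (f.contDiff (n := 1)).locallyLipschitz f.hasCompactSupport fun z hz => ?_
  filter_upwards [isOpen_ball.mem_nhds (h2 z hz)] with u hu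
  rw [h1 u hu, h1 z (h2 z hz)]

/-- the cut part -/
theorem uc_mm {K : Set ℂ} (hA : ContinuousOn (fun z => x0 z + A z) Yᶜ)
    (hU : Uc Y K (fun z => min (eu * (x0 z + A z - t0)) (θ (x0 z + φ z))) O) (hh : Stp h1)
    (hθ : Stp θ) {δ : ℝ} (hδ : 0 < δ) (hs : ∀ v, h1 v ≠ 0 → δ ≤ eu * (v - t0)) :
    Uc Y K (mm x0 A φ h1 θ) (O ∩ {z | 0 < h1 (x0 z + A z)}) where
  op := by
    have h2 : ContinuousOn (fun z => h1 (x0 z + A z)) O :=
      hh.smooth.continuous.comp_continuousOn (hA.mono fun z hz => (hU.sub z hz).1)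
    exact h2.isOpen_inter_preimage hU.op isOpen_Ioi
  sub := by
    rintro z ⟨hz, hz1⟩
    obtain ⟨h2, h3⟩ := hU.sub z hz
    exact ⟨h2, mul_pos hz1 (lt_of_lt_of_le h3 (min_le_right _ _))⟩
  co := by
    intro z hz hm hn
    have h2 : 0 < h1 (x0 z + A z) := by
      rcases (hh.rg (x0 z + A z)).1.eq_or_lt with h | h
      · rw [mm, ← h, zero_mul] at hm; exact absurd hm (lt_irrefl _)
      · exact h
    have h3 : 0 < θ (x0 z + φ z) := by
      rcases (hθ.rg (x0 z + φ z)).1.eq_or_lt with h | h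
      · rw [mm, ← h, mul_zero] at hm; exact absurd hm (lt_irrefl _)
      · exact h
    have h4 := hs _ h2.ne'
    have h5 : z ∉ O := fun h => hn ⟨h, h2⟩
    filter_upwards [hU.co z hz (lt_min (hδ.trans_le h4) h3) h5] with w hw hw'
    exact hw hw'.1
  lc := by
    rintro K' hK' ⟨c, hc, hcm⟩
    have h2 : ∀ᶠ w in eK Y K'.1, 0 < h1 (x0 w + A w) ∧
        min δ c ≤ min (eu * (x0 w + A w - t0)) (θ (x0 w + φ w)) := by
      filter_upwards [hcm] with w hw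
      have e1 : c ≤ h1 (x0 w + A w) := by
        refine hw.trans ?_
        unfold mm
        nlinarith [(hh.rg (x0 w + A w)).1, (hθ.rg (x0 w + φ w)).2]
      have e2 : c ≤ θ (x0 w + φ w) := by
        refine hw.trans ?_
        unfold mm
        nlinarith [(hh.rg (x0 w + A w)).2, (hθ.rg (x0 w + φ w)).1]
      have e3 := hs _ (hc.trans_le e1).ne'
      exact ⟨hc.trans_le e1, le_min ((min_le_left _ _).trans e3) ((min_le_right _ _).trans e2)⟩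
    rcases hU.lc K' hK' ⟨min δ c, lt_min hδ hc, h2.mono fun w hw => hw.2⟩ with h3 | h3
    · left
      filter_upwards [h2, h3] with w hw hw'
      exact ⟨hw', hw.1⟩
    · right
      filter_upwards [h3] with w hw hw'
      exact hw hw'.1

theorem gg_cut (hh : Stp h1) (z : ℂ) :
    gg x0 A φ h1 θ (O ∩ {z | 0 < h1 (x0 z + A z)}) z =
      O.indicator (fun z => h1 (x0 z + A z) * θ (x0 z + φ z)) z := by
  unfold gg
  by_cases hz : z ∈ O
  · rw [indicator_of_mem hz]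
    rcases (hh.rg (x0 z + A z)).1.eq_or_lt with h | h
    · rw [← h, zero_mul]
      refine indicator_of_notMem (fun h2 => ?_) _
      have := h2.2
      rw [mem_ofPred_eq, ← h] at this
      exact lt_irrefl _ this
    · rw [indicator_of_mem (show z ∈ O ∩ {z | 0 < h1 (x0 z + A z)} from ⟨hz, h⟩)]
      rfl
  · rw [indicator_of_notMem hz, indicator_of_notMem (fun h => hz h.1)]

/-- the ends of the test function -/
theorem exists_ends_gg (hAD : ADMG) (h : Pk Y x0 a φ F) (hi : Pk Y x0 b (a i) P) (K : Cmp Yᶜᶜ)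
    (hh : Stp h1) (hθ : Rmp θ (Sqr_185.lo (cF h K).1) (Sqr_185.hi (cF h K).1) ex)
    (hU : Uc Y K.1 (mm x0 (a i) φ h1 θ) O) :
    (∃ gT gB, EndsOf (P '' Yᶜ)ᶜ (cF hi K) (pu hi (gg x0 (a i) φ h1 θ O)) gT gB) ∧
    (∃ kT kB, EndsOf (F '' Yᶜ)ᶜ (cF h K) (pu h (gg x0 (a i) φ h1 θ O)) kT kB) ∧
    LocallyLipschitzOn Yᶜ (gg x0 (a i) φ h1 θ O) := by
  have hYc : IsCompact Y := by
    have := isCompact_compl h.hY
    rwa [compl_compl] at this
  obtain ⟨χ0, c1, c2, c3, N, hN, hYN, hN1⟩ := exists_chi0 hYc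
  obtain ⟨d1, d2, d3, d4⟩ := hAD Y x0 φ a b F P i K h1 θ χ0 O ex h hi hh hθ hU c1 c2 c3
  have hKN : K.1 ⊆ N := fun z hz => hYN (by
    have := K.subset hz
    rwa [compl_compl] at this)
  refine ⟨?_, ?_, d4⟩
  · have hE := (Uw6_913.picT hi).2.cpt
    have e1 : Bvl_31.BVL (P '' Yᶜ)ᶜ (pu hi fun z => χ0 z * gg x0 (a i) φ h1 θ O z) :=
      Bvl_31.bvl_tt hi d1 (d2 i) fun z hz => Bp_338.pu_apply hi _ hz
    obtain ⟨gT, gB, hg⟩ := Lin_642.exists_ends hE (cF hi K) e1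
    refine ⟨gT, gB, ?_⟩
    obtain ⟨O', hO', hL, hON⟩ := Ta_937.exists_nhd_push (Uw6_913.endMap hi) K hN hKN
    refine Bp_338.ends_congr hE hO' hL (fun ζ hζ hζE => ?_) hg
    obtain ⟨z, hz, rfl⟩ := not_not.1 hζE
    rw [Bp_338.pu_apply hi _ hz, Bp_338.pu_apply hi _ hz, hN1 z (hON z hz hζ), one_mul]
  · have hE := (Uw6_913.picT h).2.cpt
    have e1 : Bvl_31.BVL (F '' Yᶜ)ᶜ (pu h fun z => χ0 z * gg x0 (a i) φ h1 θ O z) :=
      Bvl_31.bvl_tt h d1 d3 fun z hz => Bp_338.pu_apply h _ hz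
    obtain ⟨gT, gB, hg⟩ := Lin_642.exists_ends hE (cF h K) e1
    refine ⟨gT, gB, ?_⟩
    obtain ⟨O', hO', hL, hON⟩ := Ta_937.exists_nhd_push (Uw6_913.endMap h) K hN hKN
    refine Bp_338.ends_congr hE hO' hL (fun ζ hζ hζE => ?_) hg
    obtain ⟨z, hz, rfl⟩ := not_not.1 hζE
    rw [Bp_338.pu_apply h _ hz, Bp_338.pu_apply h _ hz, hN1 z (hON z hz hζ), one_mul]

theorem inv_facts (hi : Pk Y x0 b A P) {ζ : ℂ} (hζ : ζ ∉ (P '' Yᶜ)ᶜ) :
    (Uw6_913.endMap hi).inv ζ ∈ Yᶜ ∧ P ((Uw6_913.endMap hi).inv ζ) = ζ ∧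
      x0 ((Uw6_913.endMap hi).inv ζ) + A ((Uw6_913.endMap hi).inv ζ) = ζ.re := by
  have h1 : ζ ∈ P '' Yᶜ := not_not.1 hζ
  have h2 := (Uw6_913.endMap hi).inv_mem h1
  have h3 := (Uw6_913.endMap hi).inv_right h1
  refine ⟨h2, h3, ?_⟩
  rw [← hi.re _ h2, h3]

open Classical in
/-- the value of an end in the picture of the anchor -/
theorem end_P (h : Pk Y x0 a φ F) (hi : Pk Y x0 b A P) (hh : Stp h1) (hθ : Stp θ) {l : Filter ℝ}
    [l.NeBot] {t xe g : ℝ} (hoff : ∀ᶠ v in l, (⟨t, v⟩ : ℂ) ∉ (P '' Yᶜ)ᶜ)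
    (hx : Tendsto (fun v : ℝ => pu hi (fun z => (F z).re) ⟨t, v⟩) l (𝓝 xe))
    (hg : Tendsto (fun v : ℝ => pu hi (gg x0 A φ h1 θ (O ∩ {z | 0 < h1 (x0 z + A z)})) ⟨t, v⟩) l
      (𝓝 g)) :
    g = if (∀ᶠ v in l, (Uw6_913.endMap hi).inv ⟨t, v⟩ ∈ O) then h1 t * θ xe else 0 := by
  refine Eam_116.lim_ind (p := fun v => (Uw6_913.endMap hi).inv ⟨t, v⟩ ∈ O)
    (m := fun v => h1 t * θ (pu hi (fun z => (F z).re) ⟨t, v⟩))
    (((hθ.smooth.continuous.tendsto _).comp hx).const_mul (h1 t)) hg ?_ ?_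
  · filter_upwards [hoff] with v hv hp
    obtain ⟨e1, e2, e3⟩ := inv_facts hi hv
    show gg x0 A φ h1 θ (O ∩ {z | 0 < h1 (x0 z + A z)}) ((Uw6_913.endMap hi).inv ⟨t, v⟩) =
      h1 t * θ (F ((Uw6_913.endMap hi).inv ⟨t, v⟩)).re
    rw [gg_cut hh, indicator_of_mem hp, e3, h.re _ e1]
  · filter_upwards [hoff] with v hv hp
    show gg x0 A φ h1 θ (O ∩ {z | 0 < h1 (x0 z + A z)}) ((Uw6_913.endMap hi).inv ⟨t, v⟩) = 0
    rw [gg_cut hh, indicator_of_notMem hp]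

open Classical in
/-- the value of an end in the final picture -/
theorem end_F (h : Pk Y x0 a φ F) (hi : Pk Y x0 b A P) (hh : Stp h1) {l : Filter ℝ}
    [l.NeBot] {σ ve k : ℝ} (hoff : ∀ᶠ v in l, (⟨σ, v⟩ : ℂ) ∉ (F '' Yᶜ)ᶜ)
    (hv : Tendsto (fun v : ℝ => pu h (fun z => (P z).re) ⟨σ, v⟩) l (𝓝 ve))
    (hk : Tendsto (fun v : ℝ => pu h (gg x0 A φ h1 θ (O ∩ {z | 0 < h1 (x0 z + A z)})) ⟨σ, v⟩) l
      (𝓝 k)) :
    k = if (∀ᶠ v in l, (Uw6_913.endMap h).inv ⟨σ, v⟩ ∈ O) then h1 ve * θ σ else 0 := by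
  refine Eam_116.lim_ind (p := fun v => (Uw6_913.endMap h).inv ⟨σ, v⟩ ∈ O)
    (m := fun v => h1 (pu h (fun z => (P z).re) ⟨σ, v⟩) * θ σ)
    (((hh.smooth.continuous.tendsto _).comp hv).mul_const (θ σ)) hk ?_ ?_
  · filter_upwards [hoff] with v hv hp
    obtain ⟨e1, e2, e3⟩ := inv_facts h hv
    show gg x0 A φ h1 θ (O ∩ {z | 0 < h1 (x0 z + A z)}) ((Uw6_913.endMap h).inv ⟨σ, v⟩) =
      h1 (P ((Uw6_913.endMap h).inv ⟨σ, v⟩)).re * θ σ
    rw [gg_cut hh, indicator_of_mem hp, e3, hi.re _ e1]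
  · filter_upwards [hoff] with v hv hp
    show gg x0 A φ h1 θ (O ∩ {z | 0 < h1 (x0 z + A z)}) ((Uw6_913.endMap h).inv ⟨σ, v⟩) = 0
    rw [gg_cut hh, indicator_of_notMem hp]

end

end Crest.Agent.R105.Ptw_116
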