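import Crest.Agent.R105.Bal6_173
import Crest.Agent.R105.Eam1_116
import Crest.Agent.R105.Cnt2_116

/-!
# Row 105, S0138, E13: PTW from BAL, second typist of JOB 2 of 499 #11559 (helper173)

* `uc_step` : 499's `Uc` of the region gives `Uc` of `mm` for steps inside the region
* `core` : the balance with one step `H`
* `ptw : E13_499.PTW`
-/

set_option autoImplicit false

open MeasureTheory Set Filter Topology Metric
open scoped NNReal ENNReal ContDiff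

namespace Crest.Agent.R105.Ptw_173

open Bd_775 Tc_808 Ends_897 Crest.AnalysisR
open IfB_641 (X0)
open Ni_459 (NI cpt_of LB)
open SkA_8 (Pk)
open Fml_61 (ChnE)
open Bp_338 (Wt WP WF)
open Bal_173
open E13_499 (cF Rmp Stp gg mm pu EndsOf Bal Ed Uc TopF BotF InT InB)

noncomputable section

variable {Y : Set ℂ} {x0 φ A χ0 q W : ℂ → ℝ} {a b : ℕ → ℂ → ℝ} {F P : ℂ → ℂ}
  {H θ : ℝ → ℝ} {O K : Set ℂ} {ex eu t0 δ : ℝ} {i : ℕ}

theorem mm_ll (h : Pk Y x0 a φ F) (i : ℕ) (hh : Stp H) (hθ : Stp θ) :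
    LocallyLipschitzOn Yᶜ (mm x0 (a i) φ H θ) := by
  obtain ⟨L1, hL1⟩ := stp_lip hh
  obtain ⟨L2, hL2⟩ := stp_lip hθ
  exact LmS_392.ll_mul' (Bd_775.ll_comp hL1 (LmS6_405.ll_a h.hx (h.tta i)))
      (Bd_775.ll_comp hL2 (LmS6_405.ll_a h.hx h.tt))

/-- `Uc` for a step inside the region -/
theorem uc_step (hY : IsOpen Yᶜ) (hδ : 0 < δ) (hH : Stp H) (hθ : Stp θ)
    (hHδ : ∀ t, H t ≠ 0 → δ ≤ eu * (t - t0))
    (hll : LocallyLipschitzOn Yᶜ (mm x0 A φ H θ))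
    (hu : Uc Y K (fun z => min (eu * (x0 z + A z - t0)) (θ (x0 z + φ z))) O) :
    Uc Y K (mm x0 A φ H θ) (O ∩ {z | 0 < mm x0 A φ H θ z}) := by
  have hpos : ∀ z, 0 < mm x0 A φ H θ z → 0 < H (x0 z + A z) ∧ 0 < θ (x0 z + φ z) := by
    intro z hz
    unfold mm at hz
    have h1 := (hH.rg (x0 z + A z)).1
    have h2 := (hθ.rg (x0 z + φ z)).1
    constructor
    · rcases h1.eq_or_lt with h3 | h3
      · rw [← h3, zero_mul] at hz; exact absurd hz (lt_irrefl _)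
      · exact h3
    · rcases h2.eq_or_lt with h3 | h3
      · rw [← h3, mul_zero] at hz; exact absurd hz (lt_irrefl _)
      · exact h3
  have hmin : ∀ z, 0 < mm x0 A φ H θ z →
      0 < min (eu * (x0 z + A z - t0)) (θ (x0 z + φ z)) := fun z hz =>
    lt_min (hδ.trans_le (hHδ _ (hpos z hz).1.ne')) (hpos z hz).2
  refine ⟨?_, ?_, ?_, ?_⟩
  · have h1 : O ∩ {z | 0 < mm x0 A φ H θ z} = O ∩ (Yᶜ ∩ mm x0 A φ H θ ⁻¹' Ioi 0) := by
      ext z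
      constructor
      · rintro ⟨hz, hz'⟩
        exact ⟨hz, (hu.sub z hz).1, hz'⟩
      · rintro ⟨hz, -, hz'⟩
        exact ⟨hz, hz'⟩
    rw [h1]
    exact hu.op.inter (hll.continuousOn.isOpen_inter_preimage hY isOpen_Ioi)
  · rintro z ⟨hz, hz'⟩
    exact ⟨(hu.sub z hz).1, hz'⟩
  · intro z hzY h0 hzO
    have hz : z ∉ O := fun hc => hzO ⟨hc, h0⟩
    filter_upwards [hu.co z hzY (hmin z h0) hz] with w hw hc
    exact hw hc.1
  · intro K' hK' hc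
    obtain ⟨c, hc0, hc⟩ := hc
    have h1 : ∀ᶠ w in eK Y K'.1, min δ c ≤
        min (eu * (x0 w + A w - t0)) (θ (x0 w + φ w)) := by
      filter_upwards [hc] with w hw
      have h2 := hpos w (hc0.trans_le hw)
      refine le_min ((min_le_left _ _).trans (hHδ _ h2.1.ne')) ((min_le_right _ _).trans ?_)
      exact hw.trans (mul_le_of_le_one_left h2.2.le (hH.rg _).2)
    rcases hu.lc K' hK' ⟨_, lt_min hδ hc0, h1⟩ with h2 | h2
    · left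
      filter_upwards [h2, hc] with w hw hw'
      exact ⟨hw, hc0.trans_le hw'⟩
    · right
      filter_upwards [h2] with w hw hw'
      exact hw hw'.1

theorem gg_inter (hH : Stp H) (hθ : Stp θ) :
    gg x0 A φ H θ (O ∩ {z | 0 < mm x0 A φ H θ z}) = gg x0 A φ H θ O := by
  funext z
  unfold gg
  by_cases hz : z ∈ O
  · rw [indicator_of_mem hz]
    by_cases hz' : 0 < mm x0 A φ H θ z
    · rw [indicator_of_mem (show z ∈ O ∩ {z | 0 < mm x0 A φ H θ z} from ⟨hz, hz'⟩)]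
    · rw [indicator_of_notMem fun hc : z ∈ O ∩ {z | 0 < mm x0 A φ H θ z} => hz' hc.2]
      exact le_antisymm (mm_rg hH hθ z).1 (not_lt.1 hz')
  · rw [indicator_of_notMem hz, indicator_of_notMem fun hc => hz hc.1]

theorem cont_pu (hi : Pk Y x0 b A P) (hW : LocallyLipschitzOn Yᶜ W) :
    ContinuousOn (pu hi W) (P '' Yᶜ)ᶜᶜ := by
  have hU := uni hi
  have hpu : ∀ ζ ∈ P '' Yᶜ, pu hi W ζ = (W ∘ Tra_937.inv Yᶜ P) ζ := by
    rintro _ ⟨z, hz, rfl⟩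
    rw [Bp_338.pu_apply hi _ hz, Function.comp_apply, hU.inv_apply hz]
  have hl : LocallyLipschitzOn (P '' Yᶜ) (W ∘ Tra_937.inv Yᶜ P) :=
    hU.symm.locLip_comp (u := W) (by rw [hU.image_inv]; exact hW)
  rw [compl_compl]
  exact hl.continuousOn.congr hpu

theorem wt_int (hi : Pk Y x0 b A P) (K : Cmp Yᶜᶜ) (hW : Wt hi W) {WT WB : ℝ → ℝ}
    (he : EndsOf (P '' Yᶜ)ᶜ (cF hi K) (pu hi W) WT WB) :
    IntegrableOn WT (Icc (Sqr_185.lo (cF hi K).1) (Sqr_185.hi (cF hi K).1)) ∧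
    IntegrableOn WB (Icc (Sqr_185.lo (cF hi K).1) (Sqr_185.hi (cF hi K).1)) :=
  Lin_642.endsOf_integrable (Uw6_913.picT hi).2 (cF hi K) (cont_pu hi hW.ll) hW.bd hW.bv he

/-- the cut-off is invisible at the ends -/
theorem ends_uncut (hi : Pk Y x0 b A P) (K : Cmp Yᶜᶜ) {f : ℂ → ℝ} {N : Set ℂ} (hN : IsOpen N)
    (hKN : K.1 ⊆ N) (h1 : ∀ z ∈ N, χ0 z = 1) {T B : ℝ → ℝ}
    (h : EndsOf (P '' Yᶜ)ᶜ (cF hi K) (pu hi fun z => χ0 z * f z) T B) :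
    EndsOf (P '' Yᶜ)ᶜ (cF hi K) (pu hi f) T B := by
  have hE : IsCompact (P '' Yᶜ)ᶜ := (Uw6_913.picT hi).2.cpt
  obtain ⟨M, hM, hL, hMN⟩ := Ta_937.exists_nhd_push (Uw6_913.endMap hi) K hN hKN
  refine Bp_338.ends_congr hE hM hL (fun ζ hζ hζE => ?_) h
  obtain ⟨z, hz, rfl⟩ := not_not.1 hζE
  rw [Bp_338.pu_apply hi _ hz, Bp_338.pu_apply hi _ hz, h1 z (hMN z hz hζ), one_mul]

/-- the data of one cut step: end functions and integrability -/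
theorem exists_g (h : Pk Y x0 a φ F) (hi : Pk Y x0 b (a i) P) (K : Cmp Yᶜᶜ) (hH : Stp H)
    (hθ : Rmp θ (Sqr_185.lo (cF h K).1) (Sqr_185.hi (cF h K).1) ex)
    (hu : Uc Y K.1 (mm x0 (a i) φ H θ) O) {xT xB yT yB vT vB : ℝ → ℝ}
    (hEd : Ed h hi K xT xB yT yB vT vB) :
    ∃ gT gB kT kB : ℝ → ℝ,
      EndsOf (P '' Yᶜ)ᶜ (cF hi K) (pu hi (gg x0 (a i) φ H θ O)) gT gB ∧
      EndsOf (F '' Yᶜ)ᶜ (cF h K) (pu h (gg x0 (a i) φ H θ O)) kT kB ∧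
      (∀ (w : ℂ → ℝ) (wT wB : ℝ → ℝ), Wt hi w → EndsOf (P '' Yᶜ)ᶜ (cF hi K) (pu hi w) wT wB →
        IntegrableOn (fun t => 2 * gT t * θ (xT t) * wT t)
          (Icc (Sqr_185.lo (cF hi K).1) (Sqr_185.hi (cF hi K).1)) ∧
        IntegrableOn (fun t => 2 * gB t * θ (xB t) * wB t)
          (Icc (Sqr_185.lo (cF hi K).1) (Sqr_185.hi (cF hi K).1))) ∧
      IntegrableOn (fun t => 2 * kT t * H (vT t) * 1)
        (Icc (Sqr_185.lo (cF h K).1) (Sqr_185.hi (cF h K).1)) ∧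
      IntegrableOn (fun t => 2 * kB t * H (vB t) * 1)
        (Icc (Sqr_185.lo (cF h K).1) (Sqr_185.hi (cF h K).1)) := by
  have hYc := cpt_of h.hY
  obtain ⟨χ0, N, hχ0, hχ0c, h01, hN, hYN, -, h1N⟩ := exists_chi0 hYc 0
  have hKN : K.1 ⊆ N := fun z hz => hYN ((ty K).subset hz)
  obtain ⟨ad, nφ⟩ := adm_g h i hH hθ.st hχ0 hχ0c h01 (mm_ll h i hH hθ.st)
    (uc_of (A := a i) h K hH hθ hu)
  have wP : Wt hi fun z => χ0 z * gg x0 (a i) φ H θ O z := Wt.tt hi ad.tt (ad.ni i)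
  have wF : Wt h fun z => χ0 z * gg x0 (a i) φ H θ O z := Wt.tt h ad.tt nφ
  have hEP : IsCompact (P '' Yᶜ)ᶜ := (Uw6_913.picT hi).2.cpt
  have hEF : IsCompact (F '' Yᶜ)ᶜ := (Uw6_913.picT h).2.cpt
  have eP := Lin_642.endsOf hEP (cF hi K) wP.bv
  have eF := Lin_642.endsOf hEF (cF h K) wF.bv
  have eP' := ends_uncut hi K hN hKN h1N eP
  have eF' := ends_uncut h K hN hKN h1N eF
  refine ⟨_, _, _, _, eP', eF', fun w wT wB hw he => ?_, ?_⟩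
  · obtain ⟨p1, p2⟩ := Bp_338.wp_side h hi K hθ.st ad.tt (ad.ni i) hN hKN h1N hw hEd.x eP' he
    exact wt_int hi K p1 p2
  · obtain ⟨f1, f2⟩ := Bp_338.wf_side h hi K hH ad.tt nφ hN hKN h1N (Wt.const h 1) hEd.v eF'
      (Bp_338.ends_const 1)
    exact wt_int h K f1 f2

open Classical in
/-- the germ at the ends of a line of `P` -/
theorem g_eq (h : Pk Y x0 a φ F) (hi : Pk Y x0 b (a i) P) (K : Cmp Yᶜᶜ) (hθ : Stp θ)
    {xT xB yT yB vT vB gT gB : ℝ → ℝ} (hEd : Ed h hi K xT xB yT yB vT vB)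
    (hg : EndsOf (P '' Yᶜ)ᶜ (cF hi K) (pu hi (gg x0 (a i) φ H θ O)) gT gB) :
    ∀ᵐ t : ℝ, t ∈ Ioo (Sqr_185.lo (cF hi K).1) (Sqr_185.hi (cF hi K).1) →
      gT t = (if InT hi K O t then H t * θ (xT t) else 0) ∧
      gB t = (if InB hi K O t then H t * θ (xB t) else 0) := by
  have hEP : IsCompact (P '' Yᶜ)ᶜ := (Uw6_913.picT hi).2.cpt
  have hE := Uw6_913.endMap hi
  have key : ∀ (t v : ℝ), (⟨t, v⟩ : ℂ) ∉ (P '' Yᶜ)ᶜ → hE.inv ⟨t, v⟩ ∈ Yᶜ ∧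
      P (hE.inv ⟨t, v⟩) = ⟨t, v⟩ := by
    intro t v hv
    obtain ⟨z, hz, e⟩ := not_not.1 hv
    rw [← e, hE.inv_left hz]
    exact ⟨hz, rfl⟩
  filter_upwards [hEd.x, hg] with t h1 h2 ht
  obtain ⟨n1, n2⟩ := Lin_642.nebot hEP (cF hi K) (Ioo_subset_Icc_self ht)
  have aux : ∀ (l : Filter ℝ) [l.NeBot] (c g : ℝ), (∀ᶠ v in l, (⟨t, v⟩ : ℂ) ∉ (P '' Yᶜ)ᶜ) →
      Tendsto (fun v : ℝ => pu hi (fun z => (F z).re) ⟨t, v⟩) l (𝓝 c) →
      Tendsto (fun v : ℝ => pu hi (gg x0 (a i) φ H θ O) ⟨t, v⟩) l (𝓝 g) →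
      g = if (∀ᶠ v in l, hE.inv ⟨t, v⟩ ∈ O) then H t * θ c else 0 := by
    intro l _ c g hoff hx hg
    have hm : Tendsto (fun v : ℝ => H t * θ (pu hi (fun z => (F z).re) ⟨t, v⟩)) l
        (𝓝 (H t * θ c)) := ((hθ.smooth.continuous.tendsto _).comp hx).const_mul _
    refine Eam_116.lim_ind (p := fun v => hE.inv ⟨t, v⟩ ∈ O) hm hg ?_ ?_
    · filter_upwards [hoff] with v hv hO
      obtain ⟨k1, k2⟩ := key t v hv
      have e1 : pu hi (gg x0 (a i) φ H θ O) ⟨t, v⟩ = gg x0 (a i) φ H θ O (hE.inv ⟨t, v⟩) := rfl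
      have e2 : pu hi (fun z => (F z).re) ⟨t, v⟩ = (F (hE.inv ⟨t, v⟩)).re := rfl
      have e3 : x0 (hE.inv ⟨t, v⟩) + a i (hE.inv ⟨t, v⟩) = t := by
        rw [← hi.re _ k1, k2]
      have e4 : x0 (hE.inv ⟨t, v⟩) + φ (hE.inv ⟨t, v⟩) = (F (hE.inv ⟨t, v⟩)).re :=
        (h.re _ k1).symm
      rw [e1, e2]
      unfold gg mm
      rw [indicator_of_mem hO, e3, e4]
    · exact Eventually.of_forall fun v hO => by
        have e1 : pu hi (gg x0 (a i) φ H θ O) ⟨t, v⟩ = gg x0 (a i) φ H θ O (hE.inv ⟨t, v⟩) := rfl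
        rw [e1]
        unfold gg
        exact indicator_of_notMem hO _
  constructor
  · exact aux _ _ _ (by filter_upwards [self_mem_nhdsWithin] with v hv using hv.1) (h1 ht).1
      (h2 ht).1
  · exact aux _ _ _ (by filter_upwards [self_mem_nhdsWithin] with v hv using hv.1) (h1 ht).2
      (h2 ht).2

/-- the germ at the ends of a line of `F` -/
theorem k_le (h : Pk Y x0 a φ F) (K : Cmp Yᶜᶜ) (hH : Stp H) (hθ : Stp θ) {kT kB : ℝ → ℝ}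
    (hk : EndsOf (F '' Yᶜ)ᶜ (cF h K) (pu h (gg x0 (a i) φ H θ O)) kT kB) :
    ∀ᵐ t : ℝ, t ∈ Ioo (Sqr_185.lo (cF h K).1) (Sqr_185.hi (cF h K).1) →
      kT t ∈ Icc 0 (θ t) ∧ kB t ∈ Icc 0 (θ t) := by
  have hEF : IsCompact (F '' Yᶜ)ᶜ := (Uw6_913.picT h).2.cpt
  have hE := Uw6_913.endMap h
  have key : ∀ (t v : ℝ), (⟨t, v⟩ : ℂ) ∉ (F '' Yᶜ)ᶜ →
      pu h (gg x0 (a i) φ H θ O) ⟨t, v⟩ ∈ Icc 0 (θ t) := by
    intro t v hv
    obtain ⟨z, hz, e⟩ := not_not.1 hv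
    rw [← e, Bp_338.pu_apply h _ hz]
    have e2 : x0 z + φ z = t := by rw [← h.re z hz, e]
    unfold gg
    by_cases hzO : z ∈ O
    · rw [indicator_of_mem hzO]
      refine ⟨(mm_rg hH hθ z).1, ?_⟩
      unfold mm
      rw [e2]
      exact mul_le_of_le_one_left (hθ.rg _).1 (hH.rg _).2
    · rw [indicator_of_notMem hzO]
      exact ⟨le_rfl, (hθ.rg _).1⟩
  filter_upwards [hk] with t h2 ht
  obtain ⟨n1, n2⟩ := Lin_642.nebot hEF (cF h K) (Ioo_subset_Icc_self ht)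
  constructor
  · refine isClosed_Icc.mem_of_tendsto (h2 ht).1 ?_
    filter_upwards [self_mem_nhdsWithin] with v hv using key t v hv.1
  · refine isClosed_Icc.mem_of_tendsto (h2 ht).2 ?_
    filter_upwards [self_mem_nhdsWithin] with v hv using key t v hv.1

end

end Crest.Agent.R105.Ptw_173
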