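import Crest.Agent.R105.Eam1_116
import Crest.Agent.R105.Cnt2_116
import Crest.Agent.R105.Bp1_338
import Crest.Agent.R105.Lin5_642
import Crest.Agent.R105.Stk2_939

/-!
# Row 105, S0138, node E13: `PTW` from `BAL`, part 1 (helper185)

* `uc_step` : the part `O` of 499's `PTW` gives a part for every step function `h1`
* `exists_chi0`, `exists_ends_gg` : end limits of the test function in the two pictures
* `g_vals` : the end values of the test function on the lines of the picture of the anchor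
-/

set_option autoImplicit false

open MeasureTheory Set Filter Topology Metric
open scoped NNReal ENNReal ContDiff

namespace Crest.Agent.R105.Ptw_185

open Tc_808 Bd_775 Ends_897 Ni_459
open SkA_8 (Pk)
open E13_499
open Bp_338 (Wt pu_apply ends_congr ends_comp ends_mul ends_cut)

noncomputable section

variable {Y : Set ℂ} {x0 φ A : ℂ → ℝ} {a b : ℕ → ℂ → ℝ} {F P : ℂ → ℂ} {i : ℕ}

/-- `x0 + f` is continuous off `Y` -/
theorem cont_x0add (h : Pk Y x0 a φ F) {f : ℂ → ℝ} (hf : TT Y f) :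
    ContinuousOn (fun z => x0 z + f z) Yᶜ :=
  (Bp_338.ll_add (Bp_338.loc_x0 h) hf.q.loc).continuousOn

theorem mm_nonneg {h1 θ : ℝ → ℝ} (hh : E13_499.Stp h1) (hθ : E13_499.Stp θ) (z : ℂ) :
    0 ≤ mm x0 A φ h1 θ z := mul_nonneg (hh.rg _).1 (hθ.rg _).1

/-- the test function does not change if `O` is cut to `{0 < m}` -/
theorem gg_cut {h1 θ : ℝ → ℝ} (hh : E13_499.Stp h1) (hθ : E13_499.Stp θ) (O : Set ℂ) :
    gg x0 A φ h1 θ (O ∩ {z | 0 < mm x0 A φ h1 θ z}) = gg x0 A φ h1 θ O := by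
  funext z
  unfold gg
  by_cases hz : z ∈ O
  · rw [indicator_of_mem hz]
    by_cases h0 : 0 < mm x0 A φ h1 θ z
    · rw [indicator_of_mem (show z ∈ O ∩ {z | 0 < mm x0 A φ h1 θ z} from ⟨hz, h0⟩)]
    · rw [indicator_of_notMem (show z ∉ O ∩ {z | 0 < mm x0 A φ h1 θ z} from fun h => h0 h.2)]
      exact le_antisymm (mm_nonneg hh hθ z) (not_lt.1 h0)
  · rw [indicator_of_notMem hz, indicator_of_notMem fun h => hz h.1]

/-- **`Uc` for a step function** -/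
theorem uc_step (h : Pk Y x0 a φ F) {K : Set ℂ} {θ h1 : ℝ → ℝ} {O : Set ℂ} {eu t0 δ : ℝ}
    (hh : E13_499.Stp h1) (hθ : E13_499.Stp θ) (hδ : 0 < δ)
    (hsup : ∀ t, h1 t ≠ 0 → δ ≤ eu * (t - t0))
    (hO : Uc Y K (fun z => min (eu * (x0 z + a i z - t0)) (θ (x0 z + φ z))) O) :
    Uc Y K (mm x0 (a i) φ h1 θ) (O ∩ {z | 0 < mm x0 (a i) φ h1 θ z}) := by
  have hpos : ∀ z, 0 < mm x0 (a i) φ h1 θ z →
      h1 (x0 z + a i z) ≠ 0 ∧ 0 < θ (x0 z + φ z) := fun z hz => by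
    constructor
    · intro h0
      rw [mm, h0, zero_mul] at hz
      exact lt_irrefl _ hz
    · by_contra hc
      have : θ (x0 z + φ z) = 0 := le_antisymm (not_lt.1 hc) (hθ.rg _).1
      rw [mm, this, mul_zero] at hz
      exact lt_irrefl _ hz
  have hY : IsOpen Yᶜ := h.hY.1
  refine ⟨?_, ?_, ?_, ?_⟩
  · have hc : ContinuousOn (mm x0 (a i) φ h1 θ) O := by
      have h1c : ContinuousOn (fun z => h1 (x0 z + a i z)) Yᶜ :=
        hh.smooth.continuous.comp_continuousOn (cont_x0add h (h.tta i))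
      have h2c : ContinuousOn (fun z => θ (x0 z + φ z)) Yᶜ :=
        hθ.smooth.continuous.comp_continuousOn (cont_x0add h h.tt)
      exact (h1c.mul h2c).mono fun z hz => (hO.sub z hz).1
    exact hc.isOpen_inter_preimage hO.op isOpen_Ioi
  · intro z hz
    exact ⟨(hO.sub z hz.1).1, hz.2⟩
  · intro z hzY hz0 hzO
    obtain ⟨p1, p2⟩ := hpos z hz0
    have h3 : z ∉ O := fun h3 => hzO ⟨h3, hz0⟩
    have h4 := hO.co z hzY (lt_min (hδ.trans_le (hsup _ p1)) p2) h3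
    filter_upwards [h4] with w hw hwO
    exact hw hwO.1
  · intro K' hne ⟨c, hc, hev⟩
    have h5 : ∀ᶠ w in eK Y K'.1,
        min δ c ≤ min (eu * (x0 w + a i w - t0)) (θ (x0 w + φ w)) := by
      filter_upwards [hev] with w hw
      obtain ⟨p1, p2⟩ := hpos w (hc.trans_le hw)
      refine le_min ((min_le_left _ _).trans (hsup _ p1)) ((min_le_right _ _).trans ?_)
      exact hw.trans (mul_le_of_le_one_left (hθ.rg _).1 (hh.rg _).2)
    rcases hO.lc K' hne ⟨min δ c, lt_min hδ hc, h5⟩ with h6 | h6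
    · left
      filter_upwards [h6, hev] with w hw hw'
      exact ⟨hw, hc.trans_le hw'⟩
    · right
      filter_upwards [h6] with w hw hw'
      exact hw hw'.1

/-- a cut-off at infinity -/
theorem exists_chi0 (hY : IsCompact Y) : ∃ χ0 : ℂ → ℝ, LC Y χ0 ∧ HasCompactSupport χ0 ∧
    (∀ z, 0 ≤ χ0 z ∧ χ0 z ≤ 1) ∧ ∃ N, IsOpen N ∧ Y ⊆ N ∧ ∀ z ∈ N, χ0 z = 1 := by
  obtain ⟨R, hR⟩ := hY.isBounded.subset_ball (0 : ℂ)
  obtain ⟨χ, ⟨K, hK⟩, hχc, hχ1, hχR, -, -⟩ := Stk_939.exists_cut_inf R one_pos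
  have hone : ∀ z ∈ ball (0 : ℂ) R, χ z = 1 := fun z hz => hχR z (mem_ball_zero_iff.1 hz).le
  refine ⟨χ, LC.of_lipschitz hK hχc fun z hz => ?_, hχc, hχ1, _, isOpen_ball, hR, hone⟩
  filter_upwards [isOpen_ball.mem_nhds (hR hz)] with w hw
  rw [hone w hw, hone z (hR hz)]

theorem pic_cpt (hi : Pk Y x0 b A P) : IsCompact (P '' Yᶜ)ᶜ := (Uw6_913.picT hi).2.cpt

/-- integrability of end functions of weights -/
theorem wt_int (hi : Pk Y x0 b A P) (K : Cmp Yᶜᶜ) {f : ℂ → ℝ} (hf : Wt hi f) {wT wB : ℝ → ℝ}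
    (he : EndsOf (P '' Yᶜ)ᶜ (cF hi K) (pu hi f) wT wB) :
    IntegrableOn wT (Icc (Sqr_185.lo (cF hi K).1) (Sqr_185.hi (cF hi K).1)) ∧
    IntegrableOn wB (Icc (Sqr_185.lo (cF hi K).1) (Sqr_185.hi (cF hi K).1)) := by
  refine Lin_642.endsOf_integrable (Uw6_913.picT hi).2 (cF hi K) ?_ hf.bd hf.bv he
  have h1 := (Uw6_913.endMap hi).symm
  have h2 : ContinuousOn (f ∘ (Uw6_913.endMap hi).inv) (P '' Yᶜ) :=
    hf.ll.continuousOn.comp h1.cont fun z hz => (Uw6_913.endMap hi).inv_mem hz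
  rw [compl_compl]
  exact h2

/-- **the end limits of the test function exist in the two pictures and are integrable** -/
theorem exists_ends_gg (hA : ADMG) (h : Pk Y x0 a φ F) (hi : Pk Y x0 b (a i) P) (K : Cmp Yᶜᶜ)
    {h1 θ : ℝ → ℝ} {O : Set ℂ} {ex : ℝ} (hh : E13_499.Stp h1)
    (hR : Rmp θ (Sqr_185.lo (cF h K).1) (Sqr_185.hi (cF h K).1) ex)
    (hU : Uc Y K.1 (mm x0 (a i) φ h1 θ) O) :
    ∃ gT gB kT kB : ℝ → ℝ,
      EndsOf (P '' Yᶜ)ᶜ (cF hi K) (pu hi (gg x0 (a i) φ h1 θ O)) gT gB ∧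
      EndsOf (F '' Yᶜ)ᶜ (cF h K) (pu h (gg x0 (a i) φ h1 θ O)) kT kB ∧
      IntegrableOn gT (Icc (Sqr_185.lo (cF hi K).1) (Sqr_185.hi (cF hi K).1)) ∧
      IntegrableOn gB (Icc (Sqr_185.lo (cF hi K).1) (Sqr_185.hi (cF hi K).1)) ∧
      IntegrableOn kT (Icc (Sqr_185.lo (cF h K).1) (Sqr_185.hi (cF h K).1)) ∧
      IntegrableOn kB (Icc (Sqr_185.lo (cF h K).1) (Sqr_185.hi (cF h K).1)) := by
  have hYc : IsCompact Y := Ni_459.cpt_of h.hY
  obtain ⟨χ0, c1, c2, c3, N, hN, hYN, c4⟩ := exists_chi0 hYc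
  obtain ⟨g1, g2, g3, -⟩ := hA Y x0 φ a b F P i K h1 θ χ0 O ex h hi hh hR hU c1 c2 c3
  have hKN : K.1 ⊆ N := (K.subset.trans (compl_compl Y).subset).trans hYN
  have w1 : Wt hi fun z => χ0 z * gg x0 (a i) φ h1 θ O z := Wt.tt hi g1 (g2 i)
  have w2 : Wt h fun z => χ0 z * gg x0 (a i) φ h1 θ O z := Wt.tt h g1 g3
  have e1 := Lin_642.endsOf (pic_cpt hi) (cF hi K) w1.bv
  have e2 := Lin_642.endsOf (pic_cpt h) (cF h K) w2.bv
  obtain ⟨i1, i2⟩ := wt_int hi K w1 e1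
  obtain ⟨i3, i4⟩ := wt_int h K w2 e2
  refine ⟨_, _, _, _, ?_, ?_, i1, i2, i3, i4⟩
  · obtain ⟨N', hN', hL, hN2⟩ := Ta_937.exists_nhd_push (Uw6_913.endMap hi) K hN hKN
    refine ends_congr (pic_cpt hi) hN' hL (fun ζ hζ hζE => ?_) e1
    obtain ⟨z, hz, rfl⟩ := not_not.1 hζE
    rw [pu_apply hi _ hz, pu_apply hi _ hz, c4 z (hN2 z hz hζ), one_mul]
  · obtain ⟨N', hN', hL, hN2⟩ := Ta_937.exists_nhd_push (Uw6_913.endMap h) K hN hKN
    refine ends_congr (pic_cpt h) hN' hL (fun ζ hζ hζE => ?_) e2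
    obtain ⟨z, hz, rfl⟩ := not_not.1 hζE
    rw [pu_apply h _ hz, pu_apply h _ hz, c4 z (hN2 z hz hζ), one_mul]

open Classical in
/-- **the end values of the test function on the lines of the picture of the anchor** -/
theorem g_vals (h : Pk Y x0 a φ F) (hi : Pk Y x0 b (a i) P) (K : Cmp Yᶜᶜ) {h1 θ : ℝ → ℝ}
    {O : Set ℂ} (hθ : Continuous θ) {xT xB gT gB : ℝ → ℝ}
    (hx : EndsOf (P '' Yᶜ)ᶜ (cF hi K) (pu hi fun z => (F z).re) xT xB)
    (hg : EndsOf (P '' Yᶜ)ᶜ (cF hi K) (pu hi (gg x0 (a i) φ h1 θ O)) gT gB) :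
    ∀ᵐ t : ℝ, t ∈ Ioo (Sqr_185.lo (cF hi K).1) (Sqr_185.hi (cF hi K).1) →
      gT t = (if InT hi K O t then h1 t * θ (xT t) else 0) ∧
      gB t = (if InB hi K O t then h1 t * θ (xB t) else 0) := by
  have key : ∀ t v : ℝ, (⟨t, v⟩ : ℂ) ∉ (P '' Yᶜ)ᶜ →
      ((Uw6_913.endMap hi).inv ⟨t, v⟩ ∈ O →
        pu hi (gg x0 (a i) φ h1 θ O) ⟨t, v⟩ = h1 t * θ (pu hi (fun z => (F z).re) ⟨t, v⟩)) ∧
      ((Uw6_913.endMap hi).inv ⟨t, v⟩ ∉ O →
        pu hi (gg x0 (a i) φ h1 θ O) ⟨t, v⟩ = 0) := by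
    intro t v hv
    obtain ⟨z, hz, hzv⟩ := not_not.1 hv
    rw [← hzv, (Uw6_913.endMap hi).inv_left hz, pu_apply hi _ hz, pu_apply hi _ hz]
    constructor
    · intro hzO
      rw [gg, indicator_of_mem hzO, mm, ← hi.re z hz, ← h.re z hz, hzv]
    · intro hzO
      rw [gg, indicator_of_notMem hzO]
  filter_upwards [hx, hg] with t h1t h2t ht
  obtain ⟨n1, n2⟩ := Lin_642.nebot (pic_cpt hi) (cF hi K) (Ioo_subset_Icc_self ht)
  obtain ⟨x1, x2⟩ := h1t ht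
  obtain ⟨y1, y2⟩ := h2t ht
  constructor
  · refine Eam_116.lim_ind (p := fun v => (Uw6_913.endMap hi).inv ⟨t, v⟩ ∈ O)
      (m := fun v => h1 t * θ (pu hi (fun z => (F z).re) ⟨t, v⟩))
      (((hθ.tendsto _).comp x1).const_mul (h1 t)) y1 ?_ ?_
    · filter_upwards [self_mem_nhdsWithin] with v hv hvO
      exact (key t v hv.1).1 hvO
    · filter_upwards [self_mem_nhdsWithin] with v hv hvO
      exact (key t v hv.1).2 hvO
  · refine Eam_116.lim_ind (p := fun v => (Uw6_913.endMap hi).inv ⟨t, v⟩ ∈ O)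
      (m := fun v => h1 t * θ (pu hi (fun z => (F z).re) ⟨t, v⟩))
      (((hθ.tendsto _).comp x2).const_mul (h1 t)) y2 ?_ ?_
    · filter_upwards [self_mem_nhdsWithin] with v hv hvO
      exact (key t v hv.1).1 hvO
    · filter_upwards [self_mem_nhdsWithin] with v hv hvO
      exact (key t v hv.1).2 hvO

/-- the end values on the lines of the final picture are between `0` and `θ` -/
theorem k_vals (h : Pk Y x0 a φ F) (K : Cmp Yᶜᶜ) {h1 θ : ℝ → ℝ}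
    {O : Set ℂ} (hh : E13_499.Stp h1) (hθ : E13_499.Stp θ) {kT kB : ℝ → ℝ}
    (hg : EndsOf (F '' Yᶜ)ᶜ (cF h K) (pu h (gg x0 (a i) φ h1 θ O)) kT kB) :
    ∀ᵐ t : ℝ, t ∈ Ioo (Sqr_185.lo (cF h K).1) (Sqr_185.hi (cF h K).1) →
      kT t ∈ Icc 0 (θ t) ∧ kB t ∈ Icc 0 (θ t) := by
  have key : ∀ t v : ℝ, (⟨t, v⟩ : ℂ) ∉ (F '' Yᶜ)ᶜ →
      pu h (gg x0 (a i) φ h1 θ O) ⟨t, v⟩ ∈ Icc 0 (θ t) := by
    intro t v hv
    obtain ⟨z, hz, hzv⟩ := not_not.1 hv
    rw [← hzv, pu_apply h _ hz]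
    by_cases hzO : z ∈ O
    · rw [gg, indicator_of_mem hzO, mm, ← h.re z hz, hzv]
      exact ⟨mul_nonneg (hh.rg _).1 (hθ.rg _).1, mul_le_of_le_one_left (hθ.rg _).1 (hh.rg _).2⟩
    · rw [gg, indicator_of_notMem hzO]
      exact ⟨le_rfl, (hθ.rg _).1⟩
  filter_upwards [hg] with t h2t ht
  obtain ⟨n1, n2⟩ := Lin_642.nebot (pic_cpt h) (cF h K) (Ioo_subset_Icc_self ht)
  obtain ⟨y1, y2⟩ := h2t ht
  constructor
  · refine isClosed_Icc.mem_of_tendsto y1 ?_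
    filter_upwards [self_mem_nhdsWithin] with v hv
    exact key t v hv.1
  · refine isClosed_Icc.mem_of_tendsto y2 ?_
    filter_upwards [self_mem_nhdsWithin] with v hv
    exact key t v hv.1

end

end Crest.Agent.R105.Ptw_185
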