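import Crest.Agent.R105.Ptw1_116
import Crest.Agent.R105.Cnt2_116
import Crest.Agent.R105.Lnk3_632

/-!
# Row 105 (S0138), node E13, JOB 2 (helper116): `PTW` from `BAL`, part 2

* `lam` : the averages of the final picture lie in `[0, 1]`
* `bal_core` : `BAL` for one step `h1` in the form of `ptw`
* `ptw_of_bal : BAL → ADMG → PTW`
-/

set_option autoImplicit false

open MeasureTheory Set Filter Topology Metric
open scoped NNReal ENNReal ContDiff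

namespace Crest.Agent.R105.Ptw_116

open Crest.AnalysisR Tc_808 Ends_897 Bd_775
open Ni_459 (NI)
open Sqr_185 (sec SqK)
open Pct_185 (PicT)
open SkA_8 (Pk)
open E13_499

noncomputable section

variable {Y : Set ℂ} {x0 φ A : ℂ → ℝ} {a b : ℕ → ℂ → ℝ} {F P : ℂ → ℂ} {i : ℕ} {K : Cmp Yᶜᶜ}
  {h1 θ : ℝ → ℝ} {O : Set ℂ} {ex eu t0 be s : ℝ} {xT xB yT yB vT vB gT gB kT kB : ℝ → ℝ}

/-- the averages -/
theorem lam {l h : ℝ} (hθ : Rmp θ l h ex) (hlh : l ≤ h) {κ : ℝ → ℝ}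
    (hκm : AEMeasurable κ (volume.restrict (Ioo l h)))
    (hκ : ∀ᵐ σ : ℝ, σ ∈ Ioo l h → 0 ≤ κ σ ∧ κ σ ≤ θ σ) :
    IntegrableOn (fun σ => 2 * deriv θ σ * κ σ) (Icc l h) ∧
      ex * ∫ σ in Icc l h, 2 * deriv θ σ * κ σ ∈ Icc (0 : ℝ) 1 := by
  have hd : Continuous (deriv θ) := hθ.st.smooth.continuous_deriv (by simp)
  obtain ⟨C, hC⟩ := hd.bounded_above_of_compact_support hθ.st.supp
  have hκ' : ∀ᵐ σ ∂(volume.restrict (Ioo l h)), 0 ≤ κ σ ∧ κ σ ≤ θ σ :=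
    (ae_restrict_iff' measurableSet_Ioo).2 hκ
  have hI : IntegrableOn (fun σ => 2 * deriv θ σ * κ σ) (Ioo l h) := by
    refine Integrable.mono' (g := fun _ => 2 * C) (integrableOn_const measure_Ioo_lt_top.ne)
      (((continuous_const.mul hd).aestronglyMeasurable).mul hκm.aestronglyMeasurable) ?_
    filter_upwards [hκ'] with σ hσ
    have h2 := hC σ
    rw [norm_mul, norm_mul, Real.norm_eq_abs 2, abs_two]
    have h3 : ‖κ σ‖ ≤ 1 := by
      rw [Real.norm_eq_abs, abs_of_nonneg hσ.1]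
      exact hσ.2.trans (hθ.st.rg σ).2
    have h4 : 0 ≤ ‖deriv θ σ‖ := norm_nonneg _
    calc 2 * ‖deriv θ σ‖ * ‖κ σ‖ ≤ 2 * ‖deriv θ σ‖ * 1 :=
          mul_le_mul_of_nonneg_left h3 (by positivity)
      _ ≤ 2 * C := by linarith
  refine ⟨(integrableOn_Icc_iff_integrableOn_Ioo).2 hI, ?_⟩
  rw [integral_Icc_eq_integral_Ioo, ← integral_const_mul]
  have hθc : Continuous θ := hθ.st.smooth.continuous
  have hfull : ∫ σ in Ioo l h, ex * (2 * deriv θ σ * θ σ) = 1 := by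
    rw [integral_const_mul, ← integral_Ioc_eq_integral_Ioo, ← intervalIntegral.integral_of_le hlh]
    have h5 : ∀ σ ∈ uIcc l h, HasDerivAt (fun σ => θ σ ^ 2) (2 * deriv θ σ * θ σ) σ := by
      intro σ _
      have h6 : HasDerivAt θ (deriv θ σ) σ :=
        (hθ.st.smooth.differentiable (by simp) σ).hasDerivAt
      have h7 : HasDerivAt (fun σ => θ σ ^ 2) (2 * θ σ * deriv θ σ) σ := by
        simpa using h6.fun_pow 2
      convert h7 using 1
      ring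
    rw [intervalIntegral.integral_eq_sub_of_hasDerivAt h5
      (((continuous_const.mul hd).mul hθc).intervalIntegrable _ _)]
    rcases hθ.sg with ⟨e1, e2, e3⟩ | ⟨e1, e2, e3⟩
    · rw [e1, e2, e3]; norm_num
    · rw [e1, e2, e3]; norm_num
  constructor
  · refine setIntegral_nonneg_of_ae_restrict ?_
    filter_upwards [hκ'] with σ hσ
    have h5 := mul_nonneg (hθ.mono σ) hσ.1
    show (0 : ℝ) ≤ ex * (2 * deriv θ σ * κ σ)
    nlinarith
  · rw [← hfull]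
    refine integral_mono_ae (hI.const_mul ex) ?_ ?_
    · refine IntegrableOn.mono_set (t := Icc l h) ?_ Ioo_subset_Icc_self
      exact (continuous_const.mul ((continuous_const.mul hd).mul hθc)).continuousOn.integrableOn_Icc
    · filter_upwards [hκ'] with σ hσ
      have h5 := mul_le_mul_of_nonneg_left hσ.2 (hθ.mono σ)
      show ex * (2 * deriv θ σ * κ σ) ≤ ex * (2 * deriv θ σ * θ σ)
      nlinarith

theorem pu_cont (h : Pk Y x0 a φ F) {f : ℂ → ℝ} (hf : ContinuousOn f Yᶜ) :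
    ContinuousOn (pu h f) ((F '' Yᶜ)ᶜ)ᶜ := by
  rw [compl_compl]
  exact hf.comp (Uw6_913.endMap h).symm.cont fun w hw => (Uw6_913.endMap h).inv_mem hw

open Classical in
/-- the weight of the upper end -/
def nT (hi : Pk Y x0 b (a i) P) (K : Cmp Yᶜᶜ) (O : Set ℂ) (θ xT : ℝ → ℝ) (t : ℝ) : ℝ :=
  if InT hi K O t then θ (xT t) ^ 2 else 0

open Classical in
/-- the weight of the lower end -/
def nB (hi : Pk Y x0 b (a i) P) (K : Cmp Yᶜᶜ) (O : Set ℂ) (θ xB : ℝ → ℝ) (t : ℝ) : ℝ :=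
  if InB hi K O t then θ (xB t) ^ 2 else 0

/-- values of the ends of the test function, anchor picture -/
theorem g_val (h : Pk Y x0 a φ F) (hi : Pk Y x0 b (a i) P) (hh : Stp h1) (hθ : Stp θ)
    (hx : EndsOf (P '' Yᶜ)ᶜ (cF hi K) (pu hi fun z => (F z).re) xT xB)
    (hg : EndsOf (P '' Yᶜ)ᶜ (cF hi K)
      (pu hi (gg x0 (a i) φ h1 θ (O ∩ {z | 0 < h1 (x0 z + a i z)}))) gT gB) :
    ∀ᵐ t : ℝ, t ∈ Ioo (Sqr_185.lo (cF hi K).1) (Sqr_185.hi (cF hi K).1) →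
      gT t * θ (xT t) = h1 t * nT hi K O θ xT t ∧ gB t * θ (xB t) = h1 t * nB hi K O θ xB t := by
  have hE := (Uw6_913.picT hi).2.cpt
  filter_upwards [hx, hg] with t h2 h3 ht
  obtain ⟨n1, n2⟩ := Lin_642.nebot hE (cF hi K) (Ioo_subset_Icc_self ht)
  have e1 := end_P h hi hh hθ Lnk3_632.topF_off (h2 ht).1 (h3 ht).1
  have e2 := end_P h hi hh hθ Lnk3_632.botF_off (h2 ht).2 (h3 ht).2
  unfold nT nB InT InB
  rw [e1, e2]
  constructor
  · split_ifs <;> ring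
  · split_ifs <;> ring

/-- values of the ends of the test function, final picture -/
theorem k_val (h : Pk Y x0 a φ F) (hi : Pk Y x0 b (a i) P) (hh : Stp h1) (hθ : Stp θ)
    (hv : EndsOf (F '' Yᶜ)ᶜ (cF h K) (pu h fun z => (P z).re) vT vB)
    (hk : EndsOf (F '' Yᶜ)ᶜ (cF h K)
      (pu h (gg x0 (a i) φ h1 θ (O ∩ {z | 0 < h1 (x0 z + a i z)}))) kT kB) :
    ∀ᵐ σ : ℝ, σ ∈ Ioo (Sqr_185.lo (cF h K).1) (Sqr_185.hi (cF h K).1) →
      (0 ≤ kT σ * h1 (vT σ) ∧ kT σ * h1 (vT σ) ≤ θ σ) ∧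
      (0 ≤ kB σ * h1 (vB σ) ∧ kB σ * h1 (vB σ) ≤ θ σ) := by
  have hE := (Uw6_913.picT h).2.cpt
  filter_upwards [hv, hk] with σ h2 h3 ht
  obtain ⟨n1, n2⟩ := Lin_642.nebot hE (cF h K) (Ioo_subset_Icc_self ht)
  have e1 := end_F h hi hh Lnk3_632.topF_off (h2 ht).1 (h3 ht).1
  have e2 := end_F h hi hh Lnk3_632.botF_off (h2 ht).2 (h3 ht).2
  have h4 := hθ.rg σ
  have key : ∀ v : ℝ, 0 ≤ h1 v * θ σ * h1 v ∧ h1 v * θ σ * h1 v ≤ θ σ := fun v => by
    have h5 := hh.rg v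
    constructor
    · exact mul_nonneg (mul_nonneg h5.1 h4.1) h5.1
    · have h6 : h1 v * h1 v ≤ 1 := by nlinarith
      nlinarith
  rw [e1, e2]
  constructor
  · split_ifs
    · exact key _
    · rw [zero_mul]; exact ⟨le_rfl, h4.1⟩
  · split_ifs
    · exact key _
    · rw [zero_mul]; exact ⟨le_rfl, h4.1⟩

/-- the `P`-part of the balance -/
theorem p_part {lP hP : ℝ} (hh : Stp h1) (hsup : ∀ v, deriv h1 v ≠ 0 → v ∈ Icc lP hP)
    {xT xB gT gB nT nB : ℝ → ℝ} (hg : ∀ᵐ t : ℝ, t ∈ Ioo lP hP →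
      gT t * θ (xT t) = h1 t * nT t ∧ gB t * θ (xB t) = h1 t * nB t) (Y1 Y2 : ℝ → ℝ) :
    ∫ t in Icc lP hP, 2 * deriv h1 t * (gB t * θ (xB t) * Y2 t - gT t * θ (xT t) * Y1 t) =
      -∫ t, deriv (fun v => h1 v ^ 2) t * (nT t * Y1 t - nB t * Y2 t) := by
  have hd : ∀ t, deriv (fun v => h1 v ^ 2) t = 2 * h1 t * deriv h1 t := by
    intro t
    have h6 : HasDerivAt h1 (deriv h1 t) t := (hh.smooth.differentiable (by simp) t).hasDerivAt
    have h7 : HasDerivAt (fun v => h1 v ^ 2) (2 * h1 t * deriv h1 t) t := by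
      simpa using h6.fun_pow 2
    exact h7.deriv
  have e : ∫ t in Icc lP hP, -(deriv (fun v => h1 v ^ 2) t * (nT t * Y1 t - nB t * Y2 t)) =
      ∫ t, -(deriv (fun v => h1 v ^ 2) t * (nT t * Y1 t - nB t * Y2 t)) := by
    refine setIntegral_eq_integral_of_forall_compl_eq_zero fun t ht => ?_
    have : deriv h1 t = 0 := by
      by_contra hne
      exact ht (hsup t hne)
    rw [hd, this]; ring
  rw [← integral_neg, ← e, integral_Icc_eq_integral_Ioo, integral_Icc_eq_integral_Ioo]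
  refine setIntegral_congr_ae measurableSet_Ioo ?_
  filter_upwards [hg] with t ht hI
  obtain ⟨e1, e2⟩ := ht hI
  rw [e1, e2, hd]
  ring

theorem bal_core (hB : BAL) (hAD : ADMG) (h : Pk Y x0 a φ F) (hi : Pk Y x0 b (a i) P)
    (K : Cmp Yᶜᶜ) (hs : 0 < s) (hSq : SqK (cF h K).1 (Sqr_185.lo (cF h K).1) be s)
    (hsw : s = Sqr_185.wd (cF h K).1) (hEd : Ed h hi K xT xB yT yB vT vB)
    (hθ : Rmp θ (Sqr_185.lo (cF h K).1) (Sqr_185.hi (cF h K).1) ex)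
    (hU : Uc Y K.1 (fun z => min (eu * (x0 z + a i z - t0)) (θ (x0 z + φ z))) O) (hh : Stp h1)
    {δ : ℝ} (hδ : 0 < δ) (hsu : ∀ v, h1 v ≠ 0 → δ ≤ eu * (v - t0))
    (hsup : ∀ v, deriv h1 v ≠ 0 →
      v ∈ Icc (Sqr_185.lo (cF hi K).1) (Sqr_185.hi (cF hi K).1)) :
    ∃ lT ∈ Icc (0 : ℝ) 1, ∃ lB ∈ Icc (0 : ℝ) 1,
      ex * (∫ t, deriv (fun v => h1 v ^ 2) t * (nT hi K O θ xT t - nB hi K O θ xB t)) + lT - lB = 0 ∧
      ex * (∫ t, deriv (fun v => h1 v ^ 2) t *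
        (nT hi K O θ xT t * yT t - nB hi K O θ xB t * yB t)) + lT * (be + s) - lB * be
        ∈ Icc 0 s := by
  have hA : ContinuousOn (fun z => x0 z + a i z) Yᶜ := by
    refine ((Complex.continuous_re.comp_continuousOn hi.hol.continuousOn)).congr fun z hz => ?_
    exact (hi.re z hz).symm
  have hU' := uc_mm hA hU hh hθ.st hδ hsu
  obtain ⟨⟨gT, gB, hg⟩, ⟨kT, kB, hk⟩, hll⟩ := exists_ends_gg hAD h hi K hh hθ hU'
  obtain ⟨e1, e2, e3⟩ := hB Y x0 φ a b F P i K h1 θ _ h hi be s ex xT xB yT yB vT vB gT gB kT kB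
    hh hθ hU' hs hSq hsw hEd hg hk
  have hgv := g_val h hi hh hθ.st hEd.x hg
  have hkv := k_val h hi hh hθ.st hEd.v hk
  have hEF := (Uw6_913.picT h).2.cpt
  have hnF := fun t (ht : t ∈ Ioo (Sqr_185.lo (cF h K).1) (Sqr_185.hi (cF h K).1)) =>
    Lin_642.nebot hEF (cF h K) (Ioo_subset_Icc_self ht)
  obtain ⟨m1, m2⟩ := Eam_116.ends_aem hEF (cF h K) hnF (pu_cont h hll.continuousOn) hk
  obtain ⟨m3, m4⟩ := Eam_116.ends_aem hEF (cF h K) hnF (pu_cont h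
    (Complex.continuous_re.comp_continuousOn hi.hol.continuousOn)) hEd.v
  have hlh : Sqr_185.lo (cF h K).1 ≤ Sqr_185.hi (cF h K).1 := by
    have : Sqr_185.wd (cF h K).1 = Sqr_185.hi (cF h K).1 - Sqr_185.lo (cF h K).1 := rfl
    linarith
  have hm1 : Measurable h1 := hh.smooth.continuous.measurable
  obtain ⟨i1, l1⟩ := lam (κ := fun σ => kT σ * h1 (vT σ)) hθ hlh
    (m1.mul (hm1.comp_aemeasurable m3)) (hkv.mono fun σ hσ hI => (hσ hI).1)
  obtain ⟨i2, l2⟩ := lam (κ := fun σ => kB σ * h1 (vB σ)) hθ hlh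
    (m2.mul (hm1.comp_aemeasurable m4)) (hkv.mono fun σ hσ hI => (hσ hI).2)
  have hf : ∀ c1 c2 : ℝ, ∫ σ in Icc (Sqr_185.lo (cF h K).1) (Sqr_185.hi (cF h K).1),
      2 * deriv θ σ * (kB σ * h1 (vB σ) * c2 - kT σ * h1 (vT σ) * c1) =
      c2 * (∫ σ in Icc (Sqr_185.lo (cF h K).1) (Sqr_185.hi (cF h K).1),
        2 * deriv θ σ * (kB σ * h1 (vB σ))) -
      c1 * ∫ σ in Icc (Sqr_185.lo (cF h K).1) (Sqr_185.hi (cF h K).1),
        2 * deriv θ σ * (kT σ * h1 (vT σ)) := by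
    intro c1 c2
    rw [← integral_const_mul, ← integral_const_mul, ← integral_sub (i2.const_mul c2)
      (i1.const_mul c1)]
    exact integral_congr_ae (ae_of_all _ fun σ => by ring)
  have hbal : ∀ (Y1 Y2 : ℝ → ℝ) (c1 c2 : ℝ),
      Bal (Sqr_185.lo (cF hi K).1) (Sqr_185.hi (cF hi K).1) (Sqr_185.lo (cF h K).1)
        (Sqr_185.hi (cF h K).1) h1 θ xT xB vT vB gT gB kT kB Y1 Y2 c1 c2 =
      -(∫ t, deriv (fun v => h1 v ^ 2) t * (nT hi K O θ xT t * Y1 t - nB hi K O θ xB t * Y2 t)) +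
      (c2 * (∫ σ in Icc (Sqr_185.lo (cF h K).1) (Sqr_185.hi (cF h K).1),
        2 * deriv θ σ * (kB σ * h1 (vB σ))) -
      c1 * ∫ σ in Icc (Sqr_185.lo (cF h K).1) (Sqr_185.hi (cF h K).1),
        2 * deriv θ σ * (kT σ * h1 (vT σ))) := by
    intro Y1 Y2 c1 c2
    unfold Bal
    rw [p_part hh hsup hgv Y1 Y2, hf c1 c2]
  rw [hbal] at e1 e2 e3
  simp only [Pi.one_apply, mul_one, one_mul] at e1
  set J1 := ∫ t, deriv (fun v => h1 v ^ 2) t * (nT hi K O θ xT t - nB hi K O θ xB t) with hJ1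
  set J2 := ∫ t, deriv (fun v => h1 v ^ 2) t *
    (nT hi K O θ xT t * yT t - nB hi K O θ xB t * yB t) with hJ2
  set LT := ∫ σ in Icc (Sqr_185.lo (cF h K).1) (Sqr_185.hi (cF h K).1),
        2 * deriv θ σ * (kT σ * h1 (vT σ)) with hLT
  set LB := ∫ σ in Icc (Sqr_185.lo (cF h K).1) (Sqr_185.hi (cF h K).1),
        2 * deriv θ σ * (kB σ * h1 (vB σ)) with hLB
  rw [abs_le] at e2 e3
  refine ⟨ex * LT, l1, ex * LB, l2, ?_, ?_⟩
  · linear_combination (-ex) * e1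
  · rcases hθ.sg with ⟨rfl, -, -⟩ | ⟨rfl, -, -⟩
    · constructor
      · linarith [e3.1, e3.2, e2.1, e2.2]
      · linarith [e3.1, e3.2, e2.1, e2.2]
    · constructor
      · linarith [e3.1, e3.2, e2.1, e2.2]
      · linarith [e3.1, e3.2, e2.1, e2.2]

end

end Crest.Agent.R105.Ptw_116
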