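import Crest.Agent.R105.Ptw1_173

/-!
# Row 105, S0138, E13: PTW from BAL, part 2 (helper173)

* `core` : the balance with one step `H`
* `ptw : E13_499.PTW`
-/

set_option autoImplicit false

open MeasureTheory Set Filter Topology Metric
open scoped NNReal ENNReal ContDiff

namespace Crest.Agent.R105.Ptw_173

open Bd_775 Tc_808 Ends_897 Crest.AnalysisR
open IfB_641 (X0)
open Ni_459 (NI cpt_of LB)
open SkA_8 (Pk)
open Bp_338 (Wt WP WF)
open Bal_173
open E13_499 (cF Rmp Stp gg mm pu EndsOf Bal Ed Uc TopF BotF InT InB)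

noncomputable section

variable {Y : Set ℂ} {x0 φ A χ0 q W : ℂ → ℝ} {a b : ℕ → ℂ → ℝ} {F P : ℂ → ℂ}
  {H θ : ℝ → ℝ} {O : Set ℂ} {ex eu t0 δ be s : ℝ} {i : ℕ} {xT xB yT yB vT vB : ℝ → ℝ}

open Classical in
/-- the weight of the top end -/
def nT (hi : Pk Y x0 b (a i) P) (K : Cmp Yᶜᶜ) (O : Set ℂ) (θ xT : ℝ → ℝ) (t : ℝ) : ℝ :=
  if InT hi K O t then θ (xT t) ^ 2 else 0

open Classical in
/-- the weight of the bottom end -/
def nB (hi : Pk Y x0 b (a i) P) (K : Cmp Yᶜᶜ) (O : Set ℂ) (θ xB : ℝ → ℝ) (t : ℝ) : ℝ :=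
  if InB hi K O t then θ (xB t) ^ 2 else 0

theorem deriv_sq (hH : Stp H) (t : ℝ) : deriv (fun v => H v ^ 2) t = 2 * H t * deriv H t := by
  have h1 := ((hH.smooth.differentiable (by simp)) t).hasDerivAt.pow 2
  have h2 := h1.deriv
  simp only [Nat.cast_ofNat, Nat.add_one_sub_one, pow_one] at h2
  exact h2

/-- the integral of the step -/
theorem int_th {l r : ℝ} (hlr : l ≤ r) (hθ : Rmp θ l r ex) :
    ∫ σ in Icc l r, ex * (2 * θ σ * deriv θ σ) = 1 := by
  have hd : Continuous (deriv θ) := hθ.st.smooth.continuous_deriv (by simp)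
  have hc : Continuous fun σ => ex * (2 * θ σ * deriv θ σ) :=
    continuous_const.mul ((continuous_const.mul hθ.st.smooth.continuous).mul hd)
  rw [integral_Icc_eq_integral_Ioc, ← intervalIntegral.integral_of_le hlr,
    intervalIntegral.integral_eq_sub_of_hasDerivAt (f := fun σ => ex * θ σ ^ 2) (fun σ _ => ?_)
      (hc.intervalIntegrable _ _)]
  · rcases hθ.sg with ⟨e1, e2, e3⟩ | ⟨e1, e2, e3⟩ <;> rw [e1, e2, e3] <;> norm_num
  · have h1 := (((hθ.st.smooth.differentiable (by simp)) σ).hasDerivAt.pow 2).const_mul ex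
    simp only [Nat.cast_ofNat, Nat.add_one_sub_one, pow_one] at h1
    exact h1

/-- the balance with one step -/
theorem core (h : Pk Y x0 a φ F) (hi : Pk Y x0 b (a i) P) (K : Cmp Yᶜᶜ) (hs : 0 < s)
    (hQ : Sqr_185.SqK (cF h K).1 (Sqr_185.lo (cF h K).1) be s)
    (hw : s = Sqr_185.wd (cF h K).1) (hEd : Ed h hi K xT xB yT yB vT vB)
    (hθ : Rmp θ (Sqr_185.lo (cF h K).1) (Sqr_185.hi (cF h K).1) ex) (hδ : 0 < δ) (hH : Stp H)
    (hHδ : ∀ t, H t ≠ 0 → δ ≤ eu * (t - t0))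
    (hHs : ∀ t, deriv H t ≠ 0 →
      t ∈ Ioo (Sqr_185.lo (cF hi K).1) (Sqr_185.hi (cF hi K).1))
    (hu : Uc Y K.1 (fun z => min (eu * (x0 z + a i z - t0)) (θ (x0 z + φ z))) O) :
    ∃ lT ∈ Icc (0:ℝ) 1, ∃ lB ∈ Icc (0:ℝ) 1,
      ex * (∫ t, deriv (fun v => H v ^ 2) t * (nT hi K O θ xT t - nB hi K O θ xB t)) + lT - lB
        = 0 ∧
      ex * (∫ t, deriv (fun v => H v ^ 2) t *
        (nT hi K O θ xT t * yT t - nB hi K O θ xB t * yB t)) + lT * (be + s) - lB * be
        ∈ Icc 0 s := by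
  have hYo : IsOpen Yᶜ := h.hY.1
  have huc := uc_step hYo hδ hH hθ.st hHδ (mm_ll h i hH hθ.st) hu
  have hgg := gg_inter (x0 := x0) (A := a i) (φ := φ) (O := O) hH hθ.st
  obtain ⟨gT, gB, kT, kB, eg, ek, -, ikT, ikB⟩ := exists_g h hi K hH hθ huc hEd
  obtain ⟨b1, b2, b3⟩ := Bal_173.bal Y x0 φ a b F P i K H θ _ h hi be s ex xT xB yT yB vT vB
    gT gB kT kB hH hθ huc hs hQ hw hEd eg ek
  rw [hgg] at eg ek
  have ge := g_eq h hi K hθ.st hEd eg
  have kl := k_le h K hH hθ.st ek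
  have hex : ex * ex = 1 := by
    rcases hθ.sg with ⟨e1, -, -⟩ | ⟨e1, -, -⟩ <;> rw [e1] <;> norm_num
  have hLc : IsCompact (cF h K).1 := Cmp.isCompact (Uw6_913.picT h).2.cpt _
  have hlr : Sqr_185.lo (cF h K).1 ≤ Sqr_185.hi (cF h K).1 := Sqr_185.lo_le_hi hLc (cF h K).nonempty
  -- the P-part
  have pP : ∀ Y1 Y2 : ℝ → ℝ,
      (∫ t in Icc (Sqr_185.lo (cF hi K).1) (Sqr_185.hi (cF hi K).1),
        2 * deriv H t * (gB t * θ (xB t) * Y2 t - gT t * θ (xT t) * Y1 t)) =
      -∫ t, deriv (fun v => H v ^ 2) t *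
        (nT hi K O θ xT t * Y1 t - nB hi K O θ xB t * Y2 t) := by
    intro Y1 Y2
    have e0 : (∫ t in Icc (Sqr_185.lo (cF hi K).1) (Sqr_185.hi (cF hi K).1),
        deriv (fun v => H v ^ 2) t * (nT hi K O θ xT t * Y1 t - nB hi K O θ xB t * Y2 t)) =
        ∫ t, deriv (fun v => H v ^ 2) t *
          (nT hi K O θ xT t * Y1 t - nB hi K O θ xB t * Y2 t) := by
      refine setIntegral_eq_integral_of_forall_compl_eq_zero fun t ht => ?_
      have h0 : deriv H t = 0 := by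
        by_contra hc
        exact ht (Ioo_subset_Icc_self (hHs t hc))
      rw [deriv_sq hH, h0]
      ring
    rw [← e0, ← integral_neg]
    refine setIntegral_congr_ae measurableSet_Icc ?_
    filter_upwards [Lin_642.ae_Icc ge] with t ht hm
    obtain ⟨e1, e2⟩ := ht hm
    rw [e1, e2, deriv_sq hH]
    unfold nT nB
    split_ifs <;> ring
  -- the F-part
  have hd2 : Continuous (deriv θ) := hθ.st.smooth.continuous_deriv (by simp)
  obtain ⟨C2, hC2⟩ := hθ.st.supp.exists_bound_of_continuous hd2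
  have hmul : ∀ {f : ℝ → ℝ},
      IntegrableOn f (Icc (Sqr_185.lo (cF h K).1) (Sqr_185.hi (cF h K).1)) →
      IntegrableOn (fun t => ex * (deriv θ t * f t))
        (Icc (Sqr_185.lo (cF h K).1) (Sqr_185.hi (cF h K).1)) := fun hf =>
    (Integrable.bdd_mul (c := C2) hf hd2.measurable.aestronglyMeasurable
      (Eventually.of_forall hC2)).const_mul ex
  have iT := hmul ikT
  have iB := hmul ikB
  set lT : ℝ := ∫ t in Icc (Sqr_185.lo (cF h K).1) (Sqr_185.hi (cF h K).1),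
    ex * (deriv θ t * (2 * kT t * H (vT t) * 1)) with hlT
  set lB : ℝ := ∫ t in Icc (Sqr_185.lo (cF h K).1) (Sqr_185.hi (cF h K).1),
    ex * (deriv θ t * (2 * kB t * H (vB t) * 1)) with hlB
  have hF : ∀ c1 c2 : ℝ, (∫ σ in Icc (Sqr_185.lo (cF h K).1) (Sqr_185.hi (cF h K).1),
      2 * deriv θ σ * (kB σ * H (vB σ) * c2 - kT σ * H (vT σ) * c1)) = ex * (lB * c2 - lT * c1) := by
    intro c1 c2
    have e1 : ex * (lB * c2 - lT * c1) =
        ∫ σ in Icc (Sqr_185.lo (cF h K).1) (Sqr_185.hi (cF h K).1),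
          (ex * c2 * (ex * (deriv θ σ * (2 * kB σ * H (vB σ) * 1))) -
            ex * c1 * (ex * (deriv θ σ * (2 * kT σ * H (vT σ) * 1)))) := by
      rw [integral_sub (iB.const_mul _) (iT.const_mul _)]
      have u1 : ∫ σ in Icc (Sqr_185.lo (cF h K).1) (Sqr_185.hi (cF h K).1),
          ex * c2 * (ex * (deriv θ σ * (2 * kB σ * H (vB σ) * 1))) = ex * c2 * lB :=
        integral_const_mul _ _
      have u2 : ∫ σ in Icc (Sqr_185.lo (cF h K).1) (Sqr_185.hi (cF h K).1),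
          ex * c1 * (ex * (deriv θ σ * (2 * kT σ * H (vT σ) * 1))) = ex * c1 * lT :=
        integral_const_mul _ _
      rw [u1, u2]
      ring
    rw [e1]
    refine setIntegral_congr_fun measurableSet_Icc fun σ _ => ?_
    have e2 : ex * c2 * (ex * (deriv θ σ * (2 * kB σ * H (vB σ) * 1))) -
        ex * c1 * (ex * (deriv θ σ * (2 * kT σ * H (vT σ) * 1))) =
        (ex * ex) * (c2 * (deriv θ σ * (2 * kB σ * H (vB σ))) -
          c1 * (deriv θ σ * (2 * kT σ * H (vT σ)))) := by ring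
    rw [e2, hex]
    ring
  -- the bounds
  have bd : ∀ (k v : ℝ → ℝ), (∀ᵐ t : ℝ, t ∈ Icc (Sqr_185.lo (cF h K).1) (Sqr_185.hi (cF h K).1) →
      k t ∈ Icc 0 (θ t)) → IntegrableOn (fun t => ex * (deriv θ t * (2 * k t * H (v t) * 1)))
        (Icc (Sqr_185.lo (cF h K).1) (Sqr_185.hi (cF h K).1)) →
      (∫ t in Icc (Sqr_185.lo (cF h K).1) (Sqr_185.hi (cF h K).1),
        ex * (deriv θ t * (2 * k t * H (v t) * 1))) ∈ Icc (0:ℝ) 1 := by
    intro k v hk hint
    have hk' : ∀ᵐ t ∂(volume.restrict (Icc (Sqr_185.lo (cF h K).1) (Sqr_185.hi (cF h K).1))),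
        k t ∈ Icc 0 (θ t) := (ae_restrict_iff' measurableSet_Icc).2 hk
    constructor
    · refine integral_nonneg_of_ae ?_
      filter_upwards [hk'] with t ht
      have g1 := hθ.mono t
      have g2 := (hH.rg (v t)).1
      have e1 : ex * (deriv θ t * (2 * k t * H (v t) * 1)) =
          (ex * deriv θ t) * (2 * (k t * H (v t))) := by ring
      rw [Pi.zero_apply, e1]
      exact mul_nonneg g1 (mul_nonneg zero_le_two (mul_nonneg ht.1 g2))
    · refine le_of_le_of_eq ?_ (int_th hlr hθ)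
      have hc : Continuous fun σ => ex * (2 * θ σ * deriv θ σ) :=
        continuous_const.mul ((continuous_const.mul hθ.st.smooth.continuous).mul hd2)
      refine integral_mono_ae hint (hc.continuousOn.integrableOn_compact isCompact_Icc) ?_
      filter_upwards [hk'] with t ht
      have g1 := hθ.mono t
      have g2 := (hH.rg (v t)).1
      have g3 := (hH.rg (v t)).2
      have e1 : ex * (deriv θ t * (2 * k t * H (v t) * 1)) =
          (ex * deriv θ t) * (2 * (k t * H (v t))) := by ring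
      have e2 : ex * (2 * θ t * deriv θ t) = (ex * deriv θ t) * (2 * θ t) := by ring
      rw [e1, e2]
      refine mul_le_mul_of_nonneg_left ?_ g1
      have g4 : k t * H (v t) ≤ k t := mul_le_of_le_one_right ht.1 g3
      linarith [ht.2]
  have hlT1 : lT ∈ Icc (0:ℝ) 1 := by
    refine bd kT vT ?_ iT
    filter_upwards [Lin_642.ae_Icc kl] with t ht hm using (ht hm).1
  have hlB1 : lB ∈ Icc (0:ℝ) 1 := by
    refine bd kB vB ?_ iB
    filter_upwards [Lin_642.ae_Icc kl] with t ht hm using (ht hm).2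
  refine ⟨lT, hlT1, lB, hlB1, ?_, ?_⟩
  · unfold Bal at b1
    have e1 := pP (fun _ => 1) (fun _ => 1)
    have e2 := hF 1 1
    simp only [Pi.one_apply] at b1 e1
    rw [e1, e2] at b1
    simp only [mul_one] at b1
    have e3 : ex * ((-∫ t, deriv (fun v => H v ^ 2) t *
        (nT hi K O θ xT t - nB hi K O θ xB t)) + ex * (lB - lT)) = 0 := by rw [b1, mul_zero]
    have e4 : ex * ((-∫ t, deriv (fun v => H v ^ 2) t *
        (nT hi K O θ xT t - nB hi K O θ xB t)) + ex * (lB - lT)) =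
        -(ex * ∫ t, deriv (fun v => H v ^ 2) t *
        (nT hi K O θ xT t - nB hi K O θ xB t)) + (ex * ex) * (lB - lT) := by ring
    rw [e4, hex] at e3
    linarith
  · unfold Bal at b2 b3
    rw [pP yT yB, hF (be + s) be] at b2 b3
    set D := ∫ t, deriv (fun v => H v ^ 2) t *
        (nT hi K O θ xT t * yT t - nB hi K O θ xB t * yB t) with hD
    rw [abs_le] at b2 b3
    rcases hθ.sg with ⟨e1, -, -⟩ | ⟨e1, -, -⟩
    · rw [e1] at b2 b3 ⊢
      constructor <;> linarith [b2.1, b2.2, b3.1, b3.2]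
    · rw [e1] at b2 b3 ⊢
      constructor <;> linarith [b2.1, b2.2, b3.1, b3.2]

/-- the base step -/
def H0 (eu t0 δ v : ℝ) : ℝ := Real.smoothTransition ((eu * (v - t0) - δ / 2) / (δ / 2))

theorem H0_one (hδ : 0 < δ) {v : ℝ} (hv : δ ≤ eu * (v - t0)) : H0 eu t0 δ v = 1 := by
  unfold H0
  refine Real.smoothTransition.one_of_one_le ?_
  rw [le_div_iff₀ (by linarith)]
  linarith

theorem H0_zero (hδ : 0 < δ) {v : ℝ} (hv : eu * (v - t0) ≤ δ / 2) : H0 eu t0 δ v = 0 := by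
  unfold H0
  refine Real.smoothTransition.zero_of_nonpos ?_
  exact div_nonpos_of_nonpos_of_nonneg (by linarith) (by linarith)

theorem stp_of {p r : ℝ} (hs : ContDiff ℝ (⊤ : ℕ∞) H) (hrg : ∀ t, 0 ≤ H t ∧ H t ≤ 1)
    (hc : ∀ t, t ∉ Icc p r → deriv H t = 0) : Stp H :=
  ⟨hs, hrg, HasCompactSupport.intro isCompact_Icc hc⟩

theorem H0_stp (heu : eu = 1 ∨ eu = -1) (hδ : 0 < δ) : Stp (H0 eu t0 δ) := by
  refine stp_of (p := t0 - δ) (r := t0 + δ) ?_ (fun t => ⟨Real.smoothTransition.nonneg _,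
    Real.smoothTransition.le_one _⟩) fun t ht => ?_
  · refine Real.smoothTransition.contDiff.comp ?_
    fun_prop
  · have hcase : eu * (t - t0) < δ / 2 ∨ δ < eu * (t - t0) := by
      by_contra hcon
      push Not at hcon
      apply ht
      rcases heu with rfl | rfl
      · constructor <;> linarith [hcon.1, hcon.2]
      · constructor <;> linarith [hcon.1, hcon.2]
    have hcm : Continuous fun v : ℝ => eu * (v - t0) := by fun_prop
    rcases hcase with h1 | h1
    · have e : H0 eu t0 δ =ᶠ[𝓝 t] fun _ => 0 := by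
        filter_upwards [hcm.continuousAt.preimage_mem_nhds (Iio_mem_nhds h1)] with v hv
        exact H0_zero hδ (le_of_lt hv)
      rw [e.deriv_eq]; simp
    · have e : H0 eu t0 δ =ᶠ[𝓝 t] fun _ => 1 := by
        filter_upwards [hcm.continuousAt.preimage_mem_nhds (Ioi_mem_nhds h1)] with v hv
        exact H0_one hδ (le_of_lt hv)
      rw [e.deriv_eq]; simp

/-- integrability of the weights inside the region -/
theorem n_int (h : Pk Y x0 a φ F) (hi : Pk Y x0 b (a i) P) (K : Cmp Yᶜᶜ)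
    (hEd : Ed h hi K xT xB yT yB vT vB)
    (hθ : Rmp θ (Sqr_185.lo (cF h K).1) (Sqr_185.hi (cF h K).1) ex) (heu : eu = 1 ∨ eu = -1)
    (hδ : 0 < δ)
    (hu : Uc Y K.1 (fun z => min (eu * (x0 z + a i z - t0)) (θ (x0 z + φ z))) O) {S : Set ℝ}
    (hSm : MeasurableSet S)
    (hS : ∀ t ∈ S, t ∈ Ioo (Sqr_185.lo (cF hi K).1) (Sqr_185.hi (cF hi K).1) ∧
      δ ≤ eu * (t - t0)) {w : ℂ → ℝ} {wT wB : ℝ → ℝ} (hw : Wt hi w)
    (he : EndsOf (P '' Yᶜ)ᶜ (cF hi K) (pu hi w) wT wB) :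
    IntegrableOn (fun t => nT hi K O θ xT t * wT t) S ∧
    IntegrableOn (fun t => nB hi K O θ xB t * wB t) S := by
  have hYo : IsOpen Yᶜ := h.hY.1
  have hH := H0_stp (t0 := t0) heu hδ
  have hHδ : ∀ t, H0 eu t0 δ t ≠ 0 → δ / 2 ≤ eu * (t - t0) := fun t ht => by
    by_contra hc
    push Not at hc
    exact ht (H0_zero hδ hc.le)
  have huc := uc_step hYo (half_pos hδ) hH hθ.st hHδ (mm_ll h i hH hθ.st) hu
  have hgg := gg_inter (x0 := x0) (A := a i) (φ := φ) (O := O) hH hθ.st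
  obtain ⟨gT, gB, kT, kB, eg, -, hint, -, -⟩ := exists_g h hi K hH hθ huc hEd
  rw [hgg] at eg
  have ge := g_eq h hi K hθ.st hEd eg
  obtain ⟨j1, j2⟩ := hint w wT wB hw he
  have hsub : S ⊆ Icc (Sqr_185.lo (cF hi K).1) (Sqr_185.hi (cF hi K).1) := fun t ht =>
    Ioo_subset_Icc_self (hS t ht).1
  constructor
  · refine (((j1.mono_set hsub).const_mul (1 / 2))).congr ?_
    filter_upwards [(ae_restrict_iff' hSm).2 (ae_of_all _ fun t ht => ht),
      ae_restrict_of_ae ge] with t htS hg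
    obtain ⟨g1, g2⟩ := hS t htS
    rw [(hg g1).1, H0_one hδ g2]
    unfold nT
    split_ifs <;> ring
  · refine (((j2.mono_set hsub).const_mul (1 / 2))).congr ?_
    filter_upwards [(ae_restrict_iff' hSm).2 (ae_of_all _ fun t ht => ht),
      ae_restrict_of_ae ge] with t htS hg
    obtain ⟨g1, g2⟩ := hS t htS
    rw [(hg g1).2, H0_one hδ g2]
    unfold nB
    split_ifs <;> ring

/-- steps up -/
theorem of_up {t1 t2 : ℝ} (hH : Cnt_116.Stp t1 t2 H) :
    Stp H ∧ (∀ t, deriv H t ≠ 0 → t ∈ Ioo t1 t2) ∧ ∀ t, H t ≠ 0 → t1 < t := by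
  obtain ⟨p, hp, hp0⟩ := hH.lo
  obtain ⟨r, hr, hr1⟩ := hH.hi
  have hc : ∀ t, t ∉ Icc p r → deriv H t = 0 := by
    intro t ht
    have : t < p ∨ r < t := by
      by_contra hcon
      push Not at hcon
      exact ht hcon
    rcases this with h1 | h1
    · have e : H =ᶠ[𝓝 t] fun _ => 0 := by
        filter_upwards [Iio_mem_nhds h1] with v hv using hp0 v (le_of_lt hv)
      rw [e.deriv_eq]; simp
    · have e : H =ᶠ[𝓝 t] fun _ => 1 := by
        filter_upwards [Ioi_mem_nhds h1] with v hv using hr1 v (le_of_lt hv)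
      rw [e.deriv_eq]; simp
  refine ⟨stp_of hH.sm (fun t => ⟨hH.nonneg t, hH.le_one t⟩) hc, fun t ht => ?_, fun t ht => ?_⟩
  · by_contra hcon
    refine ht (hc t fun h1 => hcon ⟨hp.trans_le h1.1, h1.2.trans_lt hr⟩)
  · by_contra hcon
    push Not at hcon
    exact ht (hp0 t (hcon.trans hp.le))

/-- steps down -/
theorem of_dn {t1 t2 : ℝ} (hH : Cnt_116.StpD t1 t2 H) :
    Stp H ∧ (∀ t, deriv H t ≠ 0 → t ∈ Ioo t1 t2) ∧ ∀ t, H t ≠ 0 → t < t2 := by
  obtain ⟨p, hp, hp0⟩ := hH.lo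
  obtain ⟨r, hr, hr1⟩ := hH.hi
  have hc : ∀ t, t ∉ Icc p r → deriv H t = 0 := by
    intro t ht
    have : t < p ∨ r < t := by
      by_contra hcon
      push Not at hcon
      exact ht hcon
    rcases this with h1 | h1
    · have e : H =ᶠ[𝓝 t] fun _ => 1 := by
        filter_upwards [Iio_mem_nhds h1] with v hv using hp0 v (le_of_lt hv)
      rw [e.deriv_eq]; simp
    · have e : H =ᶠ[𝓝 t] fun _ => 0 := by
        filter_upwards [Ioi_mem_nhds h1] with v hv using hr1 v (le_of_lt hv)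
      rw [e.deriv_eq]; simp
  refine ⟨stp_of hH.sm (fun t => ⟨?_, ?_⟩) hc, fun t ht => ?_, fun t ht => ?_⟩
  · rcases le_total t r with h1 | h1
    · rw [← hr1 r le_rfl]; exact hH.anti h1
    · rw [hr1 t h1]
  · rcases le_total t p with h1 | h1
    · rw [hp0 t h1]
    · rw [← hp0 p le_rfl]; exact hH.anti h1
  · by_contra hcon
    refine ht (hc t fun h1 => hcon ⟨hp.trans_le h1.1, h1.2.trans_lt hr⟩)
  · by_contra hcon
    push Not at hcon
    exact ht (hr1 t (hr.le.trans hcon))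

/-- **PTW** -/
theorem ptw : E13_499.PTW := by
  intro Y x0 φ a b F P i K θ O h hi be s ex eu t0 xT xB yT yB vT vB hs hQ hw hEd hθ heu ht0 hu
  have main : ∀ n : ℕ, ∀ᵐ t : ℝ,
      t ∈ Ioo (Sqr_185.lo (cF hi K).1) (Sqr_185.hi (cF hi K).1) →
      1 / ((n:ℝ) + 1) < eu * (t - t0) →
      ∃ lT ∈ Icc (0 : ℝ) 1, ∃ lB ∈ Icc (0 : ℝ) 1,
        eu * ex * (nT hi K O θ xT t - nB hi K O θ xB t) + lT - lB = 0 ∧
        eu * ex * (nT hi K O θ xT t * yT t - nB hi K O θ xB t * yB t) + lT * (be + s) - lB * be ∈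
          Icc 0 s := by
    intro n
    set δ : ℝ := 1 / ((n:ℝ) + 1) with hδd
    have hδ : 0 < δ := by positivity
    rcases heu with rfl | rfl
    · have hS : ∀ t ∈ Ioo (t0 + δ) (Sqr_185.hi (cF hi K).1),
          t ∈ Ioo (Sqr_185.lo (cF hi K).1) (Sqr_185.hi (cF hi K).1) ∧ δ ≤ 1 * (t - t0) := by
        intro t ht
        exact ⟨⟨by linarith [ht.1, ht0.1], ht.2⟩, by linarith [ht.1]⟩
      obtain ⟨i1, i2⟩ := n_int h hi K hEd hθ (Or.inl rfl) hδ hu measurableSet_Ioo hS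
        (Wt.const hi 1) (Bp_338.ends_const 1)
      obtain ⟨i3, i4⟩ := n_int h hi K hEd hθ (Or.inl rfl) hδ hu measurableSet_Ioo hS
        (Wt.im h hi) hEd.y
      simp only [mul_one] at i1 i2
      have hp := Cnt_116.ptw (k := 2) (e := ex) (b := be) (s := s) (nT := nT hi K O θ xT)
        (nB := nB hi K O θ xB) (yT := yT) (yB := yB) two_ne_zero (i1.sub i2) (i3.sub i4)
        (fun H hH => by
          obtain ⟨q1, q2, q3⟩ := of_up hH
          exact core (eu := 1) (t0 := t0) h hi K hs hQ hw hEd hθ hδ q1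
            (fun t ht => by linarith [q3 t ht]) (fun t ht => (hS t (q2 t ht)).1) hu)
      filter_upwards [hp] with t ht hI hpos
      have := ht ⟨by linarith, hI.2⟩
      simpa only [one_mul] using this
    · have hS : ∀ t ∈ Ioo (Sqr_185.lo (cF hi K).1) (t0 - δ),
          t ∈ Ioo (Sqr_185.lo (cF hi K).1) (Sqr_185.hi (cF hi K).1) ∧ δ ≤ -1 * (t - t0) := by
        intro t ht
        exact ⟨⟨ht.1, by linarith [ht.2, ht0.2]⟩, by linarith [ht.2]⟩
      obtain ⟨i1, i2⟩ := n_int h hi K hEd hθ (Or.inr rfl) hδ hu measurableSet_Ioo hS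
        (Wt.const hi 1) (Bp_338.ends_const 1)
      obtain ⟨i3, i4⟩ := n_int h hi K hEd hθ (Or.inr rfl) hδ hu measurableSet_Ioo hS
        (Wt.im h hi) hEd.y
      simp only [mul_one] at i1 i2
      have hp := Cnt_116.ptw_dn (k := 2) (e := -ex) (b := be) (s := s) (nT := nT hi K O θ xT)
        (nB := nB hi K O θ xB) (yT := yT) (yB := yB) two_ne_zero (i1.sub i2) (i3.sub i4)
        (fun H hH => by
          obtain ⟨q1, q2, q3⟩ := of_dn hH
          have := core (eu := -1) (t0 := t0) h hi K hs hQ hw hEd hθ hδ q1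
            (fun t ht => by linarith [q3 t ht]) (fun t ht => (hS t (q2 t ht)).1) hu
          simpa only [neg_mul_neg] using this)
      filter_upwards [hp] with t ht hI hpos
      have := ht ⟨hI.1, by linarith⟩
      simpa only [neg_mul, one_mul] using this
  filter_upwards [ae_all_iff.2 main] with t ht hI hpos
  obtain ⟨n, hn⟩ := exists_nat_one_div_lt hpos
  exact ht n hI hn

end

end Crest.Agent.R105.Ptw_173
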