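import Crest.Agent.R105.Ptw1_185

/-!
# Row 105, S0138, node E13: `PTW` from `BAL`, part 2 (helper185)

`bal_step` : the identities of `BAL` for one step function; `ptw_of_bal`.
-/

set_option autoImplicit false

open MeasureTheory Set Filter Topology Metric
open scoped NNReal ENNReal ContDiff

namespace Crest.Agent.R105.Ptw_185

open Tc_808 Bd_775 Ends_897 Ni_459
open SkA_8 (Pk)
open E13_499
open Bp_338 (Wt pu_apply ends_congr ends_comp ends_mul ends_cut)

noncomputable section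

variable {Y : Set ℂ} {x0 φ A : ℂ → ℝ} {a b : ℕ → ℂ → ℝ} {F P : ℂ → ℂ} {i : ℕ}

open Classical in
/-- the number of the top end -/
def nT (hi : Pk Y x0 b (a i) P) (K : Cmp Yᶜᶜ) (O : Set ℂ) (θ xT : ℝ → ℝ) (t : ℝ) : ℝ :=
  if InT hi K O t then θ (xT t) ^ 2 else 0

open Classical in
/-- the number of the bottom end -/
def nB (hi : Pk Y x0 b (a i) P) (K : Cmp Yᶜᶜ) (O : Set ℂ) (θ xB : ℝ → ℝ) (t : ℝ) : ℝ :=
  if InB hi K O t then θ (xB t) ^ 2 else 0

theorem ae_of_Ioo {l u : ℝ} {p : ℝ → Prop} (h : ∀ᵐ t : ℝ, t ∈ Ioo l u → p t) :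
    ∀ᵐ t : ℝ, t ∈ Icc l u → p t := by
  have h1 : ∀ᵐ t : ℝ, t ≠ l := by rw [ae_iff]; simp
  have h2 : ∀ᵐ t : ℝ, t ≠ u := by rw [ae_iff]; simp
  filter_upwards [h, h1, h2] with t h h1 h2 ht
  exact h ⟨lt_of_le_of_ne ht.1 (Ne.symm h1), lt_of_le_of_ne ht.2 h2⟩

theorem hd_sq {f : ℝ → ℝ} {t d : ℝ} (hd : HasDerivAt f d t) :
    HasDerivAt (fun v => f v ^ 2) (2 * f t * d) t := by
  have e : (fun v => f v ^ 2) = fun v => f v * f v := by funext v; ring
  rw [e]
  exact (hd.mul hd).congr_deriv (by ring)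

/-- the weight `2 ex θ' θ` has integral one -/
theorem int_theta {θ : ℝ → ℝ} {l u ex : ℝ} (hlu : l ≤ u) (hR : Rmp θ l u ex) :
    ∫ σ in Icc l u, 2 * (ex * deriv θ σ) * θ σ = 1 := by
  rw [integral_Icc_eq_integral_Ioc, ← intervalIntegral.integral_of_le hlu]
  have hd : ∀ σ, HasDerivAt (fun σ => ex * θ σ ^ 2) (2 * (ex * deriv θ σ) * θ σ) σ := fun σ => by
    have h1 : HasDerivAt θ (deriv θ σ) σ :=
      (hR.st.smooth.differentiable (by simp) σ).hasDerivAt
    exact ((hd_sq h1).const_mul ex).congr_deriv (by ring)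
  have hc : Continuous fun σ => 2 * (ex * deriv θ σ) * θ σ :=
    (continuous_const.mul (continuous_const.mul
      (hR.st.smooth.continuous_deriv (by simp)))).mul hR.st.smooth.continuous
  rw [intervalIntegral.integral_eq_sub_of_hasDerivAt (fun σ _ => hd σ)
    (hc.intervalIntegrable _ _)]
  rcases hR.sg with ⟨h1, h2, h3⟩ | ⟨h1, h2, h3⟩
  · rw [h1, h2, h3]; norm_num
  · rw [h1, h2, h3]; norm_num

/-- bounded continuous derivative of a step -/
theorem deriv_bdd {θ : ℝ → ℝ} (h : E13_499.Stp θ) : ∃ C, ∀ t, ‖deriv θ t‖ ≤ C :=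
  (h.smooth.continuous_deriv (by simp)).bounded_above_of_compact_support h.supp

/-- the average of the ends on the lines of the final picture -/
theorem l_mem {θ k w : ℝ → ℝ} {l u ex : ℝ} (hlu : l ≤ u) (hR : Rmp θ l u ex)
    (hk : IntegrableOn k (Icc l u)) (hw : AEStronglyMeasurable w (volume.restrict (Icc l u)))
    (hw1 : ∀ t, w t ∈ Icc (0 : ℝ) 1) (hkv : ∀ᵐ t : ℝ, t ∈ Ioo l u → k t ∈ Icc 0 (θ t)) :
    IntegrableOn (fun σ => 2 * deriv θ σ * (k σ * w σ)) (Icc l u) ∧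
    ex * (∫ σ in Icc l u, 2 * deriv θ σ * (k σ * w σ)) ∈ Icc (0 : ℝ) 1 := by
  obtain ⟨C, hC⟩ := deriv_bdd hR.st
  have hdc : Continuous (deriv θ) := hR.st.smooth.continuous_deriv (by simp)
  have i1 : IntegrableOn (fun σ => w σ * k σ) (Icc l u) := by
    refine Integrable.bdd_mul (c := 1) hk hw (Eventually.of_forall fun t => ?_)
    rw [Real.norm_eq_abs, abs_of_nonneg (hw1 t).1]
    exact (hw1 t).2
  have i2 : IntegrableOn (fun σ => (2 * deriv θ σ) * (w σ * k σ)) (Icc l u) := by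
    refine Integrable.bdd_mul (c := 2 * C) i1
      (continuous_const.mul hdc).aestronglyMeasurable (Eventually.of_forall fun t => ?_)
    rw [norm_mul, Real.norm_eq_abs, abs_two]
    exact mul_le_mul_of_nonneg_left (hC t) (by norm_num)
  have i3 : IntegrableOn (fun σ => 2 * deriv θ σ * (k σ * w σ)) (Icc l u) :=
    i2.congr (Eventually.of_forall fun t => by simp only; ring)
  refine ⟨i3, ?_⟩
  rw [← integral_const_mul]
  have hkv' := ae_of_Ioo hkv
  rw [← ae_restrict_iff' measurableSet_Icc] at hkv'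
  constructor
  · refine integral_nonneg_of_ae ?_
    filter_upwards [hkv'] with t ht
    have h1 := hR.mono t
    have h2 : ex * (2 * deriv θ t * (k t * w t)) = 2 * (ex * deriv θ t) * (k t * w t) := by ring
    show 0 ≤ _
    rw [h2]
    exact mul_nonneg (mul_nonneg (by norm_num) h1) (mul_nonneg ht.1 (hw1 t).1)
  · rw [← int_theta hlu hR]
    have hc : Continuous fun σ => 2 * (ex * deriv θ σ) * θ σ :=
      (continuous_const.mul (continuous_const.mul hdc)).mul hR.st.smooth.continuous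
    refine integral_mono_ae (i3.const_mul ex) (hc.integrableOn_Icc) ?_
    filter_upwards [hkv'] with t ht
    have h1 := hR.mono t
    have h2 : ex * (2 * deriv θ t * (k t * w t)) = 2 * (ex * deriv θ t) * (k t * w t) := by ring
    show _ ≤ _
    rw [h2]
    refine mul_le_mul_of_nonneg_left ?_ (mul_nonneg (by norm_num) h1)
    exact (mul_le_of_le_one_right ht.1 (hw1 t).2).trans ht.2

/-- **the identities of `BAL` for one step function** -/
theorem bal_step (hBAL : BAL) (hA : ADMG) (h : Pk Y x0 a φ F) (hi : Pk Y x0 b (a i) P)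
    (K : Cmp Yᶜᶜ) {h1 θ : ℝ → ℝ} {O : Set ℂ} {be s ex eu t0 δ : ℝ}
    {xT xB yT yB vT vB : ℝ → ℝ} (hh : E13_499.Stp h1) (hδ : 0 < δ)
    (hsup : ∀ t, h1 t ≠ 0 → δ ≤ eu * (t - t0))
    (hsup2 : ∀ t, t ∉ Icc (Sqr_185.lo (cF hi K).1) (Sqr_185.hi (cF hi K).1) → deriv h1 t = 0)
    (hR : Rmp θ (Sqr_185.lo (cF h K).1) (Sqr_185.hi (cF h K).1) ex)
    (hO : Uc Y K.1 (fun z => min (eu * (x0 z + a i z - t0)) (θ (x0 z + φ z))) O)
    (hs : 0 < s) (hSq : Sqr_185.SqK (cF h K).1 (Sqr_185.lo (cF h K).1) be s)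
    (hwd : s = Sqr_185.wd (cF h K).1) (hE : Ed h hi K xT xB yT yB vT vB) :
    ∃ lT ∈ Icc (0 : ℝ) 1, ∃ lB ∈ Icc (0 : ℝ) 1,
      ex * (∫ t, deriv (fun v => h1 v ^ 2) t * (nT hi K O θ xT t - nB hi K O θ xB t)) + lT - lB = 0 ∧
      ex * (∫ t, deriv (fun v => h1 v ^ 2) t *
        (nT hi K O θ xT t * yT t - nB hi K O θ xB t * yB t)) + lT * (be + s) - lB * be ∈ Icc 0 s := by
  classical
  have hU := uc_step h hh hR.st hδ hsup hO
  obtain ⟨gT, gB, kT, kB, e1, e2, -, -, i3, i4⟩ := exists_ends_gg hA h hi K hh hR hU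
  obtain ⟨b1, b2, b3⟩ := hBAL Y x0 φ a b F P i K h1 θ _ h hi be s ex xT xB yT yB vT vB gT gB kT kB
    hh hR hU hs hSq hwd hE e1 e2
  rw [gg_cut hh hR.st] at e1 e2
  have v1 := g_vals h hi K hR.st.smooth.continuous hE.x e1
  have v2 := k_vals h K hh hR.st e2
  have hlu : Sqr_185.lo (cF h K).1 ≤ Sqr_185.hi (cF h K).1 := by
    have : Sqr_185.hi (cF h K).1 - Sqr_185.lo (cF h K).1 = s := hwd.symm
    linarith
  -- measurability of the ends `v`
  have wv : Wt h fun z => x0 z + a i z := Wt.x0add h (h.tta i) (Grd_782.NI_symm (h.com i))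
  have hv' : EndsOf (F '' Yᶜ)ᶜ (cF h K) (pu h fun z => x0 z + a i z) vT vB := by
    refine ends_congr (pic_cpt h) isOpen_univ (subset_univ _) (fun ζ _ hζE => ?_) hE.v
    obtain ⟨z, hz, rfl⟩ := not_not.1 hζE
    rw [pu_apply h _ hz, pu_apply h _ hz, hi.re z hz]
  obtain ⟨m1, m2⟩ := wt_int h K wv hv'
  have hmT : AEStronglyMeasurable (fun σ => h1 (vT σ))
      (volume.restrict (Icc (Sqr_185.lo (cF h K).1) (Sqr_185.hi (cF h K).1))) :=
    hh.smooth.continuous.comp_aestronglyMeasurable m1.aestronglyMeasurable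
  have hmB : AEStronglyMeasurable (fun σ => h1 (vB σ))
      (volume.restrict (Icc (Sqr_185.lo (cF h K).1) (Sqr_185.hi (cF h K).1))) :=
    hh.smooth.continuous.comp_aestronglyMeasurable m2.aestronglyMeasurable
  obtain ⟨j1, lT01⟩ := l_mem hlu hR i3 hmT (fun t => hh.rg _) (v2.mono fun t ht hI => (ht hI).1)
  obtain ⟨j2, lB01⟩ := l_mem hlu hR i4 hmB (fun t => hh.rg _) (v2.mono fun t ht hI => (ht hI).2)
  set IT : ℝ := ∫ σ in Icc (Sqr_185.lo (cF h K).1) (Sqr_185.hi (cF h K).1),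
    2 * deriv θ σ * (kT σ * h1 (vT σ)) with hIT
  set IB : ℝ := ∫ σ in Icc (Sqr_185.lo (cF h K).1) (Sqr_185.hi (cF h K).1),
    2 * deriv θ σ * (kB σ * h1 (vB σ)) with hIB
  -- the number `Bal`
  have hBal : ∀ (Y1 Y2 : ℝ → ℝ) (c1 c2 : ℝ),
      Bal (Sqr_185.lo (cF hi K).1) (Sqr_185.hi (cF hi K).1) (Sqr_185.lo (cF h K).1)
        (Sqr_185.hi (cF h K).1) h1 θ xT xB vT vB gT gB kT kB Y1 Y2 c1 c2 =
      -(∫ t, deriv (fun v => h1 v ^ 2) t *
        (nT hi K O θ xT t * Y1 t - nB hi K O θ xB t * Y2 t)) + (c2 * IB - c1 * IT) := by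
    intro Y1 Y2 c1 c2
    unfold Bal
    congr 1
    · have hd : ∀ t, deriv (fun v => h1 v ^ 2) t = 2 * h1 t * deriv h1 t := fun t =>
        (hd_sq (hh.smooth.differentiable (by simp) t).hasDerivAt).deriv
      have hfull : (∫ t in Icc (Sqr_185.lo (cF hi K).1) (Sqr_185.hi (cF hi K).1),
          -(deriv (fun v => h1 v ^ 2) t *
          (nT hi K O θ xT t * Y1 t - nB hi K O θ xB t * Y2 t))) =
          ∫ t, -(deriv (fun v => h1 v ^ 2) t *
          (nT hi K O θ xT t * Y1 t - nB hi K O θ xB t * Y2 t)) := by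
        refine setIntegral_eq_integral_of_forall_compl_eq_zero fun t ht => ?_
        rw [hd, hsup2 t ht]
        ring
      rw [← integral_neg, ← hfull]
      refine setIntegral_congr_ae measurableSet_Icc ?_
      filter_upwards [ae_of_Ioo v1] with t ht hI
      obtain ⟨q1, q2⟩ := ht hI
      rw [q1, q2, hd, nT, nB]
      split_ifs <;> ring
    · rw [hIB, hIT, ← integral_const_mul, ← integral_const_mul, ← integral_sub
        (j2.const_mul c2) (j1.const_mul c1)]
      refine integral_congr_ae (Eventually.of_forall fun σ => ?_)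
      simp only
      ring
  have hex : ex * ex = 1 := by
    rcases hR.sg with ⟨h, -, -⟩ | ⟨h, -, -⟩ <;> rw [h] <;> norm_num
  have habs : |ex| = 1 := by
    rcases hR.sg with ⟨h, -, -⟩ | ⟨h, -, -⟩ <;> rw [h] <;> norm_num
  refine ⟨ex * IT, lT01, ex * IB, lB01, ?_, ?_⟩
  · rw [hBal] at b1
    have e : (∫ t, deriv (fun v => h1 v ^ 2) t *
        (nT hi K O θ xT t * (1 : ℝ → ℝ) t - nB hi K O θ xB t * (1 : ℝ → ℝ) t)) =
        ∫ t, deriv (fun v => h1 v ^ 2) t * (nT hi K O θ xT t - nB hi K O θ xB t) := by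
      refine integral_congr_ae (Eventually.of_forall fun t => ?_)
      simp only [Pi.one_apply, mul_one]
    rw [e] at b1
    linear_combination (-ex) * b1
  · rw [hBal] at b2 b3
    set J : ℝ := ∫ t, deriv (fun v => h1 v ^ 2) t *
      (nT hi K O θ xT t * yT t - nB hi K O θ xB t * yB t) with hJ
    set B : ℝ := -J + (be * IB - (be + s) * IT) with hB
    have hD : ex * J + ex * IT * (be + s) - ex * IB * be = -ex * B := by rw [hB]; ring
    rw [hD]
    have c1 : |-ex * B| ≤ s := by rw [abs_mul, abs_neg, habs, one_mul]; exact b2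
    have c2 : |s - (-ex * B)| ≤ s := by
      have : s - (-ex * B) = -ex * (-s * ex - B) := by linear_combination (-s) * hex
      rw [this, abs_mul, abs_neg, habs, one_mul]; exact b3
    rw [abs_le] at c1 c2
    exact ⟨by linarith [c2.2], c1.2⟩

end

end Crest.Agent.R105.Ptw_185
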