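import Crest.Agent.R105.Ptw2_116

/-!
# Row 105 (S0138), node E13, JOB 2 (helper116): `ptw_of_bal : BAL → ADMG → PTW`
-/

set_option autoImplicit false

open MeasureTheory Set Filter Topology Metric
open scoped NNReal ENNReal ContDiff

namespace Crest.Agent.R105.Ptw_116

open Crest.AnalysisR Tc_808 Ends_897 Bd_775
open Ni_459 (NI)
open Sqr_185 (sec SqK)
open Pct_185 (PicT)
open SkA_8 (Pk)
open E13_499

noncomputable section

variable {Y : Set ℂ} {x0 φ A : ℂ → ℝ} {a b : ℕ → ℂ → ℝ} {F P : ℂ → ℂ} {i : ℕ} {K : Cmp Yᶜᶜ}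
  {h1 θ : ℝ → ℝ} {O : Set ℂ} {ex eu t0 be s : ℝ} {xT xB yT yB vT vB gT gB kT kB : ℝ → ℝ}

theorem deriv_zero {h : ℝ → ℝ} {l r c d : ℝ} (h1 : ∀ v ≤ l, h v = c) (h2 : ∀ v, r ≤ v → h v = d)
    {v : ℝ} (hv : v ∉ Icc l r) : deriv h v = 0 := by
  rw [mem_Icc, not_and_or, not_le, not_le] at hv
  rcases hv with hv | hv
  · have : h =ᶠ[𝓝 v] fun _ => c := by
      filter_upwards [Iio_mem_nhds hv] with y hy using h1 y (le_of_lt hy)
    rw [this.deriv_eq, deriv_const]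
  · have : h =ᶠ[𝓝 v] fun _ => d := by
      filter_upwards [Ioi_mem_nhds hv] with y hy using h2 y (le_of_lt hy)
    rw [this.deriv_eq, deriv_const]

theorem stp_of {t1 t2 : ℝ} {h : ℝ → ℝ} (H : Cnt_116.Stp t1 t2 h) :
    Stp h ∧ ∀ v, deriv h v ≠ 0 → v ∈ Ioo t1 t2 := by
  obtain ⟨l, hl, hl1⟩ := H.lo
  obtain ⟨r, hr, hr1⟩ := H.hi
  refine ⟨⟨H.sm, fun t => ⟨H.nonneg t, H.le_one t⟩, ?_⟩, fun v hv => ?_⟩
  · exact HasCompactSupport.intro (isCompact_Icc (a := l) (b := r)) fun v hv =>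
      deriv_zero hl1 hr1 hv
  · have : v ∈ Icc l r := by
      by_contra hn
      exact hv (deriv_zero hl1 hr1 hn)
    exact ⟨hl.trans_le this.1, this.2.trans_lt hr⟩

theorem stpD_of {t1 t2 : ℝ} {h : ℝ → ℝ} (H : Cnt_116.StpD t1 t2 h) :
    Stp h ∧ ∀ v, deriv h v ≠ 0 → v ∈ Ioo t1 t2 := by
  obtain ⟨l, hl, hl1⟩ := H.lo
  obtain ⟨r, hr, hr1⟩ := H.hi
  refine ⟨⟨H.sm, fun t => ⟨?_, ?_⟩, ?_⟩, fun v hv => ?_⟩
  · rcases le_total r t with h2 | h2
    · exact (hr1 t h2).ge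
    · rw [← hr1 r le_rfl]; exact H.anti h2
  · rcases le_total t l with h2 | h2
    · exact (hl1 t h2).le
    · rw [← hl1 l le_rfl]; exact H.anti h2
  · exact HasCompactSupport.intro (isCompact_Icc (a := l) (b := r)) fun v hv =>
      deriv_zero hl1 hr1 hv
  · have : v ∈ Icc l r := by
      by_contra hn
      exact hv (deriv_zero hl1 hr1 hn)
    exact ⟨hl.trans_le this.1, this.2.trans_lt hr⟩

/-- a base step for the sign `eu` -/
theorem base_step (heu : eu = 1 ∨ eu = -1) (t0 : ℝ) {r : ℝ} (hr : 0 < r) :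
    ∃ h : ℝ → ℝ, Stp h ∧ (∀ v, h v ≠ 0 → r / 4 ≤ eu * (v - t0)) ∧ ∀ v, r ≤ eu * (v - t0) → h v = 1 := by
  have hε : (0 : ℝ) < r / 4 := by positivity
  rcases heu with rfl | rfl
  · have H : Cnt_116.Stp t0 (t0 + r) (Cnt_116.stp (t0 + r / 2) (r / 4)) :=
      Cnt_116.stp_stp hε (by linarith) (by linarith)
    refine ⟨_, (stp_of H).1, fun v hv => ?_, fun v hv => ?_⟩
    · by_contra hn
      exact hv (Cnt_116.stp_zero hε (by linarith))
    · exact Cnt_116.stp_one hε (by linarith)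
  · have H : Cnt_116.Stp (-t0) (-(t0 - r)) (Cnt_116.stp (-t0 + r / 2) (r / 4)) :=
      Cnt_116.stp_stp hε (by linarith) (by linarith)
    refine ⟨_, (stpD_of H.dn).1, fun v hv => ?_, fun v hv => ?_⟩
    · by_contra hn
      exact hv (Cnt_116.stp_zero hε (by linarith))
    · exact Cnt_116.stp_one hε (by linarith)

/-- the heights of the ends are bounded -/
theorem y_bd (h : Pk Y x0 a φ F) (hi : Pk Y x0 b (a i) P)
    (hy : EndsOf (P '' Yᶜ)ᶜ (cF hi K) (pu hi fun z => (F z).im) yT yB) :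
    ∃ M, ∀ᵐ t : ℝ, t ∈ Ioo (Sqr_185.lo (cF hi K).1) (Sqr_185.hi (cF hi K).1) →
      |yT t| ≤ M ∧ |yB t| ≤ M := by
  have hE := (Uw6_913.picT hi).2.cpt
  have hEF := (Uw6_913.picT h).2.cpt
  obtain ⟨M, hM⟩ := ((cF h K).isCompact hEF).isBounded.subset_ball (0 : ℂ)
  have hev : ∀ᶠ w in eK (F '' Yᶜ)ᶜ (cF h K).1, |w.im| ≤ M := by
    have h2 : ∀ᶠ w in 𝓝ˢ (cF h K).1, w ∈ ball (0 : ℂ) M := isOpen_ball.mem_nhdsSet.2 hM
    refine mem_inf_of_left (h2.mono fun w hw => ?_)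
    rw [mem_ball_zero_iff] at hw
    exact (Complex.abs_im_le_norm w).trans hw.le
  refine ⟨M, ?_⟩
  filter_upwards [hy] with t ht hI
  obtain ⟨n1, n2⟩ := Lin_642.nebot hE (cF hi K) (Ioo_subset_Icc_self hI)
  obtain ⟨s1, s2⟩ := Bp_338.sec_end hE (cF hi K) hI
  have g1 := Lnk3_632.tendsto_end h hi K (Lnk3_632.topF_le (E := (P '' Yᶜ)ᶜ) (t := t)) s1
    Lnk3_632.topF_off
  have g2 := Lnk3_632.tendsto_end h hi K (Lnk3_632.botF_le (E := (P '' Yᶜ)ᶜ) (t := t)) s2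
    Lnk3_632.botF_off
  exact ⟨le_of_tendsto (ht hI).1.abs (g1.eventually hev),
    le_of_tendsto (ht hI).2.abs (g2.eventually hev)⟩

/-- the weights are measurable on the side of the level -/
theorem n_aem (hAD : ADMG) (h : Pk Y x0 a φ F) (hi : Pk Y x0 b (a i) P)
    (hx : EndsOf (P '' Yᶜ)ᶜ (cF hi K) (pu hi fun z => (F z).re) xT xB)
    (hθ : Rmp θ (Sqr_185.lo (cF h K).1) (Sqr_185.hi (cF h K).1) ex)
    (heu : eu = 1 ∨ eu = -1)
    (hU : Uc Y K.1 (fun z => min (eu * (x0 z + a i z - t0)) (θ (x0 z + φ z))) O)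
    {r : ℝ} (hr : 0 < r) {J : Set ℝ} (hJm : MeasurableSet J)
    (hJ : J ⊆ Ioo (Sqr_185.lo (cF hi K).1) (Sqr_185.hi (cF hi K).1))
    (hJr : ∀ t ∈ J, r ≤ eu * (t - t0)) :
    AEMeasurable (nT hi K O θ xT) (volume.restrict J) ∧
      AEMeasurable (nB hi K O θ xB) (volume.restrict J) := by
  obtain ⟨h1, hh, h2, h3⟩ := base_step heu t0 hr
  have hA : ContinuousOn (fun z => x0 z + a i z) Yᶜ := by
    refine ((Complex.continuous_re.comp_continuousOn hi.hol.continuousOn)).congr fun z hz => ?_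
    exact (hi.re z hz).symm
  have hr4 : (0 : ℝ) < r / 4 := by positivity
  have hU' := uc_mm hA hU hh hθ.st hr4 h2
  obtain ⟨⟨gT, gB, hg⟩, -, hll⟩ := exists_ends_gg hAD h hi K hh hθ hU'
  have hgv := g_val h hi hh hθ.st hx hg
  have hE := (Uw6_913.picT hi).2.cpt
  have hn := fun t (ht : t ∈ Ioo (Sqr_185.lo (cF hi K).1) (Sqr_185.hi (cF hi K).1)) =>
    Lin_642.nebot hE (cF hi K) (Ioo_subset_Icc_self ht)
  obtain ⟨m1, m2⟩ := Eam_116.ends_aem hE (cF hi K) hn (pu_cont hi hll.continuousOn) hg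
  obtain ⟨m3, m4⟩ := Eam_116.ends_aem hE (cF hi K) hn (pu_cont hi
    (Complex.continuous_re.comp_continuousOn h.hol.continuousOn)) hx
  have hθm : Measurable θ := hθ.st.smooth.continuous.measurable
  have hgv' : ∀ᵐ t ∂(volume.restrict J), gT t * θ (xT t) = nT hi K O θ xT t ∧
      gB t * θ (xB t) = nB hi K O θ xB t := by
    rw [ae_restrict_iff' hJm]
    filter_upwards [hgv] with t ht hI
    obtain ⟨e1, e2⟩ := ht (hJ hI)
    rw [e1, e2, h3 t (hJr t hI), one_mul, one_mul]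
    exact ⟨rfl, rfl⟩
  have mono := Measure.restrict_mono hJ (le_refl (volume : Measure ℝ))
  exact ⟨((m1.mul (hθm.comp_aemeasurable m3)).mono_measure mono).congr
      (hgv'.mono fun t ht => ht.1),
    ((m2.mul (hθm.comp_aemeasurable m4)).mono_measure mono).congr
      (hgv'.mono fun t ht => ht.2)⟩

theorem n_rg (hi : Pk Y x0 b (a i) P) (hθ : Stp θ) (t : ℝ) :
    |nT hi K O θ xT t| ≤ 1 ∧ |nB hi K O θ xB t| ≤ 1 := by
  have key : ∀ v, |θ v ^ 2| ≤ 1 := fun v => by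
    rw [abs_of_nonneg (sq_nonneg _)]
    nlinarith [(hθ.rg v).1, (hθ.rg v).2]
  unfold nT nB
  constructor
  · split_ifs
    · exact key _
    · rw [abs_zero]; exact zero_le_one
  · split_ifs
    · exact key _
    · rw [abs_zero]; exact zero_le_one

/-- integrability on the side of the level -/
theorem n_int (hAD : ADMG) (h : Pk Y x0 a φ F) (hi : Pk Y x0 b (a i) P)
    (hEd : Ed h hi K xT xB yT yB vT vB)
    (hθ : Rmp θ (Sqr_185.lo (cF h K).1) (Sqr_185.hi (cF h K).1) ex)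
    (heu : eu = 1 ∨ eu = -1)
    (hU : Uc Y K.1 (fun z => min (eu * (x0 z + a i z - t0)) (θ (x0 z + φ z))) O)
    {r : ℝ} (hr : 0 < r) {c d : ℝ}
    (hJ : Ioo c d ⊆ Ioo (Sqr_185.lo (cF hi K).1) (Sqr_185.hi (cF hi K).1))
    (hJr : ∀ t ∈ Ioo c d, r ≤ eu * (t - t0)) :
    IntegrableOn (fun t => nT hi K O θ xT t - nB hi K O θ xB t) (Ioo c d) ∧
    IntegrableOn (fun t => nT hi K O θ xT t * yT t - nB hi K O θ xB t * yB t) (Ioo c d) := by
  obtain ⟨m1, m2⟩ := n_aem hAD h hi hEd.x hθ heu hU hr measurableSet_Ioo hJ hJr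
  have hE := (Uw6_913.picT hi).2.cpt
  have hn := fun t (ht : t ∈ Ioo (Sqr_185.lo (cF hi K).1) (Sqr_185.hi (cF hi K).1)) =>
    Lin_642.nebot hE (cF hi K) (Ioo_subset_Icc_self ht)
  obtain ⟨m3, m4⟩ := Eam_116.ends_aem hE (cF hi K) hn (pu_cont hi
    (Complex.continuous_im.comp_continuousOn h.hol.continuousOn)) hEd.y
  have mono := Measure.restrict_mono hJ (le_refl (volume : Measure ℝ))
  obtain ⟨M, hM⟩ := y_bd h hi hEd.y
  have hM' : ∀ᵐ t ∂(volume.restrict (Ioo c d)), |yT t| ≤ M ∧ |yB t| ≤ M := by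
    rw [ae_restrict_iff' measurableSet_Ioo]
    filter_upwards [hM] with t ht hI using ht (hJ hI)
  have hI : ∀ {n y : ℝ → ℝ} {C : ℝ}, AEMeasurable n (volume.restrict (Ioo c d)) → (∀ t, |n t| ≤ 1) →
      AEMeasurable y (volume.restrict (Ioo c d)) →
      (∀ᵐ t ∂(volume.restrict (Ioo c d)), |y t| ≤ C) →
      IntegrableOn (fun t => n t * y t) (Ioo c d) := by
    intro n y C h2 h3 h4 h5
    refine Integrable.mono' (g := fun _ => C) (integrableOn_const measure_Ioo_lt_top.ne)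
      (h2.mul h4).aestronglyMeasurable ?_
    filter_upwards [h5] with t ht
    rw [norm_mul, Real.norm_eq_abs, Real.norm_eq_abs]
    calc |n t| * |y t| ≤ 1 * C := mul_le_mul (h3 t) ht (abs_nonneg _) zero_le_one
      _ = C := one_mul C
  have one : ∀ {n : ℝ → ℝ}, AEMeasurable n (volume.restrict (Ioo c d)) → (∀ t, |n t| ≤ 1) →
      IntegrableOn n (Ioo c d) := by
    intro n h2 h3
    refine Integrable.mono' (g := fun _ => 1) (integrableOn_const measure_Ioo_lt_top.ne)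
      h2.aestronglyMeasurable (ae_of_all _ fun t => ?_)
    rw [Real.norm_eq_abs]; exact h3 t
  have b1 : ∀ t, |nT hi K O θ xT t| ≤ 1 := fun t => (n_rg (xT := xT) (xB := xB) hi hθ.st t).1
  have b2 : ∀ t, |nB hi K O θ xB t| ≤ 1 := fun t => (n_rg (xT := xT) (xB := xB) hi hθ.st t).2
  exact ⟨(one m1 b1).sub (one m2 b2),
    (hI m1 b1 (m3.mono_measure mono) (hM'.mono fun t ht => ht.1)).sub
      (hI m2 b2 (m4.mono_measure mono) (hM'.mono fun t ht => ht.2))⟩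

open Classical in
/-- **PTW from BAL** -/
theorem ptw_of_bal (hB : BAL) (hAD : ADMG) : PTW := by
  intro Y x0 φ a b F P i K θ O h hi be s ex eu t0 xT xB yT yB vT vB hs hSq hsw hEd hθ heu ht0 hU
  have main : ∀ r : ℝ, 0 < r → ∀ᵐ t : ℝ,
      t ∈ Ioo (Sqr_185.lo (cF hi K).1) (Sqr_185.hi (cF hi K).1) → r < eu * (t - t0) →
      ∃ lT ∈ Icc (0 : ℝ) 1, ∃ lB ∈ Icc (0 : ℝ) 1,
      eu * ex * (nT hi K O θ xT t - nB hi K O θ xB t) + lT - lB = 0 ∧
      eu * ex * (nT hi K O θ xT t * yT t - nB hi K O θ xB t * yB t) + lT * (be + s) - lB * be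
        ∈ Icc 0 s := by
    intro r hr
    rcases heu with rfl | rfl
    · -- steps up on `(t0 + r, hi)`
      have hJ : Ioo (t0 + r) (Sqr_185.hi (cF hi K).1) ⊆
          Ioo (Sqr_185.lo (cF hi K).1) (Sqr_185.hi (cF hi K).1) := fun t ht =>
        ⟨by linarith [ht.1, ht0.1], ht.2⟩
      obtain ⟨i1, i2⟩ := n_int hAD h hi hEd hθ (Or.inl rfl) hU hr hJ
        (fun t ht => by linarith [ht.1])
      have h2 := Cnt_116.ptw (e := ex) (b := be) (s := s) two_ne_zero i1 i2 (fun h1 H => by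
        obtain ⟨hh, hd⟩ := stp_of H
        obtain ⟨l, hl, hl1⟩ := H.lo
        refine bal_core hB hAD h hi K hs hSq hsw hEd hθ hU hh hr (fun v hv => ?_) (fun v hv => ?_)
        · by_contra hn
          exact hv (hl1 v (by linarith))
        · exact Ioo_subset_Icc_self (hJ (hd v hv)))
      filter_upwards [h2] with t ht hI hrt
      obtain ⟨lT, a1, lB, a2, a3, a4⟩ := ht ⟨by linarith, hI.2⟩
      rw [one_mul]
      exact ⟨lT, a1, lB, a2, a3, a4⟩
    · -- steps down on `(lo, t0 - r)`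
      have hJ : Ioo (Sqr_185.lo (cF hi K).1) (t0 - r) ⊆
          Ioo (Sqr_185.lo (cF hi K).1) (Sqr_185.hi (cF hi K).1) := fun t ht =>
        ⟨ht.1, by linarith [ht.2, ht0.2]⟩
      obtain ⟨i1, i2⟩ := n_int hAD h hi hEd hθ (Or.inr rfl) hU hr hJ
        (fun t ht => by linarith [ht.2])
      have h2 := Cnt_116.ptw_dn (e := -ex) (b := be) (s := s) two_ne_zero i1 i2 (fun h1 H => by
        obtain ⟨hh, hd⟩ := stpD_of H
        obtain ⟨l, hl, hl1⟩ := H.hi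
        obtain ⟨lT, a1, lB, a2, a3, a4⟩ := bal_core hB hAD h hi K hs hSq hsw hEd hθ hU hh hr
          (fun v hv => by
            by_contra hn
            exact hv (hl1 v (by linarith)))
          (fun v hv => Ioo_subset_Icc_self (hJ (hd v hv)))
        refine ⟨lT, a1, lB, a2, ?_, ?_⟩
        · rw [neg_mul_neg]; exact a3
        · rw [neg_mul_neg]; exact a4)
      filter_upwards [h2] with t ht hI hrt
      obtain ⟨lT, a1, lB, a2, a3, a4⟩ := ht ⟨hI.1, by linarith⟩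
      rw [neg_one_mul]
      exact ⟨lT, a1, lB, a2, a3, a4⟩
  have hall : ∀ᵐ t : ℝ, ∀ n : ℕ,
      t ∈ Ioo (Sqr_185.lo (cF hi K).1) (Sqr_185.hi (cF hi K).1) → 1 / ((n : ℝ) + 1) < eu * (t - t0) →
      ∃ lT ∈ Icc (0 : ℝ) 1, ∃ lB ∈ Icc (0 : ℝ) 1,
      eu * ex * (nT hi K O θ xT t - nB hi K O θ xB t) + lT - lB = 0 ∧
      eu * ex * (nT hi K O θ xT t * yT t - nB hi K O θ xB t * yB t) + lT * (be + s) - lB * be
        ∈ Icc 0 s := ae_all_iff.2 fun n => main _ (by positivity)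
  filter_upwards [hall] with t ht hI hpos
  obtain ⟨n, hn⟩ := exists_nat_one_div_lt hpos
  exact ht n hI hn

end

end Crest.Agent.R105.Ptw_116
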