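import Crest.Agent.R105.Ptw2_185

/-!
# Row 105, S0138, node E13: `PTW` from `BAL`, part 3 (helper185)

**`ptw_of_bal : BAL → ADMG → PTW`**.
-/

set_option autoImplicit false

open MeasureTheory Set Filter Topology Metric
open scoped NNReal ENNReal ContDiff

namespace Crest.Agent.R105.Ptw_185

open Tc_808 Bd_775 Ends_897 Ni_459
open SkA_8 (Pk)
open E13_499
open Bp_338 (Wt pu_apply ends_congr ends_comp ends_mul ends_cut)

noncomputable section

variable {Y : Set ℂ} {x0 φ A : ℂ → ℝ} {a b : ℕ → ℂ → ℝ} {F P : ℂ → ℂ} {i : ℕ}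

/-- step functions which are constant outside a compact interval -/
theorem stp_of {f : ℝ → ℝ} (hs : ContDiff ℝ ∞ f) (h01 : ∀ t, 0 ≤ f t ∧ f t ≤ 1) {τ1 τ2 c1 c2 : ℝ}
    (h1 : ∀ v ≤ τ1, f v = c1) (h2 : ∀ v, τ2 ≤ v → f v = c2) :
    E13_499.Stp f ∧ (∀ t, t < τ1 → deriv f t = 0) ∧ ∀ t, τ2 < t → deriv f t = 0 := by
  have d1 : ∀ t, t < τ1 → deriv f t = 0 := fun t ht => by
    have : f =ᶠ[𝓝 t] fun _ => c1 := by
      filter_upwards [Iio_mem_nhds ht] with v hv using h1 v (le_of_lt hv)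
    rw [this.deriv_eq]; simp
  have d2 : ∀ t, τ2 < t → deriv f t = 0 := fun t ht => by
    have : f =ᶠ[𝓝 t] fun _ => c2 := by
      filter_upwards [Ioi_mem_nhds ht] with v hv using h2 v (le_of_lt hv)
    rw [this.deriv_eq]; simp
  refine ⟨⟨hs, h01, HasCompactSupport.intro (isCompact_Icc (a := τ1) (b := τ2)) fun t ht => ?_⟩,
    d1, d2⟩
  rw [mem_Icc, not_and_or, not_le, not_le] at ht
  rcases ht with ht | ht
  · exact d1 t ht
  · exact d2 t ht

theorem nT_mem (hi : Pk Y x0 b (a i) P) (K : Cmp Yᶜᶜ) (O : Set ℂ) {θ : ℝ → ℝ}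
    (hθ : E13_499.Stp θ) (xT : ℝ → ℝ) (t : ℝ) : nT hi K O θ xT t ∈ Icc (0 : ℝ) 1 := by
  unfold nT
  split_ifs
  · exact ⟨sq_nonneg _, pow_le_one₀ (hθ.rg _).1 (hθ.rg _).2⟩
  · exact ⟨le_rfl, zero_le_one⟩

theorem nB_mem (hi : Pk Y x0 b (a i) P) (K : Cmp Yᶜᶜ) (O : Set ℂ) {θ : ℝ → ℝ}
    (hθ : E13_499.Stp θ) (xB : ℝ → ℝ) (t : ℝ) : nB hi K O θ xB t ∈ Icc (0 : ℝ) 1 := by
  unfold nB
  split_ifs
  · exact ⟨sq_nonneg _, pow_le_one₀ (hθ.rg _).1 (hθ.rg _).2⟩
  · exact ⟨le_rfl, zero_le_one⟩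

/-- measurability of the numbers on the interval where a step function is one -/
theorem n_meas (hA : ADMG) (h : Pk Y x0 a φ F) (hi : Pk Y x0 b (a i) P)
    (K : Cmp Yᶜᶜ) {h1 θ : ℝ → ℝ} {O : Set ℂ} {ex eu t0 δ t1 t2 : ℝ}
    {xT xB : ℝ → ℝ} (hh : E13_499.Stp h1) (hδ : 0 < δ)
    (hsup : ∀ t, h1 t ≠ 0 → δ ≤ eu * (t - t0)) (hone : ∀ t ∈ Ioo t1 t2, h1 t = 1)
    (hsub : Ioo t1 t2 ⊆ Ioo (Sqr_185.lo (cF hi K).1) (Sqr_185.hi (cF hi K).1))
    (hR : Rmp θ (Sqr_185.lo (cF h K).1) (Sqr_185.hi (cF h K).1) ex)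
    (hO : Uc Y K.1 (fun z => min (eu * (x0 z + a i z - t0)) (θ (x0 z + φ z))) O)
    (hx : EndsOf (P '' Yᶜ)ᶜ (cF hi K) (pu hi fun z => (F z).re) xT xB) :
    AEStronglyMeasurable (nT hi K O θ xT) (volume.restrict (Ioo t1 t2)) ∧
    AEStronglyMeasurable (nB hi K O θ xB) (volume.restrict (Ioo t1 t2)) := by
  have hU := uc_step h hh hR.st hδ hsup hO
  obtain ⟨gT, gB, kT, kB, e1, -, i1, i2, -, -⟩ := exists_ends_gg hA h hi K hh hR hU
  rw [gg_cut hh hR.st] at e1
  have v1 := g_vals h hi K hR.st.smooth.continuous hx e1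
  have hsub' : Ioo t1 t2 ⊆ Icc (Sqr_185.lo (cF hi K).1) (Sqr_185.hi (cF hi K).1) :=
    hsub.trans Ioo_subset_Icc_self
  have m1 := (i1.mono_set hsub').aestronglyMeasurable
  have m2 := (i2.mono_set hsub').aestronglyMeasurable
  have v3 : ∀ᵐ t ∂(volume.restrict (Ioo t1 t2)),
      gT t * gT t = nT hi K O θ xT t ∧ gB t * gB t = nB hi K O θ xB t := by
    rw [ae_restrict_iff' measurableSet_Ioo]
    filter_upwards [v1] with t ht hI
    obtain ⟨q1, q2⟩ := ht (hsub hI)
    rw [q1, q2, hone t hI, nT, nB]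
    constructor <;> split_ifs <;> ring
  exact ⟨(m1.mul m1).congr (v3.mono fun t ht => ht.1), (m2.mul m2).congr (v3.mono fun t ht => ht.2)⟩

/-- integrability of the numbers -/
theorem n_int {n m yT yB : ℝ → ℝ} {t1 t2 l u : ℝ}
    (hn : AEStronglyMeasurable n (volume.restrict (Ioo t1 t2)))
    (hm : AEStronglyMeasurable m (volume.restrict (Ioo t1 t2)))
    (hn1 : ∀ t, n t ∈ Icc (0 : ℝ) 1) (hm1 : ∀ t, m t ∈ Icc (0 : ℝ) 1)
    (hsub : Ioo t1 t2 ⊆ Ioo l u)
    (hyT : IntegrableOn yT (Icc l u)) (hyB : IntegrableOn yB (Icc l u)) :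
    IntegrableOn (fun t => n t - m t) (Ioo t1 t2) ∧
    IntegrableOn (fun t => n t * yT t - m t * yB t) (Ioo t1 t2) := by
  have hsub' : Ioo t1 t2 ⊆ Icc l u := hsub.trans Ioo_subset_Icc_self
  have b1 : ∀ᵐ t ∂(volume.restrict (Ioo t1 t2)), ‖n t‖ ≤ 1 := Eventually.of_forall fun t => by
    rw [Real.norm_eq_abs, abs_of_nonneg (hn1 t).1]; exact (hn1 t).2
  have b2 : ∀ᵐ t ∂(volume.restrict (Ioo t1 t2)), ‖m t‖ ≤ 1 := Eventually.of_forall fun t => by
    rw [Real.norm_eq_abs, abs_of_nonneg (hm1 t).1]; exact (hm1 t).2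
  have hc : IntegrableOn (fun _ : ℝ => (1 : ℝ)) (Ioo t1 t2) := by
    refine integrableOn_const ?_
    exact measure_Ioo_lt_top.ne
  have j1 : IntegrableOn (fun t => n t * 1) (Ioo t1 t2) := Integrable.bdd_mul (c := 1) hc hn b1
  have j2 : IntegrableOn (fun t => m t * 1) (Ioo t1 t2) := Integrable.bdd_mul (c := 1) hc hm b2
  have j3 : IntegrableOn (fun t => n t * yT t) (Ioo t1 t2) :=
    Integrable.bdd_mul (c := 1) (hyT.mono_set hsub') hn b1
  have j4 : IntegrableOn (fun t => m t * yB t) (Ioo t1 t2) :=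
    Integrable.bdd_mul (c := 1) (hyB.mono_set hsub') hm b2
  simp only [mul_one] at j1 j2
  exact ⟨j1.sub j2, j3.sub j4⟩

/-- **`PTW` from `BAL`** -/
theorem ptw_of_bal (hBAL : BAL) (hA : ADMG) : PTW := by
  intro Y x0 φ a b F P i K θ O h hi be s ex eu t0 xT xB yT yB vT vB hs hSq hwd hE hR heu ht0 hO
  obtain ⟨iy1, iy2⟩ := wt_int hi K (Wt.im h hi) hE.y
  have main : ∀ n : ℕ, ∀ᵐ t : ℝ,
      t ∈ Ioo (Sqr_185.lo (cF hi K).1) (Sqr_185.hi (cF hi K).1) →
      1 / ((n : ℝ) + 1) < eu * (t - t0) →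
      ∃ lT ∈ Icc (0 : ℝ) 1, ∃ lB ∈ Icc (0 : ℝ) 1,
        (eu * ex) * (nT hi K O θ xT t - nB hi K O θ xB t) + lT - lB = 0 ∧
        (eu * ex) * (nT hi K O θ xT t * yT t - nB hi K O θ xB t * yB t) + lT * (be + s) - lB * be
          ∈ Icc 0 s := by
    intro n
    set d : ℝ := 1 / ((n : ℝ) + 1) with hd
    have hd0 : 0 < d := by rw [hd]; positivity
    rcases heu with rfl | rfl
    · -- steps up
      have hsub : Ioo (t0 + d) (Sqr_185.hi (cF hi K).1) ⊆
          Ioo (Sqr_185.lo (cF hi K).1) (Sqr_185.hi (cF hi K).1) := fun t ht =>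
        ⟨by linarith [ht.1, ht0.1], ht.2⟩
      -- the base step
      obtain ⟨f1, -, -⟩ := stp_of (f := Cnt_116.stp (t0 + 3 * d / 4) (d / 4))
        (Cnt_116.stp_contDiff _ _)
        (fun t => ⟨Real.smoothTransition.nonneg _, Real.smoothTransition.le_one _⟩)
        (fun v hv => Cnt_116.stp_zero (t := t0 + 3 * d / 4) (ε := d / 4) (by positivity) hv)
        (fun v hv => Cnt_116.stp_one (t := t0 + 3 * d / 4) (ε := d / 4) (by positivity) hv)
      obtain ⟨m1, m2⟩ := n_meas hA h hi K (eu := 1) (t0 := t0) (δ := d / 2) f1 (by positivity)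
        (fun t ht => by
          by_contra hc
          exact ht (Cnt_116.stp_zero (by positivity) (by linarith)))
        (fun t ht => Cnt_116.stp_one (by positivity) (by linarith [ht.1])) hsub hR hO hE.x
      obtain ⟨j1, j2⟩ := n_int m1 m2 (nT_mem hi K O hR.st xT) (nB_mem hi K O hR.st xB) hsub iy1 iy2
      have h5 := Cnt_116.ptw (k := 2) (e := (1 : ℝ) * ex) (b := be) (s := s) two_ne_zero j1 j2 (by
        intro f hf
        obtain ⟨τ1, p1, p2⟩ := hf.lo
        obtain ⟨τ2, p3, p4⟩ := hf.hi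
        obtain ⟨g1, g2, g3⟩ := stp_of hf.sm (fun t => ⟨hf.nonneg t, hf.le_one t⟩) p2 p4
        rw [one_mul]
        refine bal_step hBAL hA h hi K (eu := 1) (t0 := t0) (δ := d) g1 hd0 (fun t ht => ?_)
          (fun t ht => ?_) hR hO hs hSq hwd hE
        · by_contra hc
          exact ht (p2 t (by linarith))
        · rw [mem_Icc, not_and_or, not_le, not_le] at ht
          rcases ht with ht | ht
          · exact g2 t (by linarith [ht0.1])
          · exact g3 t (by linarith))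
      filter_upwards [h5] with t ht hI hlt
      exact ht ⟨by linarith, hI.2⟩
    · -- steps down
      have hsub : Ioo (Sqr_185.lo (cF hi K).1) (t0 - d) ⊆
          Ioo (Sqr_185.lo (cF hi K).1) (Sqr_185.hi (cF hi K).1) := fun t ht =>
        ⟨ht.1, by linarith [ht.2, ht0.2]⟩
      obtain ⟨f1, -, -⟩ := stp_of (f := fun v => 1 - Cnt_116.stp (t0 - 3 * d / 4) (d / 4) v)
        (contDiff_const.sub (Cnt_116.stp_contDiff _ _))
        (fun t => ⟨by linarith [show Cnt_116.stp (t0 - 3 * d / 4) (d / 4) t ≤ 1 from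
            Real.smoothTransition.le_one _],
          by linarith [show 0 ≤ Cnt_116.stp (t0 - 3 * d / 4) (d / 4) t from
            Real.smoothTransition.nonneg _]⟩)
        (fun v hv => by
          rw [Cnt_116.stp_zero (t := t0 - 3 * d / 4) (ε := d / 4) (by positivity) hv])
        (fun v hv => by
          rw [Cnt_116.stp_one (t := t0 - 3 * d / 4) (ε := d / 4) (by positivity) hv])
      obtain ⟨m1, m2⟩ := n_meas hA h hi K (eu := -1) (t0 := t0) (δ := d / 2) f1 (by positivity)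
        (fun t ht => by
          by_contra hc
          refine ht ?_
          rw [Cnt_116.stp_one (by positivity) (by linarith), sub_self])
        (fun t ht => by
          rw [Cnt_116.stp_zero (by positivity) (by linarith [ht.2]), sub_zero]) hsub hR hO hE.x
      obtain ⟨j1, j2⟩ := n_int m1 m2 (nT_mem hi K O hR.st xT) (nB_mem hi K O hR.st xB) hsub iy1 iy2
      have h5 := Cnt_116.ptw_dn (k := 2) (e := (-1 : ℝ) * ex) (b := be) (s := s) two_ne_zero j1 j2 (by
        intro f hf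
        obtain ⟨τ1, p1, p2⟩ := hf.lo
        obtain ⟨τ2, p3, p4⟩ := hf.hi
        have hf0 : ∀ t, 0 ≤ f t := fun t => by
          rcases le_total t τ2 with ht | ht
          · rw [← p4 τ2 le_rfl]; exact hf.anti ht
          · exact (p4 t ht).ge
        have hf1 : ∀ t, f t ≤ 1 := fun t => by
          rcases le_total t τ1 with ht | ht
          · exact (p2 t ht).le
          · rw [← p2 τ1 le_rfl]; exact hf.anti ht
        obtain ⟨g1, g2, g3⟩ := stp_of hf.sm (fun t => ⟨hf0 t, hf1 t⟩) p2 p4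
        obtain ⟨lT, q1, lB, q2, q3, q4⟩ := bal_step hBAL hA h hi K (eu := -1) (t0 := t0) (δ := d)
          g1 hd0 (fun t ht => by
            by_contra hc
            exact ht (p4 t (by linarith)))
          (fun t ht => by
            rw [mem_Icc, not_and_or, not_le, not_le] at ht
            rcases ht with ht | ht
            · exact g2 t (by linarith)
            · exact g3 t (by linarith [ht0.2])) hR hO hs hSq hwd hE
        refine ⟨lT, q1, lB, q2, ?_, ?_⟩
        · rw [← q3]; ring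
        · convert q4 using 1; ring)
      filter_upwards [h5] with t ht hI hlt
      exact ht ⟨hI.1, by linarith⟩
  have hall := ae_all_iff.2 main
  filter_upwards [hall] with t ht hI hpos
  obtain ⟨n, hn⟩ := exists_nat_one_div_lt hpos
  exact ht n hI hn

end

end Crest.Agent.R105.Ptw_185
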