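import Crest.Agent.R105.Ptw3_116
import Crest.Agent.R105.Adg4_600
import Crest.Agent.R105.Bal2_61

/-!
# Row 105 (S0138), node E13: `PTW` (closed theorem) (helper116)
-/

namespace Crest.Agent.R105.Ptw_116

/-- **PTW** -/
theorem ptw : E13_499.PTW := ptw_of_bal Fml_61.bal Adg_600.admg

end Crest.Agent.R105.Ptw_116
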